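import Mathlib

/-!
Grids in Euclidean space: cells, lattice point counts and covers of tubes around flats.
-/

namespace Vale.Agent.P309

open MeasureTheory Finset
open scoped ENNReal RealInnerProductSpace

/-- Euclidean space of dimension n + 1. -/
abbrev Sp (n : ℕ) := EuclideanSpace ℝ (Fin (n + 1))

/-- A finite set of integer vectors near one point is small. -/
lemma lattice_count {ι : Type*} [Fintype ι] (S : Finset (ι → ℤ)) (a : ι → ℝ) {R : ℝ}
    (hS : ∀ z ∈ S, ∑ i, ((z i : ℝ) - a i) ^ 2 ≤ R) :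
    (S.card : ℝ) ≤ Real.exp R * 4 ^ Fintype.card ι := by
  classical
  have hone : ∀ (A : Finset ℤ) (x : ℝ), ∑ z ∈ A, Real.exp (-((z : ℝ) - x) ^ 2) ≤ 4 := by
    intro A x
    let f : ℤ → ℕ × Bool := fun z => (⌊|(z : ℝ) - x|⌋₊, decide (x ≤ z))
    have hf : Set.InjOn f A := by
      intro z _ z' _ h
      simp only [f, Prod.mk.injEq, decide_eq_decide] at h
      obtain ⟨h1, h2⟩ := h
      have e1 := Nat.floor_le (abs_nonneg ((z : ℝ) - x))
      have e2 := Nat.lt_floor_add_one |(z : ℝ) - x|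
      have e3 := Nat.floor_le (abs_nonneg ((z' : ℝ) - x))
      have e4 := Nat.lt_floor_add_one |(z' : ℝ) - x|
      rw [h1] at e1 e2
      have huv : |(|(z : ℝ) - x| - |(z' : ℝ) - x|)| < 1 := by
        rw [abs_lt]; constructor <;> linarith
      have hlt : |((z - z' : ℤ) : ℝ)| < 1 := by
        push_cast
        by_cases hx : x ≤ z
        · rw [abs_of_nonneg (sub_nonneg.2 hx), abs_of_nonneg (sub_nonneg.2 (h2.1 hx)),
            sub_sub_sub_cancel_right] at huv
          exact huv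
        · have hx' : ¬ x ≤ z' := fun h => hx (h2.2 h)
          rw [abs_of_neg (sub_neg.2 (not_le.1 hx)), abs_of_neg (sub_neg.2 (not_le.1 hx')),
            neg_sub, neg_sub, sub_sub_sub_cancel_left] at huv
          rwa [abs_sub_comm]
      have : |z - z'| < 1 := by exact_mod_cast hlt
      have := abs_lt.1 this
      omega
    have hterm : ∀ z : ℤ, Real.exp (-((z : ℝ) - x) ^ 2) ≤ (1 / 2) ^ (f z).1 := by
      intro z
      simp only [f]
      set j := ⌊|(z : ℝ) - x|⌋₊ with hj
      rcases Nat.eq_zero_or_pos j with h0 | h0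
      · rw [h0, pow_zero]
        exact Real.exp_le_one_iff.2 (by nlinarith [sq_nonneg ((z : ℝ) - x)])
      · have h1 : (1 : ℝ) ≤ j := by exact_mod_cast h0
        have h2 : (j : ℝ) ≤ |(z : ℝ) - x| := Nat.floor_le (abs_nonneg _)
        have h3 : (1 / 2 : ℝ) ^ j = Real.exp (-(j * Real.log 2)) := by
          rw [← Real.log_pow, Real.exp_neg, Real.exp_log (by positivity), one_div, inv_pow]
        rw [h3]
        refine Real.exp_le_exp.2 ?_
        have hl : Real.log 2 ≤ 1 := (Real.log_le_sub_one_of_pos two_pos).trans (by norm_num)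
        have hsq : ((z : ℝ) - x) ^ 2 = |(z : ℝ) - x| ^ 2 := (sq_abs _).symm
        nlinarith
    calc ∑ z ∈ A, Real.exp (-((z : ℝ) - x) ^ 2) ≤ ∑ z ∈ A, (1 / 2 : ℝ) ^ (f z).1 :=
          Finset.sum_le_sum fun z _ => hterm z
      _ = ∑ p ∈ A.image f, (1 / 2 : ℝ) ^ p.1 := (Finset.sum_image (g := f) (f := fun p => (1 / 2 : ℝ) ^ p.1) hf).symm
      _ ≤ ∑ p ∈ ((A.image f).image Prod.fst) ×ˢ (Finset.univ : Finset Bool), (1 / 2 : ℝ) ^ p.1 :=
          Finset.sum_le_sum_of_subset_of_nonneg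
            (fun p hp => mem_product.2 ⟨mem_image_of_mem _ hp, mem_univ _⟩)
            (fun _ _ _ => by positivity)
      _ = 2 * ∑ j ∈ (A.image f).image Prod.fst, (1 / 2 : ℝ) ^ j := by
          rw [Finset.sum_product, Finset.mul_sum]
          exact Finset.sum_congr rfl fun j _ => by simp
      _ ≤ 2 * 2 := by
          gcongr
          exact (Summable.sum_le_tsum _ (fun _ _ => by positivity) summable_geometric_two).trans
            tsum_geometric_two.le
      _ = 4 := by norm_num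
  calc (S.card : ℝ) = ∑ _z ∈ S, (1 : ℝ) := by simp
    _ ≤ ∑ z ∈ S, Real.exp R * Real.exp (-∑ i, ((z i : ℝ) - a i) ^ 2) :=
        Finset.sum_le_sum fun z hz => by
          rw [← Real.exp_add]; exact Real.one_le_exp (by linarith [hS z hz])
    _ = Real.exp R * ∑ z ∈ S, ∏ i, Real.exp (-((z i : ℝ) - a i) ^ 2) := by
        rw [Finset.mul_sum]
        exact Finset.sum_congr rfl fun z _ => by rw [← Real.exp_sum, Finset.sum_neg_distrib]
    _ ≤ Real.exp R * ∑ z ∈ (Fintype.piFinset (fun i => S.image fun z => z i) : Finset (ι → ℤ)),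
          ∏ i, Real.exp (-((z i : ℝ) - a i) ^ 2) := by
        gcongr
        exact fun z hz => Fintype.mem_piFinset.2 fun i => mem_image_of_mem (fun z : ι → ℤ => z i) hz
    _ = Real.exp R * ∏ i, ∑ z ∈ (S.image (fun z => z i) : Finset ℤ), Real.exp (-((z : ℝ) - a i) ^ 2) := by
        rw [Finset.prod_univ_sum]
    _ ≤ Real.exp R * 4 ^ Fintype.card ι := by
        gcongr
        rw [← Finset.card_univ, ← Finset.prod_const]
        exact Finset.prod_le_prod (fun i _ => by positivity) fun i _ => hone _ _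

/-- Integer points in a scaled ball. -/
lemma lattice_count_scaled {ι : Type*} [Fintype ι] (S : Finset (ι → ℤ)) (a : ι → ℝ) {R : ℝ}
    {m : ℕ} (hm : 0 < m) (hS : ∀ z ∈ S, ∑ i, ((z i : ℝ) - a i) ^ 2 ≤ (m : ℝ) ^ 2 * R) :
    (S.card : ℝ) ≤ (m : ℝ) ^ Fintype.card ι * (Real.exp (2 * R + 2 * Fintype.card ι) * 4 ^ Fintype.card ι) := by
  classical
  have hmz : (0 : ℤ) < m := by exact_mod_cast hm
  have hmr : (0 : ℝ) < m := by exact_mod_cast hm
  let g : (ι → ℤ) → (ι → ℤ) × (ι → ℤ) := fun z => (fun i => z i / m, fun i => z i % m)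
  have hg : Set.InjOn g S := by
    intro z _ z' _ h
    funext i
    have h1 := congrFun (congrArg Prod.fst h) i
    have h2 := congrFun (congrArg Prod.snd h) i
    simp only [g] at h1 h2
    rw [← Int.mul_ediv_add_emod (z i) m, ← Int.mul_ediv_add_emod (z' i) m, h1, h2]
  have hQ : ((S.image fun z => fun i => z i / (m : ℤ)).card : ℝ)
      ≤ Real.exp (2 * R + 2 * Fintype.card ι) * 4 ^ Fintype.card ι := by
    refine lattice_count _ (fun i => a i / m) fun q hq => ?_
    obtain ⟨z, hz, rfl⟩ := mem_image.1 hq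
    have hi : ∀ i, (((z i / (m : ℤ) : ℤ) : ℝ) - a i / m) ^ 2
        ≤ 2 * (((z i : ℝ) - a i) / m) ^ 2 + 2 := by
      intro i
      have e : (z i : ℝ) = (m : ℝ) * ((z i / (m : ℤ) : ℤ) : ℝ) + ((z i % (m : ℤ) : ℤ) : ℝ) := by
        exact_mod_cast (Int.mul_ediv_add_emod (z i) (m : ℤ)).symm
      have r0 : (0 : ℝ) ≤ ((z i % (m : ℤ) : ℤ) : ℝ) := by exact_mod_cast Int.emod_nonneg _ hmz.ne'
      have r1 : ((z i % (m : ℤ) : ℤ) : ℝ) ≤ (m : ℝ) := by
        exact_mod_cast (Int.emod_lt_of_pos (z i) hmz).le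
      set q := ((z i / (m : ℤ) : ℤ) : ℝ)
      set r := ((z i % (m : ℤ) : ℤ) : ℝ)
      have : q - a i / m = ((z i : ℝ) - a i) / m - r / m := by rw [e]; field_simp; ring
      rw [this]
      have h0 : 0 ≤ r / (m : ℝ) := div_nonneg r0 hmr.le
      have h1 : r / (m : ℝ) ≤ 1 := (div_le_one hmr).2 r1
      nlinarith [sq_nonneg (((z i : ℝ) - a i) / m + r / m)]
    refine (Finset.sum_le_sum fun i _ => hi i).trans ?_
    rw [Finset.sum_add_distrib, ← Finset.mul_sum]
    simp only [div_pow, ← Finset.sum_div, sum_const, card_univ, nsmul_eq_mul]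
    have := hS z hz
    have : (∑ i, ((z i : ℝ) - a i) ^ 2) / (m : ℝ) ^ 2 ≤ R :=
      (div_le_iff₀ (by positivity)).2 (by linarith)
    linarith
  have hsub : S.image g ⊆ (S.image fun z => fun i => z i / (m : ℤ)) ×ˢ
      Fintype.piFinset (fun _ : ι => Finset.Ico (0 : ℤ) m) := by
    intro p hp
    obtain ⟨z, hz, rfl⟩ := mem_image.1 hp
    exact mem_product.2 ⟨mem_image_of_mem _ hz, Fintype.mem_piFinset.2 fun i =>
      mem_Ico.2 ⟨Int.emod_nonneg _ hmz.ne', Int.emod_lt_of_pos _ hmz⟩⟩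
  have := card_le_card hsub
  rw [card_image_of_injOn hg, card_product, Fintype.card_piFinset] at this
  simp only [Int.card_Ico, sub_zero, Int.toNat_natCast, prod_const, card_univ] at this
  calc (S.card : ℝ) ≤ ((S.image fun z => fun i => z i / (m : ℤ)).card : ℝ) * (m : ℝ) ^ Fintype.card ι := by
        exact_mod_cast this
    _ ≤ _ := by rw [mul_comm]; gcongr

variable {n : ℕ}

/-- The scale of level l cells. -/
noncomputable def scale (n K l : ℕ) : ℝ := Real.sqrt (n + 1) * (K : ℝ) ^ l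

/-- The index of the cell of level l containing v. -/
noncomputable def idx (K l : ℕ) (v : Sp n) : Fin (n + 1) → ℤ := fun i => ⌊v i * scale n K l⌋

/-- The cell of level l with index j. -/
def cell (K l : ℕ) (j : Fin (n + 1) → ℤ) : Set (Sp n) := idx K l ⁻¹' {j}

lemma measurable_idx (K l : ℕ) : Measurable (idx (n := n) K l) :=
  measurable_pi_lambda _ fun i =>
    Int.measurable_floor.comp ((((EuclideanSpace.proj i : Sp n →L[ℝ] ℝ).continuous.measurable)).mul_const _)

lemma measurableSet_cell (K l : ℕ) (j : Fin (n + 1) → ℤ) : MeasurableSet (cell K l j) :=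
  measurable_idx K l (measurableSet_singleton j)

lemma mem_cell_idx (K l : ℕ) (v : Sp n) : v ∈ cell K l (idx K l v) := rfl

lemma scale_pos {K : ℕ} (hK : 0 < K) (l : ℕ) : 0 < scale n K l := by
  unfold scale; positivity

lemma idx_mono {K : ℕ} (hK : 0 < K) {l l' : ℕ} (h : l ≤ l') {v w : Sp n}
    (hvw : idx K l' v = idx K l' w) : idx K l v = idx K l w := by
  obtain ⟨e, rfl⟩ := Nat.exists_eq_add_of_le h
  have key : ∀ (u : Sp n) (i : Fin (n + 1)), idx K l u i = idx K (l + e) u i / ((K ^ e : ℕ) : ℤ) := by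
    intro u i
    simp only [idx, scale, pow_add, ← mul_assoc]
    set x := u i * Real.sqrt (n + 1) * (K : ℝ) ^ l
    have hpos : (0 : ℝ) < ((K ^ e : ℕ) : ℝ) := by exact_mod_cast pow_pos hK e
    rw [show x * (K : ℝ) ^ e = x * ((K ^ e : ℕ) : ℝ) by push_cast; rfl]
    set m := K ^ e
    have hm : 0 < (m : ℤ) := by exact_mod_cast pow_pos hK e
    refine Int.floor_eq_iff.2 ⟨?_, ?_⟩
    · have h1 := Int.mul_ediv_add_emod ⌊x * (m : ℝ)⌋ (m : ℤ)
      have h2 := Int.emod_nonneg ⌊x * (m : ℝ)⌋ hm.ne'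
      have h3 : ((m : ℤ) * (⌊x * (m : ℝ)⌋ / (m : ℤ)) : ℤ) ≤ ⌊x * (m : ℝ)⌋ := by linarith
      have h4 : (((m : ℤ) * (⌊x * (m : ℝ)⌋ / (m : ℤ)) : ℤ) : ℝ) ≤ x * (m : ℝ) :=
        (Int.cast_le.2 h3).trans (Int.floor_le _)
      push_cast at h4
      nlinarith
    · have h1 := Int.mul_ediv_add_emod ⌊x * (m : ℝ)⌋ (m : ℤ)
      have h2 := Int.emod_lt_of_pos ⌊x * (m : ℝ)⌋ hm
      have h3 : ⌊x * (m : ℝ)⌋ + 1 ≤ (m : ℤ) * (⌊x * (m : ℝ)⌋ / (m : ℤ)) + (m : ℤ) := by linarith
      have h4 : ((⌊x * (m : ℝ)⌋ + 1 : ℤ) : ℝ)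
          ≤ (((m : ℤ) * (⌊x * (m : ℝ)⌋ / (m : ℤ)) + (m : ℤ) : ℤ) : ℝ) := Int.cast_le.2 h3
      push_cast at h4
      nlinarith [Int.lt_floor_add_one (x * (m : ℝ))]
  funext i
  rw [key v i, key w i, hvw]

lemma cell_dist {K : ℕ} (hK : 0 < K) (l : ℕ) {v w : Sp n} (h : idx K l v = idx K l w) :
    ‖v - w‖ ≤ ((K : ℝ) ^ l)⁻¹ := by
  have hs := scale_pos (n := n) hK l
  have hi : ∀ i, (v i - w i) ^ 2 ≤ ((scale n K l)⁻¹) ^ 2 := by
    intro i
    have e := congrFun h i
    simp only [idx] at e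
    have := Int.abs_sub_lt_one_of_floor_eq_floor e
    rw [← sub_mul, abs_mul, abs_of_pos hs] at this
    rw [← sq_abs, inv_pow]
    have h2 : |v i - w i| ^ 2 * scale n K l ^ 2 ≤ 1 := by
      rw [← mul_pow]; exact pow_le_one₀ (by positivity) this.le
    rw [← one_div, le_div_iff₀ (by positivity)]
    exact h2
  have hn : (0 : ℝ) ≤ n + 1 := by positivity
  rw [← pow_le_pow_iff_left₀ (norm_nonneg _) (by positivity) two_ne_zero,
    EuclideanSpace.real_norm_sq_eq]
  refine (Finset.sum_le_sum fun i _ => hi i).trans ?_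
  rw [sum_const, card_univ, Fintype.card_fin, nsmul_eq_mul]
  refine le_of_eq ?_
  simp only [scale, mul_inv, mul_pow, inv_pow, Real.sq_sqrt hn]
  push_cast
  field_simp

/-- The indices of cells meeting a ball. -/
lemma ball_cells {K : ℕ} (hK : 0 < K) (l : ℕ) (S : Finset (Fin (n + 1) → ℤ)) (a : Sp n) {r : ℝ}
    (hS : ∀ j ∈ S, ∃ v, idx K l v = j ∧ ‖v - a‖ ≤ r * ((K : ℝ) ^ l)⁻¹) :
    (S.card : ℝ) ≤ (Real.exp (2 * r ^ 2 + 2) * 4) ^ (n + 1) := by
  refine (lattice_count (ι := Fin (n + 1)) S (fun i => a i * scale n K l)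
    (R := (n + 1) * (2 * r ^ 2 + 2)) fun j hj => ?_).trans ?_
  · obtain ⟨v, rfl, hv⟩ := hS j hj
    have hi : ∀ i, ((idx K l v i : ℝ) - a i * scale n K l) ^ 2
        ≤ 2 * ((v i - a i) ^ 2 * scale n K l ^ 2) + 2 := by
      intro i
      simp only [idx]
      have := Int.floor_le (v i * scale n K l)
      have := Int.lt_floor_add_one (v i * scale n K l)
      set f := ((⌊v i * scale n K l⌋ : ℤ) : ℝ)
      nlinarith [sq_nonneg ((v i - a i) * scale n K l + (v i * scale n K l - f))]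
    refine (Finset.sum_le_sum fun i _ => hi i).trans ?_
    rw [sum_add_distrib, ← mul_sum, ← sum_mul, sum_const, card_univ, Fintype.card_fin, nsmul_eq_mul]
    have h2 : ∑ i, (v i - a i) ^ 2 = ‖v - a‖ ^ 2 := by rw [EuclideanSpace.real_norm_sq_eq]; simp
    rw [h2]
    have h3 : ‖v - a‖ ^ 2 * scale n K l ^ 2 ≤ (n + 1) * r ^ 2 := by
      have h4 := pow_le_pow_left₀ (norm_nonneg _) hv 2
      simp only [scale, mul_pow, Real.sq_sqrt (by positivity : (0:ℝ) ≤ n + 1)]
      calc ‖v - a‖ ^ 2 * (((n : ℝ) + 1) * ((K : ℝ) ^ l) ^ 2)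
          ≤ (r * ((K : ℝ) ^ l)⁻¹) ^ 2 * (((n : ℝ) + 1) * ((K : ℝ) ^ l) ^ 2) := by gcongr
        _ = _ := by field_simp
    push_cast
    linarith
  · rw [Fintype.card_fin, mul_pow, ← Real.exp_nat_mul]
    push_cast
    rfl

/-- The component orthogonal to a subspace. -/
noncomputable def perp (V : Submodule ℝ (Sp n)) (v : Sp n) : Sp n := v - V.starProjection v

lemma continuous_perp (V : Submodule ℝ (Sp n)) : Continuous (perp V) :=
  continuous_id.sub V.starProjection.continuous

/-- The constant of the tube cover. -/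
noncomputable def tubeConst : ℝ := Real.exp 28

/-- A tube of width K^-(R+l) around a flat of dimension at most k, inside a level R cell, meets
few cells of level R + l. -/
lemma tube_cover {K : ℕ} (hK : 0 < K) (R l k : ℕ) (hk : k ≤ n + 1) (c : Fin (n + 1) → ℤ)
    (V : Submodule ℝ (Sp n)) (hV : Module.finrank ℝ V ≤ k) (p : Sp n) :
    ∃ J : Finset (Fin (n + 1) → ℤ),
      (J.card : ℝ) ≤ ((K : ℝ) ^ l) ^ k * tubeConst ^ (2 * (n + 1)) ∧
      ∀ v ∈ cell K R c, ‖perp V (v - p)‖ ≤ ((K : ℝ) ^ (R + l))⁻¹ →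
        idx K (R + l) v ∈ J := by
  classical
  set P : Set (Sp n) := {v ∈ cell K R c | ‖perp V (v - p)‖ ≤ ((K : ℝ) ^ (R + l))⁻¹} with hP
  -- every finite family of occurring indices is small
  have key : ∀ S : Finset (Fin (n + 1) → ℤ), (∀ j ∈ S, ∃ v ∈ P, idx K (R + l) v = j) →
      (S.card : ℝ) ≤ ((K : ℝ) ^ l) ^ k * tubeConst ^ (2 * (n + 1)) := by
    intro S hS
    rcases S.eq_empty_or_nonempty with rfl | ⟨j0, hj0⟩
    · simp [tubeConst]; positivity
    have hS' : ∀ j : S, ∃ v, v ∈ P ∧ idx K (R + l) v = (j : Fin (n + 1) → ℤ) := fun j => hS j j.2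
    choose v hvP hv using hS'
    set b := stdOrthonormalBasis ℝ V with hb
    set k' := Module.finrank ℝ V with hk'
    set w := ((K : ℝ) ^ (R + l))⁻¹ with hw
    have hw0 : 0 < w := by positivity
    set sc := Real.sqrt ((k' : ℝ) + 1) / w with hsc
    have hsc0 : 0 < sc := by positivity
    let al : S → Fin k' → ℝ := fun j i => ⟪(b i : Sp n), v j - p⟫
    let Z : S → Fin k' → ℤ := fun j i => ⌊al j i * sc⌋
    have hcoord : ∀ (j j' : S) (i : Fin k'), al j i - al j' i = ⟪(b i : Sp n), v j - v j'⟫ := by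
      intro j j' i
      simp only [al, ← inner_sub_right]
      congr 1; abel
    have hsum : ∀ j j' : S, ∑ i, (al j i - al j' i) ^ 2 = ‖V.starProjection (v j - v j')‖ ^ 2 := by
      intro j j'
      simp only [hcoord]
      rw [show ‖V.starProjection (v j - v j')‖ = ‖V.orthogonalProjectionOnto (v j - v j')‖ from rfl,
        ← b.sum_sq_inner_right (V.orthogonalProjectionOnto (v j - v j'))]
      exact Finset.sum_congr rfl fun i _ => by
        rw [Submodule.inner_orthogonalProjectionOnto_eq_of_mem_left]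
    -- the number of coefficient classes
    have hZ : ((Finset.univ.image Z).card : ℝ)
        ≤ ((K : ℝ) ^ l) ^ k * Real.exp (20 * (n + 1)) := by
      have hKl : (1 : ℝ) ≤ (K : ℝ) ^ l := one_le_pow₀ (by exact_mod_cast hK)
      refine (lattice_count_scaled (Finset.univ.image Z) (fun i => al ⟨j0, hj0⟩ i * sc)
        (R := 4 * ((k' : ℝ) + 1)) (m := K ^ l) (pow_pos hK l) ?_).trans ?_
      · intro z hz
        obtain ⟨j, -, rfl⟩ := mem_image.1 hz
        have hi : ∀ i, ((Z j i : ℝ) - al ⟨j0, hj0⟩ i * sc) ^ 2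
            ≤ 2 * ((al j i - al ⟨j0, hj0⟩ i) ^ 2 * sc ^ 2) + 2 := by
          intro i
          simp only [Z]
          have := Int.floor_le (al j i * sc)
          have := Int.lt_floor_add_one (al j i * sc)
          set f := ((⌊al j i * sc⌋ : ℤ) : ℝ)
          nlinarith [sq_nonneg ((al j i - al ⟨j0, hj0⟩ i) * sc + (al j i * sc - f))]
        refine (Finset.sum_le_sum fun i _ => hi i).trans ?_
        rw [sum_add_distrib, ← mul_sum, ← sum_mul, hsum, sum_const, card_univ, Fintype.card_fin,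
          nsmul_eq_mul]
        have h1 : ‖V.starProjection (v j - v ⟨j0, hj0⟩)‖ ≤ ((K : ℝ) ^ R)⁻¹ :=
          (V.norm_starProjection_apply_le _).trans
            (cell_dist hK R ((hvP j).1.trans (hvP ⟨j0, hj0⟩).1.symm))
        have h2 : ‖V.starProjection (v j - v ⟨j0, hj0⟩)‖ ^ 2 * sc ^ 2
            ≤ ((k' : ℝ) + 1) * ((K : ℝ) ^ l) ^ 2 := by
          refine (mul_le_mul_of_nonneg_right (pow_le_pow_left₀ (norm_nonneg _) h1 2)
            (sq_nonneg _)).trans (le_of_eq ?_)
          rw [hsc, hw, div_inv_eq_mul, mul_pow, Real.sq_sqrt (by positivity), pow_add]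
          field_simp
        push_cast
        nlinarith [mul_le_mul_of_nonneg_left (one_le_pow₀ hKl : (1:ℝ) ≤ ((K:ℝ)^l)^2)
          (by positivity : (0:ℝ) ≤ (k' : ℝ) + 1), Nat.cast_nonneg (α := ℝ) k']
      · rw [Fintype.card_fin]
        push_cast
        refine mul_le_mul (pow_le_pow_right₀ hKl hV) ?_ (by positivity) (by positivity)
        · have hk'' : (k' : ℝ) + 1 ≤ (n : ℝ) + 2 := by
            have : k' ≤ n + 1 := hV.trans hk
            exact_mod_cast Nat.succ_le_succ this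
          have h4 : (4 : ℝ) ^ k' ≤ Real.exp (2 * k') := by
            rw [mul_comm, Real.exp_nat_mul]
            gcongr
            have := Real.quadratic_le_exp_of_nonneg (zero_le_two (α := ℝ))
            linarith
          refine (mul_le_mul_of_nonneg_left h4 (Real.exp_pos _).le).trans ?_
          rw [← Real.exp_add]
          refine Real.exp_le_exp.2 ?_
          have := Nat.cast_nonneg (α := ℝ) n
          linarith
    -- each class lies in a small ball
    have hfib : ∀ z ∈ Finset.univ.image Z,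
        (((Finset.univ.filter fun j : S => Z j = z).card : ℕ) : ℝ)
          ≤ Real.exp (22 * (n + 1)) := by
      intro z hz
      obtain ⟨j1, -, rfl⟩ := mem_image.1 hz
      set F := Finset.univ.filter fun j : S => Z j = Z j1
      have hc : ((F.image (fun j : S => (j : Fin (n + 1) → ℤ))).card : ℝ)
          ≤ (Real.exp (2 * 3 ^ 2 + 2) * 4) ^ (n + 1) := by
        refine ball_cells hK (R + l) _ (v j1) (r := 3) fun j hj => ?_
        obtain ⟨j', hj', rfl⟩ := mem_image.1 hj
        refine ⟨v j', hv j', ?_⟩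
        have hz' : Z j' = Z j1 := (mem_filter.1 hj').2
        have hpr : ‖V.starProjection (v j' - v j1)‖ ≤ w := by
          rw [← pow_le_pow_iff_left₀ (norm_nonneg _) hw0.le two_ne_zero, ← hsum]
          have hi : ∀ i, (al j' i - al j1 i) ^ 2 ≤ (sc⁻¹) ^ 2 := by
            intro i
            have e := Int.abs_sub_lt_one_of_floor_eq_floor (congrFun hz' i)
            rw [← sub_mul, abs_mul, abs_of_pos hsc0, ← lt_div_iff₀ hsc0, one_div] at e
            rw [← sq_abs]
            exact pow_le_pow_left₀ (abs_nonneg _) e.le 2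
          refine (Finset.sum_le_sum fun i _ => hi i).trans ?_
          rw [sum_const, card_univ, Fintype.card_fin, nsmul_eq_mul, hsc, inv_div, div_pow,
            Real.sq_sqrt (by positivity), ← mul_div_assoc, div_le_iff₀ (by positivity)]
          nlinarith [sq_nonneg w, Nat.cast_nonneg (α := ℝ) k']
        have hsplit : v j' - v j1
            = V.starProjection (v j' - v j1) + (perp V (v j' - p) - perp V (v j1 - p)) := by
          simp only [perp, map_sub]
          abel
        calc ‖v j' - v j1‖ = _ := congrArg norm hsplit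
          _ ≤ ‖V.starProjection (v j' - v j1)‖ + (‖perp V (v j' - p)‖ + ‖perp V (v j1 - p)‖) :=
              (norm_add_le _ _).trans (add_le_add le_rfl (norm_sub_le _ _))
          _ ≤ w + (w + w) := add_le_add hpr (add_le_add (hvP j').2 (hvP j1).2)
          _ = 3 * w := by ring
      rw [card_image_of_injective _ Subtype.val_injective] at hc
      refine hc.trans ?_
      rw [mul_comm (22 : ℝ), show ((n : ℝ) + 1) = ((n + 1 : ℕ) : ℝ) by push_cast; rfl,
        Real.exp_nat_mul]
      gcongr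
      rw [show (22 : ℝ) = (2 * 3 ^ 2 + 2) + 2 by norm_num, Real.exp_add (2 * 3 ^ 2 + 2) 2]
      gcongr
      have := Real.quadratic_le_exp_of_nonneg (zero_le_two (α := ℝ))
      linarith
    calc (S.card : ℝ) = ((Finset.univ : Finset S).card : ℝ) := by simp
      _ = ∑ z ∈ Finset.univ.image Z, (((Finset.univ.filter fun j : S => Z j = z).card : ℕ) : ℝ) := by
          exact_mod_cast Finset.card_eq_sum_card_image Z (Finset.univ : Finset S)
      _ ≤ ((Finset.univ.image Z).card : ℝ) * Real.exp (22 * (n + 1)) := by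
          rw [← nsmul_eq_mul, ← sum_const]; exact Finset.sum_le_sum hfib
      _ ≤ ((K : ℝ) ^ l) ^ k * Real.exp (20 * (n + 1)) * Real.exp (22 * (n + 1)) := by gcongr
      _ ≤ _ := by
          rw [mul_assoc, ← Real.exp_add, tubeConst, ← Real.exp_nat_mul]
          gcongr
          push_cast
          have := Nat.cast_nonneg (α := ℝ) n
          nlinarith
  have hfin : (idx K (R + l) '' P).Finite := by
    by_contra hinf
    obtain ⟨S, hS, hcard⟩ := (Set.not_finite.1 hinf).exists_subset_card_eq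
      (⌊((K : ℝ) ^ l) ^ k * tubeConst ^ (2 * (n + 1))⌋₊ + 1)
    have := key S fun j hj => hS hj
    rw [hcard] at this
    push_cast at this
    linarith [Nat.lt_floor_add_one (((K : ℝ) ^ l) ^ k * tubeConst ^ (2 * (n + 1)))]
  refine ⟨hfin.toFinset, key _ fun j hj => ?_, fun v hv hd => ?_⟩
  · exact hfin.mem_toFinset.1 hj
  · exact hfin.mem_toFinset.2 ⟨v, ⟨hv, hd⟩, rfl⟩

/-- The cells of level R + l inside a cell of level R. -/
lemma child_cells {K : ℕ} (hK : 0 < K) (R l : ℕ) (c : Fin (n + 1) → ℤ) :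
    ∃ J : Finset (Fin (n + 1) → ℤ),
      (J.card : ℝ) ≤ ((K : ℝ) ^ l) ^ (n + 1) * tubeConst ^ (2 * (n + 1)) ∧
      ∀ v ∈ cell K R c, idx K (R + l) v ∈ J := by
  obtain ⟨J, hJ, hmem⟩ := tube_cover hK R l (n + 1) le_rfl c ⊤ (by simp) (0 : Sp n)
  refine ⟨J, hJ, fun v hv => hmem v hv ?_⟩
  simp [perp, Submodule.starProjection_top]

end Vale.Agent.P309
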