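import Mathlib

/-!
The model of a memory bounded learner for noiseless Gaussian linear regression.
-/

namespace Vale.Agent.P309

open MeasureTheory ProbabilityTheory
open scoped ENNReal RealInnerProductSpace

/-- The law of a normalized standard Gaussian vector: the uniform law on the unit sphere. -/
noncomputable def sphereUniform (d : ℕ) : Measure (EuclideanSpace ℝ (Fin d)) :=
  (stdGaussian (EuclideanSpace ℝ (Fin d))).map fun g => ‖g‖⁻¹ • g

/-- A learner with M bits in dimension d. `step t z x y (z', b)` is the probability that, in state
z, at index t, on reading the pair (x, y), the new state is z' and the learner stops (b true) or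
continues (b false). `out t z` is the law of the output if the run ends in state z after t
samples. -/
structure Learner (d M : ℕ) where
  /-- The number of states. -/
  numStates : ℕ
  numStates_le : numStates ≤ 2 ^ M
  /-- The law of the initial state. -/
  init : Fin numStates → ℝ≥0∞
  init_sum : ∑ z, init z = 1
  /-- The transition and stopping probabilities. -/
  step : ℕ → Fin numStates → EuclideanSpace ℝ (Fin d) → ℝ → Fin numStates × Bool → ℝ≥0∞
  step_sum : ∀ t z x y, ∑ o, step t z x y o = 1
  step_measurable : ∀ t z o,
    Measurable fun p : EuclideanSpace ℝ (Fin d) × ℝ => step t z p.1 p.2 o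
  /-- The law of the output. -/
  out : ℕ → Fin numStates → Measure (EuclideanSpace ℝ (Fin d))
  out_prob : ∀ t z, out t z Set.univ = 1

/-- The outputs that are accurate for the signal S: unit vectors at angle at most ε from S. -/
noncomputable def accurate {d : ℕ} (ε : ℝ) (S : EuclideanSpace ℝ (Fin d)) :
    Set (EuclideanSpace ℝ (Fin d)) :=
  {v | ‖v‖ = 1 ∧ Real.arccos ⟪v, S⟫ ≤ ε}

/-- `winProb L ε r t z S`: for the signal S, the probability of an accurate output when the
learner is in state z after t samples and may read at most r further samples. -/
noncomputable def winProb {d M : ℕ} (L : Learner d M) (ε : ℝ) :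
    ℕ → ℕ → Fin L.numStates → EuclideanSpace ℝ (Fin d) → ℝ≥0∞
  | 0, t, z, S => L.out t z (accurate ε S)
  | r + 1, t, z, S => ∑ z', ∫⁻ x,
      (L.step t z x ⟪x, S⟫ (z', true) * L.out (t + 1) z' (accurate ε S) +
        L.step t z x ⟪x, S⟫ (z', false) * winProb L ε r (t + 1) z' S)
      ∂stdGaussian (EuclideanSpace ℝ (Fin d))

/-- The success probability of L with horizon T at accuracy ε, for a uniformly random signal. -/
noncomputable def successProb {d M : ℕ} (L : Learner d M) (T : ℕ) (ε : ℝ) : ℝ≥0∞ :=
  ∑ z, L.init z * ∫⁻ S, winProb L ε T 0 z S ∂sphereUniform d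

end Vale.Agent.P309
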