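import Mathlib
import Vale.Agent.P309.Basic
import Vale.Agent.P309.Defs

/-!
Gaussian and spherical estimates: exponential moments of squared linear forms, slabs, small balls.
-/

namespace Vale.Agent.P309

open MeasureTheory ProbabilityTheory
open scoped ENNReal RealInnerProductSpace

variable {n : ℕ}

lemma lintegral_exp_sq_gaussianReal {a : ℝ} (ha : a < 1 / 2) :
    ∫⁻ t, ENNReal.ofReal (Real.exp (a * t ^ 2)) ∂gaussianReal 0 1
      = ENNReal.ofReal (Real.sqrt (1 - 2 * a))⁻¹ := by
  rw [gaussianReal_of_var_ne_zero 0 one_ne_zero,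
    lintegral_withDensity_eq_lintegral_mul _ (measurable_gaussianPDF 0 1) (by fun_prop)]
  have hb : 0 < 1 / 2 - a := by linarith
  have h : ∀ t : ℝ, (gaussianPDF 0 1 * fun t => ENNReal.ofReal (Real.exp (a * t ^ 2))) t
      = ENNReal.ofReal ((Real.sqrt (2 * Real.pi))⁻¹ * Real.exp (-(1 / 2 - a) * t ^ 2)) := by
    intro t
    simp only [Pi.mul_apply, gaussianPDF, gaussianPDFReal, NNReal.coe_one, mul_one, sub_zero]
    rw [← ENNReal.ofReal_mul (by positivity), mul_assoc, ← Real.exp_add]
    ring_nf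
  simp only [h]
  rw [← ofReal_integral_eq_lintegral_ofReal
    ((integrable_exp_neg_mul_sq hb).const_mul _) (Filter.Eventually.of_forall fun t => by positivity),
    integral_const_mul, integral_gaussian]
  congr 1
  rw [← Real.sqrt_inv, ← Real.sqrt_mul (by positivity), ← Real.sqrt_inv]
  congr 1
  field_simp

lemma gaussianReal_Icc_le (u v : ℝ) :
    gaussianReal 0 1 (Set.Icc u v) ≤ ENNReal.ofReal ((v - u) / 2) := by
  rw [gaussianReal_apply 0 one_ne_zero]
  calc ∫⁻ x in Set.Icc u v, gaussianPDF 0 1 x ≤ ∫⁻ _ in Set.Icc u v, ENNReal.ofReal (1 / 2) := by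
        refine lintegral_mono fun x => ENNReal.ofReal_le_ofReal ?_
        simp only [gaussianPDFReal, NNReal.coe_one, mul_one, sub_zero]
        have h2 : (2 : ℝ) ≤ Real.sqrt (2 * Real.pi) := by
          rw [Real.le_sqrt zero_le_two (by positivity)]; nlinarith [Real.two_le_pi]
        calc (Real.sqrt (2 * Real.pi))⁻¹ * Real.exp (-x ^ 2 / 2) ≤ (2 : ℝ)⁻¹ * 1 := by
              gcongr
              exact Real.exp_le_one_iff.2 (by nlinarith [sq_nonneg x])
          _ = 1 / 2 := by norm_num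
    _ = ENNReal.ofReal ((v - u) / 2) := by
        rw [setLIntegral_const, Real.volume_Icc, ← ENNReal.ofReal_mul (by norm_num)]
        congr 1; ring

/-- The law of a linear form of unit norm. -/
lemma map_inner_stdGaussian {u : Sp n} (hu : ‖u‖ = 1) :
    (stdGaussian (Sp n)).map (fun x => ⟪x, u⟫) = gaussianReal 0 1 := by
  have e : (fun x : Sp n => ⟪x, u⟫) = ⇑(innerSL ℝ u : StrongDual ℝ (Sp n)) := by
    ext x; simp [real_inner_comm]
  rw [e, IsGaussian.map_eq_gaussianReal, integral_strongDual_stdGaussian, variance_dual_stdGaussian,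
    innerSL_apply_norm, hu]
  simp

theorem lintegral_exp_sq_inner_le (w : Sp n) (hw : ‖w‖ ≤ 1) :
    ∫⁻ x, ENNReal.ofReal (Real.exp (⟪x, w⟫ ^ 2 / 4)) ∂stdGaussian (Sp n)
      ≤ ENNReal.ofReal (Real.sqrt 2) := by
  rcases eq_or_ne w 0 with rfl | hw0
  · simp
  · set u := ‖w‖⁻¹ • w with hu
    have hun : ‖u‖ = 1 := norm_smul_inv_norm hw0
    calc ∫⁻ x, ENNReal.ofReal (Real.exp (⟪x, w⟫ ^ 2 / 4)) ∂stdGaussian (Sp n)
        ≤ ∫⁻ x, (fun t => ENNReal.ofReal (Real.exp (1 / 4 * t ^ 2))) ⟪x, u⟫ ∂stdGaussian (Sp n) := by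
          refine lintegral_mono fun x => ENNReal.ofReal_le_ofReal (Real.exp_le_exp.2 ?_)
          have e : ⟪x, w⟫ = ‖w‖ * ⟪x, u⟫ := by
            rw [hu, real_inner_smul_right, ← mul_assoc, mul_inv_cancel₀ (norm_ne_zero_iff.2 hw0),
              one_mul]
          rw [e, mul_pow]
          have h1 : ‖w‖ ^ 2 ≤ 1 := pow_le_one₀ (norm_nonneg _) hw
          nlinarith [mul_le_mul_of_nonneg_right h1 (sq_nonneg ⟪x, u⟫)]
      _ = ∫⁻ t, ENNReal.ofReal (Real.exp (1 / 4 * t ^ 2)) ∂(stdGaussian (Sp n)).map (fun x => ⟪x, u⟫) :=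
          (lintegral_map (f := fun t => ENNReal.ofReal (Real.exp (1 / 4 * t ^ 2)))
            (by fun_prop) (by fun_prop)).symm
      _ = ENNReal.ofReal (Real.sqrt 2) := by
          rw [map_inner_stdGaussian hun, lintegral_exp_sq_gaussianReal (by norm_num)]
          norm_num

lemma exists_orthonormalBasis_first {e : Sp n} (he : ‖e‖ = 1) :
    ∃ b : OrthonormalBasis (Fin (n + 1)) ℝ (Sp n), b 0 = e := by
  have hv : Orthonormal ℝ (({0} : Set (Fin (n + 1))).domRestrict fun _ => e) :=
    ⟨fun _ => he, fun i j hij => absurd (Subsingleton.elim i j) hij⟩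
  obtain ⟨b, hb⟩ := hv.exists_orthonormalBasis_extension_of_card_eq
    (by simp)
  exact ⟨b, hb 0 rfl⟩

lemma stdGaussian_apply (b : OrthonormalBasis (Fin (n + 1)) ℝ (Sp n)) {A : Set (Sp n)}
    (hA : MeasurableSet A) :
    stdGaussian (Sp n) A
      = Measure.pi (fun _ : Fin (n + 1) => gaussianReal 0 1) {x | (∑ i, x i • b i) ∈ A} := by
  rw [stdGaussian_eq_map_pi_orthonormalBasis b, Measure.map_apply (by fun_prop) hA]
  rfl

theorem gaussian_slab_le (V : Submodule ℝ (Sp n)) (D : Sp n) {w : ℝ} (hw : 0 < w) {E : Set (Sp n)}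
    (hE : MeasurableSet E) (hinv : ∀ x y : Sp n, (∀ v ∈ V, ⟪x, v⟫ = ⟪y, v⟫) → x ∈ E → y ∈ E) :
    stdGaussian (Sp n) (E ∩ {x | |⟪x, D⟫| ≤ w})
      ≤ stdGaussian (Sp n) E * (ENNReal.ofReal w / ENNReal.ofReal ‖perp V D‖) := by
  by_cases hp : perp V D = 0
  · rw [hp, norm_zero, ENNReal.ofReal_zero, ENNReal.div_zero (by simpa using hw)]
    by_cases h0 : stdGaussian (Sp n) E = 0
    · exact (measure_mono Set.inter_subset_left).trans (by simp [h0])
    · simp [ENNReal.mul_top h0]
  set a := ‖perp V D‖ with ha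
  have ha0 : 0 < a := norm_pos_iff.2 hp
  set e := a⁻¹ • perp V D with he
  have hen : ‖e‖ = 1 := norm_smul_inv_norm hp
  have heV : ∀ v ∈ V, ⟪e, v⟫ = 0 := fun v hv => by
    rw [he, real_inner_smul_left, perp, Submodule.starProjection_inner_eq_zero _ v hv, mul_zero]
  have heD : ⟪e, D⟫ = a := by
    have hD : D = perp V D + V.starProjection D := by simp [perp]
    conv_lhs => rw [hD]
    rw [inner_add_right, heV _ (V.starProjection_apply_mem D), add_zero, he, real_inner_smul_left,
      real_inner_self_eq_norm_sq, ← ha]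
    field_simp
  obtain ⟨b, hb⟩ := exists_orthonormalBasis_first hen
  set μ := Measure.pi (fun _ : Fin n => gaussianReal 0 1) with hμ
  let Φ : ℝ × (Fin n → ℝ) → Sp n := fun p => p.1 • e + ∑ i : Fin n, p.2 i • b i.succ
  have hΦm : Measurable Φ := by fun_prop
  have hmp := measurePreserving_piFinSuccAbove (fun _ : Fin (n + 1) => gaussianReal 0 1) 0
  have key : ∀ A : Set (Sp n), MeasurableSet A →
      stdGaussian (Sp n) A = ((gaussianReal 0 1).prod μ) (Φ ⁻¹' A) := by
    intro A hA
    rw [stdGaussian_apply b hA, ← hmp.measure_preimage_equiv (Φ ⁻¹' A)]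
    congr 1
    ext x
    simp [Φ, Fin.sum_univ_succ, hb, MeasurableEquiv.piFinSuccAbove,
      Fin.insertNthEquiv, Fin.tail]
  have hslab : MeasurableSet {x : Sp n | |⟪x, D⟫| ≤ w} :=
    measurableSet_le (by fun_prop) measurable_const
  rw [key _ (hE.inter hslab), key _ hE, Measure.prod_apply_symm (hΦm (hE.inter hslab)),
    Measure.prod_apply_symm (hΦm hE), ← lintegral_mul_const _
      (measurable_measure_prodMk_right (hΦm hE))]
  refine lintegral_mono fun y => ?_
  have hind : ∀ t, Φ (t, y) ∈ E ↔ Φ (0, y) ∈ E := by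
    intro t
    have : ∀ v ∈ V, ⟪Φ (t, y), v⟫ = ⟪Φ (0, y), v⟫ := fun v hv => by
      simp only [Φ, inner_add_left, real_inner_smul_left, heV v hv, mul_zero]
    exact ⟨hinv _ _ this, hinv _ _ fun v hv => (this v hv).symm⟩
  by_cases h : Φ (0, y) ∈ E
  · set c := ⟪∑ i : Fin n, y i • b i.succ, D⟫
    have e1 : (fun t : ℝ => (t, y)) ⁻¹' (Φ ⁻¹' E) = Set.univ :=
      Set.eq_univ_of_forall fun t => (hind t).2 h
    rw [e1, measure_univ, one_mul, ← ENNReal.ofReal_div_of_pos ha0]
    refine le_trans ?_ ((gaussianReal_Icc_le ((-w - c) / a) ((w - c) / a)).trans_eq ?_)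
    · refine measure_mono fun t ht => ?_
      have h' : |t * a + c| ≤ w := by
        have := ht.2
        simpa [Φ, inner_add_left, real_inner_smul_left, heD, c] using this
      rw [abs_le] at h'
      constructor
      · rw [div_le_iff₀ ha0]; linarith
      · rw [le_div_iff₀ ha0]; linarith
    · congr 1; field_simp; ring
  · have e1 : (fun t : ℝ => (t, y)) ⁻¹' (Φ ⁻¹' (E ∩ {x | |⟪x, D⟫| ≤ w})) = ∅ :=
      Set.eq_empty_of_forall_notMem fun t ht => h ((hind t).1 ht.1)
    rw [e1, measure_empty]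
    exact zero_le

lemma measurable_normalize : Measurable fun g : Sp n => ‖g‖⁻¹ • g :=
  measurable_norm.inv.smul measurable_id

instance : IsProbabilityMeasure (sphereUniform (n + 1)) :=
  Measure.isProbabilityMeasure_map measurable_normalize.aemeasurable

lemma stdGaussian_ae_ne_zero : ∀ᵐ g ∂stdGaussian (Sp n), g ≠ 0 := by
  have hu : ‖(EuclideanSpace.single 0 1 : Sp n)‖ = 1 := by simp
  have h := map_inner_stdGaussian hu
  have : NullSingletonClass (gaussianReal 0 1) := nullSingletonClass_gaussianReal one_ne_zero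
  have h0 : stdGaussian (Sp n) ((fun x => ⟪x, EuclideanSpace.single 0 1⟫) ⁻¹' ({0} : Set ℝ)) = 0 := by
    rw [← Measure.map_apply (by fun_prop) (measurableSet_singleton 0), h, measure_singleton]
  refine ae_iff.2 (measure_mono_null (fun g hg => ?_) h0)
  simp only [Set.mem_ofPred_eq, not_not] at hg
  simp [hg]

theorem sphereUniform_ae_norm : ∀ᵐ v ∂sphereUniform (n + 1), ‖v‖ = 1 := by
  rw [sphereUniform, ae_map_iff measurable_normalize.aemeasurable
    (measurableSet_eq_fun measurable_norm measurable_const)]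
  filter_upwards [stdGaussian_ae_ne_zero] with g hg using norm_smul_inv_norm hg

lemma lintegral_pi_prod {ι : Type*} [Fintype ι] {μ : Measure ℝ} [IsProbabilityMeasure μ]
    {f : ι → ℝ → ℝ≥0∞} (hf : ∀ i, Measurable (f i)) :
    ∫⁻ x, ∏ i, f i (x i) ∂Measure.pi (fun _ : ι => μ) = ∏ i, ∫⁻ t, f i t ∂μ := by
  have h := lintegral_prod_eq_prod_lintegral_of_indepFun (μ := Measure.pi (fun _ : ι => μ))
    Finset.univ (fun (i : ι) (x : ι → ℝ) => f i (x i))
    (iIndepFun_pi (μ := fun _ : ι => μ) (X := f) fun i => (hf i).aemeasurable)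
    (fun i => Measurable.comp (g := f i) (hf i) (measurable_pi_apply i))
  rw [h]
  exact Finset.prod_congr rfl fun i _ =>
    (measurePreserving_eval (fun _ : ι => μ) i).lintegral_comp (hf i)

lemma sphereUniform_closedBall_le_aux (s : Sp n) (hs : ‖s‖ = 1) {r : ℝ} (hr : 0 < r)
    (hr2 : r < 1 / 2) :
    sphereUniform (n + 1) (Metric.closedBall s r) ≤ ENNReal.ofReal (2 * (2 * r) ^ n) := by
  obtain ⟨b, hb⟩ := exists_orthonormalBasis_first hs
  rw [sphereUniform, Measure.map_apply measurable_normalize Metric.isClosed_closedBall.measurableSet,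
    stdGaussian_apply b (measurable_normalize Metric.isClosed_closedBall.measurableSet)]
  set l := 1 / (8 * r ^ 2) with hl
  let f : Fin (n + 1) → ℝ → ℝ≥0∞ :=
    fun i t => ENNReal.ofReal (Real.exp ((if i = 0 then (1 / 4 : ℝ) else -l) * t ^ 2))
  have hfm : ∀ i, Measurable (f i) := fun i => by simp only [f]; fun_prop
  set A := {x : Fin (n + 1) → ℝ |
    (∑ i, x i • b i) ∈ (fun g : Sp n => ‖g‖⁻¹ • g) ⁻¹' Metric.closedBall s r} with hA
  have hAm : MeasurableSet A :=
    (by fun_prop : Measurable fun x : Fin (n + 1) → ℝ => ∑ i, x i • b i)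
      (measurable_normalize Metric.isClosed_closedBall.measurableSet)
  have hpt : ∀ x, A.indicator (fun _ => (1 : ℝ≥0∞)) x ≤ ∏ i, f i (x i) := by
    intro x
    by_cases hx : x ∈ A
    · rw [Set.indicator_of_mem hx]
      simp only [f]
      rw [← ENNReal.ofReal_prod_of_nonneg (fun i _ => (Real.exp_pos _).le), ← Real.exp_sum]
      refine ENNReal.one_le_ofReal.2 (Real.one_le_exp ?_)
      simp only [hA, Set.mem_ofPred_eq, Set.mem_preimage, Metric.mem_closedBall, dist_eq_norm] at hx
      set g := ∑ i, x i • b i with hg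
      have hsum : ‖g‖ ^ 2 = x 0 ^ 2 + ∑ i : Fin n, x i.succ ^ 2 := by
        rw [← real_inner_self_eq_norm_sq, hg, b.orthonormal.inner_sum, Fin.sum_univ_succ]
        simp [sq]
      have h0 : ⟪g, s⟫ = x 0 := by
        rw [← hb, hg, b.orthonormal.inner_left_fintype]
        simp
      have hgs : |x 0| ≤ ‖g‖ := by
        rw [← h0]; simpa [hs] using abs_real_inner_le_norm g s
      rw [Fin.sum_univ_succ]
      simp only [if_true, Fin.succ_ne_zero, if_false, ← Finset.mul_sum]
      set P := ∑ i : Fin n, x i.succ ^ 2 with hP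
      have hP0 : 0 ≤ P := by rw [hP]; positivity
      have hg0 : g ≠ 0 := by
        intro h
        rw [h] at hx
        simp [hs] at hx
        linarith
      have hgn : 0 < ‖g‖ := norm_pos_iff.2 hg0
      have hx2 := pow_le_pow_left₀ (norm_nonneg _) hx 2
      have hun : ‖‖g‖⁻¹ • g‖ = 1 := norm_smul_inv_norm hg0
      rw [norm_sub_sq_real, hun, real_inner_smul_left, h0, hs] at hx2
      have h1 : ‖g‖ - x 0 ≤ r ^ 2 * ‖g‖ / 2 := by
        have e : ‖g‖ - x 0 = ‖g‖ * (1 - ‖g‖⁻¹ * x 0) := by field_simp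
        rw [e]; nlinarith
      have h2 : P ≤ r ^ 2 * ‖g‖ ^ 2 := by
        have e : P = (‖g‖ - x 0) * (‖g‖ + x 0) := by nlinarith [hsum]
        rw [e]
        calc (‖g‖ - x 0) * (‖g‖ + x 0) ≤ (r ^ 2 * ‖g‖ / 2) * (2 * ‖g‖) :=
              mul_le_mul h1 (by linarith [(abs_le.1 hgs).2]) (by linarith [(abs_le.1 hgs).1])
                (by positivity)
          _ = _ := by ring
      have hr4 : r ^ 2 ≤ 1 / 4 := by nlinarith
      have h3 : P ≤ 2 * r ^ 2 * x 0 ^ 2 := by
        rw [hsum] at h2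
        nlinarith [mul_le_mul_of_nonneg_right hr4 hP0, mul_nonneg (sq_nonneg r) (sq_nonneg (x 0))]
      have h4 : l * P ≤ 1 / 4 * x 0 ^ 2 := by
        rw [hl, div_mul_eq_mul_div, one_mul, div_le_iff₀ (by positivity)]
        linarith
      linarith
    · rw [Set.indicator_of_notMem hx]; exact zero_le
  calc Measure.pi (fun _ : Fin (n + 1) => gaussianReal 0 1) A
      = ∫⁻ x, A.indicator (fun _ => (1 : ℝ≥0∞)) x ∂Measure.pi (fun _ => gaussianReal 0 1) := by
        rw [lintegral_indicator_const hAm, one_mul]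
    _ ≤ ∫⁻ x, ∏ i, f i (x i) ∂Measure.pi (fun _ => gaussianReal 0 1) := lintegral_mono hpt
    _ = ∏ i, ∫⁻ t, f i t ∂gaussianReal 0 1 := lintegral_pi_prod hfm
    _ ≤ ENNReal.ofReal (2 * (2 * r) ^ n) := by
        have hl0 : 0 < l := by positivity
        rw [Fin.prod_univ_succ]
        simp only [f, if_true, Fin.succ_ne_zero, if_false, Finset.prod_const, Finset.card_univ,
          Fintype.card_fin]
        rw [lintegral_exp_sq_gaussianReal (by norm_num), lintegral_exp_sq_gaussianReal (by linarith),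
          ← ENNReal.ofReal_pow (by positivity), ← ENNReal.ofReal_mul (by positivity)]
        refine ENNReal.ofReal_le_ofReal (mul_le_mul ?_ ?_ (by positivity) zero_le_two)
        · rw [inv_le_comm₀ (by norm_num) two_pos, Real.le_sqrt (by norm_num) (by norm_num)]
          norm_num
        · refine pow_le_pow_left₀ (by positivity) ?_ n
          rw [inv_le_comm₀ (Real.sqrt_pos.2 (by linarith)) (by positivity),
            Real.le_sqrt (by positivity) (by linarith), inv_pow, hl]
          have e : ((2 * r) ^ 2)⁻¹ = 2 * (1 / (8 * r ^ 2)) := by field_simp; ring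
          rw [e]; linarith

theorem sphereUniform_closedBall_le (s : Sp n) (hs : ‖s‖ = 1) {r : ℝ} (hr : 0 ≤ r) :
    sphereUniform (n + 1) (Metric.closedBall s r) ≤ ENNReal.ofReal (2 * (2 * r) ^ n) := by
  by_cases h2 : 1 / 2 ≤ r
  · refine prob_le_one.trans (ENNReal.one_le_ofReal.2 ?_)
    have : (1 : ℝ) ≤ (2 * r) ^ n := one_le_pow₀ (by linarith)
    linarith
  rcases hr.lt_or_eq with h0 | h0
  · exact sphereUniform_closedBall_le_aux s hs h0 (not_le.1 h2)
  · subst h0
    refine ge_of_tendsto (f := fun t : ℝ => ENNReal.ofReal (2 * (2 * t) ^ n))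
      (x := nhdsWithin (0 : ℝ) (Set.Ioi 0)) ?_ ?_
    · exact tendsto_nhdsWithin_of_tendsto_nhds
        ((ENNReal.continuous_ofReal.comp (by fun_prop : Continuous fun t : ℝ => 2 * (2 * t) ^ n)).tendsto 0)
    · filter_upwards [Ioo_mem_nhdsGT (by norm_num : (0 : ℝ) < 1 / 2)] with t ht
      exact (measure_mono (Metric.closedBall_subset_closedBall ht.1.le)).trans
        (sphereUniform_closedBall_le_aux s hs ht.1 ht.2)

end Vale.Agent.P309
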