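import Mathlib
import Vale.Agent.P309.Basic
import Vale.Agent.P309.Gauss

/-!
The moment bound for the law of a Gaussian row and its label, for a signal drawn from a measure
which is spread out around all low dimensional flats.
-/

namespace Vale.Agent.P309

open MeasureTheory ProbabilityTheory Filter
open scoped ENNReal RealInnerProductSpace Topology

variable {n : ℕ}

/-- The standard Gaussian law on Sp n. -/
noncomputable abbrev gauss (n : ℕ) : Measure (Sp n) := stdGaussian (Sp n)

lemma measurable_inner_pair : Measurable fun p : Sp n × Sp n => ⟪p.1, p.2⟫ :=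
  continuous_inner.measurable

lemma measurableSet_slab_sub (p : Sp n) (w : ℝ) :
    MeasurableSet {q : Sp n × Sp n | |⟪q.1, q.2 - p⟫| ≤ w} :=
  (isClosed_le (continuous_inner.comp
    (continuous_fst.prodMk (continuous_snd.sub continuous_const))).abs continuous_const).measurableSet

/-- The measure of signals near the hyperplane through p orthogonal to x. -/
noncomputable def slabSub (g : Measure (Sp n)) (p : Sp n) (w : ℝ) (x : Sp n) : ℝ≥0∞ :=
  g {v | |⟪x, v - p⟫| ≤ w}

lemma measurable_slabSub (g : Measure (Sp n)) [SFinite g] (p : Sp n) (w : ℝ) :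
    Measurable (slabSub g p w) :=
  measurable_measure_prodMk_left (ν := g) (measurableSet_slab_sub p w)

lemma slabSub_moment (g : Measure (Sp n)) [IsFiniteMeasure g] {k : ℕ} {Φ : ℝ≥0∞}
    (hΦ : ∀ V : Submodule ℝ (Sp n), Module.finrank ℝ V ≤ k → ∀ p,
      ∫⁻ v, (ENNReal.ofReal ‖perp V (v - p)‖)⁻¹ ∂g ≤ Φ)
    {w : ℝ} (hw : 0 < w) (j : ℕ) :
    ∀ V : Submodule ℝ (Sp n), Module.finrank ℝ V + j ≤ k + 1 → ∀ (p : Sp n) (E : Set (Sp n)),
      MeasurableSet E → (∀ x y : Sp n, (∀ v ∈ V, ⟪x, v⟫ = ⟪y, v⟫) → x ∈ E → y ∈ E) →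
        ∫⁻ x in E, slabSub g p w x ^ j ∂gauss n ≤ gauss n E * (ENNReal.ofReal w * Φ) ^ j := by
  induction j with
  | zero =>
    intro V _ p E _ _
    simp
  | succ j ih =>
    intro V hV p E hE hinv
    have hmeas : Measurable (Function.uncurry fun (x v : Sp n) =>
        {q : Sp n × Sp n | |⟪q.1, q.2 - p⟫| ≤ w}.indicator (fun q => slabSub g p w q.1 ^ j) (x, v)) :=
      (((measurable_slabSub g p w).pow_const j).comp measurable_fst).indicator
        (measurableSet_slab_sub p w)
    calc ∫⁻ x in E, slabSub g p w x ^ (j + 1) ∂gauss n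
        = ∫⁻ x in E, ∫⁻ v, {q : Sp n × Sp n | |⟪q.1, q.2 - p⟫| ≤ w}.indicator
            (fun q => slabSub g p w q.1 ^ j) (x, v) ∂g ∂gauss n := by
          refine lintegral_congr fun x => ?_
          have : (fun v => {q : Sp n × Sp n | |⟪q.1, q.2 - p⟫| ≤ w}.indicator
              (fun q => slabSub g p w q.1 ^ j) (x, v))
              = {v | |⟪x, v - p⟫| ≤ w}.indicator fun _ => slabSub g p w x ^ j := by
            funext v
            by_cases h : |⟪x, v - p⟫| ≤ w <;> simp [Set.indicator, h]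
          rw [this, lintegral_indicator_const]
          · rw [pow_succ]; rfl
          · exact (isClosed_le (continuous_const.inner
              (continuous_id.sub continuous_const)).abs continuous_const).measurableSet
      _ = ∫⁻ v, ∫⁻ x in E, {q : Sp n × Sp n | |⟪q.1, q.2 - p⟫| ≤ w}.indicator
            (fun q => slabSub g p w q.1 ^ j) (x, v) ∂gauss n ∂g :=
          lintegral_lintegral_swap hmeas.aemeasurable
      _ ≤ ∫⁻ v, gauss n E * (ENNReal.ofReal w * (ENNReal.ofReal ‖perp V (v - p)‖)⁻¹)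
            * (ENNReal.ofReal w * Φ) ^ j ∂g := by
          refine lintegral_mono fun v => ?_
          have hS : MeasurableSet {x : Sp n | |⟪x, v - p⟫| ≤ w} :=
            (isClosed_le (continuous_id.inner continuous_const).abs continuous_const).measurableSet
          have : (fun x => {q : Sp n × Sp n | |⟪q.1, q.2 - p⟫| ≤ w}.indicator
              (fun q => slabSub g p w q.1 ^ j) (x, v))
              = {x | |⟪x, v - p⟫| ≤ w}.indicator fun x => slabSub g p w x ^ j := by
            funext x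
            by_cases h : |⟪x, v - p⟫| ≤ w <;> simp [Set.indicator, h]
          rw [this, lintegral_indicator hS, Measure.restrict_restrict hS, Set.inter_comm]
          set V' : Submodule ℝ (Sp n) := V ⊔ Submodule.span ℝ {v - p}
          have hV' : Module.finrank ℝ V' ≤ Module.finrank ℝ V + 1 := by
            refine (Submodule.finrank_add_le_finrank_add_finrank _ _).trans (add_le_add le_rfl ?_)
            exact (finrank_span_le_card _).trans (by simp)
          refine (ih V' (by omega) p _ (hE.inter hS) ?_).trans ?_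
          · intro x y hxy hx
            refine ⟨hinv x y (fun u hu => hxy u (Submodule.mem_sup_left hu)) hx.1, ?_⟩
            have := hxy (v - p) (Submodule.mem_sup_right (Submodule.mem_span_singleton_self _))
            show |⟪y, v - p⟫| ≤ w
            rw [← this]; exact hx.2
          · gcongr
            rw [← div_eq_mul_inv]
            exact gaussian_slab_le V (v - p) hw hE hinv
      _ = gauss n E * ENNReal.ofReal w * (ENNReal.ofReal w * Φ) ^ j
            * ∫⁻ v, (ENNReal.ofReal ‖perp V (v - p)‖)⁻¹ ∂g := by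
          rw [← lintegral_const_mul]
          · exact lintegral_congr fun v => by ring
          · exact (((continuous_perp V).comp (continuous_id.sub continuous_const)).norm.measurable).ennreal_ofReal.inv
      _ ≤ gauss n E * ENNReal.ofReal w * (ENNReal.ofReal w * Φ) ^ j * Φ := by
          gcongr
          exact hΦ V (by omega) p
      _ = gauss n E * (ENNReal.ofReal w * Φ) ^ (j + 1) := by ring

/-- The measure of signals whose label at x is within w of u. -/
noncomputable def slab (g : Measure (Sp n)) (w : ℝ) (q : Sp n × ℝ) : ℝ≥0∞ :=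
  g {v | |q.2 - ⟪q.1, v⟫| ≤ w}

lemma measurableSet_slab (w : ℝ) :
    MeasurableSet {q : (Sp n × ℝ) × Sp n | |q.1.2 - ⟪q.1.1, q.2⟫| ≤ w} :=
  (isClosed_le ((continuous_snd.comp continuous_fst).sub (continuous_inner.comp
    ((continuous_fst.comp continuous_fst).prodMk continuous_snd))).abs continuous_const).measurableSet

lemma measurable_slab (g : Measure (Sp n)) [SFinite g] (w : ℝ) : Measurable (slab g w) :=
  measurable_measure_prodMk_left (ν := g) (measurableSet_slab w)

lemma slab_moment (g : Measure (Sp n)) [IsFiniteMeasure g] {j : ℕ} {Φ : ℝ≥0∞}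
    (hΦ : ∀ V : Submodule ℝ (Sp n), Module.finrank ℝ V ≤ j → ∀ p,
      ∫⁻ v, (ENNReal.ofReal ‖perp V (v - p)‖)⁻¹ ∂g ≤ Φ)
    {w : ℝ} (hw : 0 < w) :
    ∫⁻ q, slab g w q ^ (j + 1) ∂(gauss n).prod volume
      ≤ ENNReal.ofReal (2 * w) * g Set.univ * (ENNReal.ofReal (2 * w) * Φ) ^ j := by
  have hm1 : Measurable fun p : (Sp n × ℝ) × Sp n =>
      {q : (Sp n × ℝ) × Sp n | |q.1.2 - ⟪q.1.1, q.2⟫| ≤ w}.indicator
        (fun q => g {v | |⟪q.1.1, v - q.2⟫| ≤ 2 * w} ^ j) p := by
    refine Measurable.indicator ?_ (measurableSet_slab w)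
    refine (measurable_measure_prodMk_left (ν := g)
      (s := {r : ((Sp n × ℝ) × Sp n) × Sp n | |⟪r.1.1.1, r.2 - r.1.2⟫| ≤ 2 * w}) ?_).pow_const j
    exact (isClosed_le (Continuous.abs (by fun_prop)) continuous_const).measurableSet
  calc ∫⁻ q, slab g w q ^ (j + 1) ∂(gauss n).prod volume
      ≤ ∫⁻ q, ∫⁻ v0, {q : (Sp n × ℝ) × Sp n | |q.1.2 - ⟪q.1.1, q.2⟫| ≤ w}.indicator
          (fun q => g {v | |⟪q.1.1, v - q.2⟫| ≤ 2 * w} ^ j) (q, v0) ∂g
            ∂(gauss n).prod volume := by
        refine lintegral_mono fun q => ?_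
        have hS : MeasurableSet {v : Sp n | |q.2 - ⟪q.1, v⟫| ≤ w} :=
          (isClosed_le (Continuous.abs (by fun_prop)) continuous_const).measurableSet
        calc slab g w q ^ (j + 1) = ∫⁻ v0, {v | |q.2 - ⟪q.1, v⟫| ≤ w}.indicator
              (fun _ => slab g w q ^ j) v0 ∂g := by
              rw [lintegral_indicator_const hS, pow_succ]; rfl
          _ ≤ _ := by
              refine lintegral_mono fun v0 => ?_
              by_cases h : |q.2 - ⟪q.1, v0⟫| ≤ w
              · rw [Set.indicator_of_mem (by exact h), Set.indicator_of_mem (by exact h)]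
                simp only [slab]
                refine pow_le_pow_left' (measure_mono fun v hv => ?_) j
                simp only [Set.mem_ofPred_eq] at hv ⊢
                rw [inner_sub_right]
                calc |⟪q.1, v⟫ - ⟪q.1, v0⟫| ≤ |⟪q.1, v⟫ - q.2| + |q.2 - ⟪q.1, v0⟫| := abs_sub_le _ _ _
                  _ ≤ w + w := add_le_add (by rw [abs_sub_comm]; exact hv) h
                  _ = 2 * w := by ring
              · rw [Set.indicator_of_notMem (by exact h)]
                exact zero_le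
    _ = ∫⁻ v0, ∫⁻ q, {q : (Sp n × ℝ) × Sp n | |q.1.2 - ⟪q.1.1, q.2⟫| ≤ w}.indicator
          (fun q => g {v | |⟪q.1.1, v - q.2⟫| ≤ 2 * w} ^ j) (q, v0) ∂(gauss n).prod volume ∂g :=
        lintegral_lintegral_swap hm1.aemeasurable
    _ = ∫⁻ v0, ENNReal.ofReal (2 * w) * ∫⁻ x, slabSub g v0 (2 * w) x ^ j ∂gauss n ∂g := by
        refine lintegral_congr fun v0 => ?_
        refine (lintegral_prod _
            (hm1.comp (by fun_prop : Measurable fun q : Sp n × ℝ => (q, v0))).aemeasurable).trans ?_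
        rw [← lintegral_const_mul _ ((measurable_slabSub g v0 (2 * w)).pow_const j)]
        refine lintegral_congr fun x => ?_
        have : (fun y => {q : (Sp n × ℝ) × Sp n | |q.1.2 - ⟪q.1.1, q.2⟫| ≤ w}.indicator
            (fun q => g {v | |⟪q.1.1, v - q.2⟫| ≤ 2 * w} ^ j) ((x, y), v0))
            = (Set.Icc (⟪x, v0⟫ - w) (⟪x, v0⟫ + w)).indicator
              fun _ => slabSub g v0 (2 * w) x ^ j := by
          funext y
          have : |y - ⟪x, v0⟫| ≤ w ↔ y ∈ Set.Icc (⟪x, v0⟫ - w) (⟪x, v0⟫ + w) := by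
            rw [abs_le, Set.mem_Icc]; constructor <;> rintro ⟨a, b⟩ <;> constructor <;> linarith
          by_cases h : |y - ⟪x, v0⟫| ≤ w
          · rw [Set.indicator_of_mem (by exact h), Set.indicator_of_mem (this.1 h)]; rfl
          · rw [Set.indicator_of_notMem (by exact h), Set.indicator_of_notMem (mt this.2 h)]
        simp only [Function.comp_apply]
        rw [this, lintegral_indicator_const measurableSet_Icc, Real.volume_Icc, mul_comm]
        congr 2
        ring
    _ ≤ ∫⁻ _v0, ENNReal.ofReal (2 * w) * (ENNReal.ofReal (2 * w) * Φ) ^ j ∂g := by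
        refine lintegral_mono fun v0 => ?_
        gcongr
        have := slabSub_moment g (k := j) hΦ (w := 2 * w) (by positivity) j ⊥ (by simp) v0
          Set.univ MeasurableSet.univ (fun _ _ _ _ => trivial)
        simpa using this
    _ = _ := by rw [lintegral_const]; ring

lemma amgm_nnreal (j : ℕ) (a b : ℝ) (ha : 0 ≤ a) (hb : 0 ≤ b) :
    (j + 1) * a ^ j * b ≤ j * a ^ (j + 1) + b ^ (j + 1) := by
  induction j with
  | zero => simp
  | succ j ih =>
    have h1 := mul_le_mul_of_nonneg_right ih hb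
    have h2 : 0 ≤ ((j : ℝ) + 1) * a ^ j * (a - b) ^ 2 := by positivity
    push_cast
    simp only [pow_succ] at *
    nlinarith

lemma amgm_ennreal (j : ℕ) (a b : ℝ≥0∞) :
    (j + 1) * a ^ j * b ≤ j * a ^ (j + 1) + b ^ (j + 1) := by
  rcases eq_or_ne b ⊤ with rfl | hb
  · simp
  rcases eq_or_ne a ⊤ with rfl | ha
  · rcases Nat.eq_zero_or_pos j with rfl | hj
    · simp
    · simp [ENNReal.mul_top, hj.ne']
  rw [← ENNReal.ofReal_toReal ha, ← ENNReal.ofReal_toReal hb]
  have h := amgm_nnreal j a.toReal b.toReal ENNReal.toReal_nonneg ENNReal.toReal_nonneg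
  have e1 : (j : ℝ≥0∞) + 1 = ENNReal.ofReal (j + 1) := by
    rw [ENNReal.ofReal_add (by positivity) zero_le_one]; simp
  rw [e1, ← ENNReal.ofReal_pow ENNReal.toReal_nonneg, ← ENNReal.ofReal_pow ENNReal.toReal_nonneg,
    ← ENNReal.ofReal_pow ENNReal.toReal_nonneg, ← ENNReal.ofReal_natCast,
    ← ENNReal.ofReal_mul (by positivity), ← ENNReal.ofReal_mul (by positivity),
    ← ENNReal.ofReal_mul (by positivity), ← ENNReal.ofReal_add (by positivity) (by positivity)]
  exact ENNReal.ofReal_le_ofReal h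

lemma amgm_scaled (j : ℕ) (G h s : ℝ≥0∞) (hs : s ≠ 0) (hs' : s ≠ ⊤) :
    (j + 1) * (G ^ j * h) ≤ j * s * G ^ (j + 1) + h ^ (j + 1) * (s ^ j)⁻¹ := by
  have hp : s ^ j ≠ 0 := pow_ne_zero _ hs
  have hp' : s ^ j ≠ ⊤ := ENNReal.pow_ne_top hs'
  have := amgm_ennreal j (s * G) h
  calc (j + 1 : ℝ≥0∞) * (G ^ j * h) = ((j + 1) * (s * G) ^ j * h) * (s ^ j)⁻¹ := by
        rw [mul_pow]
        calc (j + 1 : ℝ≥0∞) * (G ^ j * h) = (j + 1) * (G ^ j * h) * (s ^ j * (s ^ j)⁻¹) := by
              rw [ENNReal.mul_inv_cancel hp hp', mul_one]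
          _ = _ := by ring
    _ ≤ (j * (s * G) ^ (j + 1) + h ^ (j + 1)) * (s ^ j)⁻¹ := by gcongr
    _ = j * s * G ^ (j + 1) * (s ^ j * (s ^ j)⁻¹) + h ^ (j + 1) * (s ^ j)⁻¹ := by
        rw [mul_pow, pow_succ s]; ring
    _ = _ := by rw [ENNReal.mul_inv_cancel hp hp', mul_one]

lemma le_liminf_average {P : ℝ → ℝ≥0∞} (hP : LowerSemicontinuous P) (y : ℝ) :
    P y ≤ liminf (fun m : ℕ => (ENNReal.ofReal (2 / (m + 1)))⁻¹
      * ∫⁻ u in Set.Icc (y - 1 / (m + 1)) (y + 1 / (m + 1)), P u) atTop := by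
  refine le_of_forall_lt fun a ha => ?_
  obtain ⟨b, hab, hb⟩ := exists_between ha
  obtain ⟨δ, hδ, hball⟩ := Metric.eventually_nhds_iff.1 (hP y b hb)
  refine lt_of_lt_of_le hab (le_liminf_of_le (by isBoundedDefault) ?_)
  obtain ⟨N, hN⟩ := exists_nat_one_div_lt hδ
  refine eventually_atTop.2 ⟨N, fun m hm => ?_⟩
  have hw : (1 : ℝ) / (m + 1) < δ := (Nat.one_div_le_one_div hm).trans_lt hN
  have h0 : (0 : ℝ) < 2 / (m + 1) := by positivity
  calc b = (ENNReal.ofReal (2 / (m + 1)))⁻¹ * (b * ENNReal.ofReal (2 / (m + 1))) := by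
        rw [mul_comm b, ← mul_assoc, ENNReal.inv_mul_cancel (by simpa using h0) ENNReal.ofReal_ne_top,
          one_mul]
    _ ≤ _ := by
        gcongr
        calc b * ENNReal.ofReal (2 / (m + 1))
            = ∫⁻ _ in Set.Icc (y - 1 / (m + 1)) (y + 1 / (m + 1)), b := by
              rw [setLIntegral_const, Real.volume_Icc]
              congr 2; ring
          _ ≤ _ := setLIntegral_mono' measurableSet_Icc fun u hu => (hball ?_).le
        rw [Real.dist_eq, abs_lt]
        constructor <;> linarith [hu.1, hu.2]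

/-- The duality form of the moment bound. -/
theorem pair_duality (g : Measure (Sp n)) [IsFiniteMeasure g] {j : ℕ} {Φ : ℝ≥0∞}
    (hΦ : ∀ V : Submodule ℝ (Sp n), Module.finrank ℝ V ≤ j → ∀ p,
      ∫⁻ v, (ENNReal.ofReal ‖perp V (v - p)‖)⁻¹ ∂g ≤ Φ)
    (G : Sp n × ℝ → ℝ≥0∞) (hG : Measurable G) (s : ℝ≥0∞) (hs : s ≠ 0) (hs' : s ≠ ⊤) :
    (j + 1) * ∫⁻ v, ∫⁻ x, G (x, ⟪x, v⟫) ^ j ∂gauss n ∂g
      ≤ j * s * ∫⁻ q, G q ^ (j + 1) ∂(gauss n).prod volume + g Set.univ * Φ ^ j * (s ^ j)⁻¹ := by
  refine ENNReal.le_of_forall_pos_le_add fun η hη _ => ?_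
  obtain ⟨η', hη'0, hη'⟩ : ∃ η' : ℝ≥0∞, η' ≠ 0 ∧ (j : ℝ≥0∞) * s * η' ≤ η := by
    refine ⟨(η : ℝ≥0∞) / ((j : ℝ≥0∞) * s + 1), ?_, ?_⟩
    · simp [hη.ne', ENNReal.mul_ne_top, hs']
    · calc (j : ℝ≥0∞) * s * ((η : ℝ≥0∞) / ((j : ℝ≥0∞) * s + 1))
          ≤ ((j : ℝ≥0∞) * s + 1) * ((η : ℝ≥0∞) / ((j : ℝ≥0∞) * s + 1)) := by
            gcongr; exact le_self_add
        _ ≤ η := ENNReal.mul_div_le
  obtain ⟨H, hGH, hH, hHint⟩ := exists_le_lowerSemicontinuous_lintegral_ge
    (μ := (gauss n).prod (volume : Measure ℝ)) (fun q => G q ^ (j + 1)) (hG.pow_const _) hη'0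
  set r : ℝ := ((j : ℝ) + 1)⁻¹
  have hr : 0 < r := by positivity
  let P : Sp n × ℝ → ℝ≥0∞ := fun q => (H q ^ r) ^ j
  have hP : LowerSemicontinuous P := by
    refine Continuous.comp_lowerSemicontinuous (g := fun t : ℝ≥0∞ => (t ^ r) ^ j) ?_ hH ?_
    · exact (ENNReal.continuous_pow j).comp ENNReal.continuous_rpow_const
    · exact fun a b hab => pow_le_pow_left' (ENNReal.rpow_le_rpow hab hr.le) j
  have hPm : Measurable P := hP.measurable
  have hroot : ∀ q, (H q ^ r) ^ (j + 1) = H q := fun q => by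
    rw [← ENNReal.rpow_natCast, ← ENNReal.rpow_mul]
    push_cast
    rw [inv_mul_cancel₀ (by positivity), ENNReal.rpow_one]
  have hGP : ∀ q, G q ^ j ≤ P q := fun q => by
    refine pow_le_pow_left' ?_ j
    calc G q = (G q ^ (j + 1)) ^ r := by
          rw [← ENNReal.rpow_natCast, ← ENNReal.rpow_mul]
          push_cast
          rw [mul_inv_cancel₀ (by positivity), ENNReal.rpow_one]
      _ ≤ _ := ENNReal.rpow_le_rpow (hGH q) hr.le
  let av : ℕ → Sp n → Sp n → ℝ≥0∞ := fun m v x => (ENNReal.ofReal (2 / (m + 1)))⁻¹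
    * ∫⁻ u in Set.Icc (⟪x, v⟫ - 1 / (m + 1)) (⟪x, v⟫ + 1 / (m + 1)), P (x, u)
  have hind : ∀ (m : ℕ), Measurable fun q : (Sp n × Sp n) × ℝ =>
      {q : (Sp n × Sp n) × ℝ | |q.2 - ⟪q.1.2, q.1.1⟫| ≤ 1 / ((m : ℝ) + 1)}.indicator
        (fun q => P (q.1.2, q.2)) q := fun m =>
    (hPm.comp (by fun_prop)).indicator
      (isClosed_le (Continuous.abs (by fun_prop)) continuous_const).measurableSet
  have hav : ∀ m v x, av m v x = (ENNReal.ofReal (2 / (m + 1)))⁻¹ * ∫⁻ u,
      {q : (Sp n × Sp n) × ℝ | |q.2 - ⟪q.1.2, q.1.1⟫| ≤ 1 / ((m : ℝ) + 1)}.indicator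
        (fun q => P (q.1.2, q.2)) ((v, x), u) := by
    intro m v x
    simp only [av]
    rw [← lintegral_indicator measurableSet_Icc]
    congr 1
    refine lintegral_congr fun u => ?_
    have : |u - ⟪x, v⟫| ≤ 1 / ((m : ℝ) + 1)
        ↔ u ∈ Set.Icc (⟪x, v⟫ - 1 / ((m : ℝ) + 1)) (⟪x, v⟫ + 1 / (m + 1)) := by
      rw [abs_le, Set.mem_Icc]; constructor <;> rintro ⟨a, b⟩ <;> constructor <;> linarith
    by_cases h : |u - ⟪x, v⟫| ≤ 1 / ((m : ℝ) + 1)
    · rw [Set.indicator_of_mem (this.1 h), Set.indicator_of_mem (by exact h)]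
    · rw [Set.indicator_of_notMem (mt this.2 h), Set.indicator_of_notMem (by exact h)]
  have havm : ∀ m, Measurable fun p : Sp n × Sp n => av m p.1 p.2 := by
    intro m
    simp only [hav]
    exact (hind m).lintegral_prod_right'.const_mul _
  have hbound : ∀ m : ℕ, (j + 1 : ℝ≥0∞) * ∫⁻ v, ∫⁻ x, av m v x ∂gauss n ∂g
      ≤ j * s * ∫⁻ q, H q ∂(gauss n).prod volume + g Set.univ * Φ ^ j * (s ^ j)⁻¹ := by
    intro m
    set w : ℝ := 1 / ((m : ℝ) + 1) with hw
    have hw0 : 0 < w := by positivity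
    set c : ℝ≥0∞ := (ENNReal.ofReal (2 / ((m : ℝ) + 1)))⁻¹ with hc
    have e2 : (2 : ℝ) / ((m : ℝ) + 1) = 2 * w := by rw [hw]; ring
    have hswap : ∫⁻ v, ∫⁻ x, av m v x ∂gauss n ∂g
        = ∫⁻ q, P q * (c * slab g w q) ∂(gauss n).prod volume := by
      calc ∫⁻ v, ∫⁻ x, av m v x ∂gauss n ∂g
          = ∫⁻ x, ∫⁻ v, av m v x ∂g ∂gauss n := lintegral_lintegral_swap (havm m).aemeasurable
        _ = ∫⁻ x, (∫⁻ u : ℝ, P (x, u) * (c * slab g w (x, u))) ∂gauss n := by
            refine lintegral_congr fun x => ?_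
            simp only [hav]
            have hx : Measurable (Function.uncurry fun (v : Sp n) (u : ℝ) =>
                {q : (Sp n × Sp n) × ℝ | |q.2 - ⟪q.1.2, q.1.1⟫| ≤ w}.indicator
                  (fun q => P (q.1.2, q.2)) ((v, x), u)) :=
              (hind m).comp (by fun_prop : Measurable fun q : Sp n × ℝ => ((q.1, x), q.2))
            rw [lintegral_const_mul' _ _ (ENNReal.inv_ne_top.2 (by simpa using (by positivity :
              (0 : ℝ) < 2 / ((m : ℝ) + 1)))), lintegral_lintegral_swap hx.aemeasurable,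
              ← lintegral_const_mul' _ _ (ENNReal.inv_ne_top.2 (by simpa using (by positivity :
              (0 : ℝ) < 2 / ((m : ℝ) + 1))))]
            refine lintegral_congr fun u => ?_
            have hS : MeasurableSet {v : Sp n | |u - ⟪x, v⟫| ≤ w} :=
              (isClosed_le (Continuous.abs (by fun_prop)) continuous_const).measurableSet
            have : (fun v => {q : (Sp n × Sp n) × ℝ | |q.2 - ⟪q.1.2, q.1.1⟫| ≤ w}.indicator
                (fun q => P (q.1.2, q.2)) ((v, x), u))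
                = {v | |u - ⟪x, v⟫| ≤ w}.indicator fun _ => P (x, u) := by
              funext v
              by_cases h : |u - ⟪x, v⟫| ≤ w <;> simp [Set.indicator, h]
            rw [this, lintegral_indicator_const hS]
            simp only [slab]
            ring
        _ = _ := (lintegral_prod _ (hPm.mul ((measurable_slab g w).const_mul c)).aemeasurable).symm
    rw [hswap, ← lintegral_const_mul' _ _ (by simp)]
    calc ∫⁻ q, (j + 1 : ℝ≥0∞) * (P q * (c * slab g w q)) ∂(gauss n).prod volume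
        ≤ ∫⁻ q, (j * s * H q + (c * slab g w q) ^ (j + 1) * (s ^ j)⁻¹) ∂(gauss n).prod volume :=
          lintegral_mono fun q => by
            have := amgm_scaled j (H q ^ r) (c * slab g w q) s hs hs'
            rwa [hroot] at this
      _ = j * s * ∫⁻ q, H q ∂(gauss n).prod volume
            + c ^ (j + 1) * (∫⁻ q, slab g w q ^ (j + 1) ∂(gauss n).prod volume) * (s ^ j)⁻¹ := by
          rw [lintegral_add_left (hH.measurable.const_mul _), lintegral_const_mul _ hH.measurable]
          congr 1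
          simp only [mul_pow]
          rw [lintegral_mul_const _ (((measurable_slab g w).pow_const _).const_mul _),
            lintegral_const_mul _ ((measurable_slab g w).pow_const _)]
      _ ≤ _ := by
          refine add_le_add le_rfl (mul_le_mul' ?_ le_rfl)
          calc c ^ (j + 1) * ∫⁻ q, slab g w q ^ (j + 1) ∂(gauss n).prod volume
              ≤ c ^ (j + 1) * (ENNReal.ofReal (2 * w) * g Set.univ
                  * (ENNReal.ofReal (2 * w) * Φ) ^ j) := by gcongr; exact slab_moment g hΦ hw0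
            _ = (c * ENNReal.ofReal (2 * w)) ^ (j + 1) * (g Set.univ * Φ ^ j) := by ring
            _ = g Set.univ * Φ ^ j := by
                rw [hc, e2, ENNReal.inv_mul_cancel (by simpa using hw0) ENNReal.ofReal_ne_top,
                  one_pow, one_mul]
  calc (j + 1 : ℝ≥0∞) * ∫⁻ v, ∫⁻ x, G (x, ⟪x, v⟫) ^ j ∂gauss n ∂g
      ≤ (j + 1) * ∫⁻ v, ∫⁻ x, liminf (fun m => av m v x) atTop ∂gauss n ∂g := by
        gcongr with v x
        exact (hGP _).trans (le_liminf_average
          (hP.comp (continuous_const.prodMk continuous_id)) _)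
    _ ≤ (j + 1) * liminf (fun m => ∫⁻ v, ∫⁻ x, av m v x ∂gauss n ∂g) atTop := by
        gcongr
        refine (lintegral_mono fun v => lintegral_liminf_le fun m =>
          (havm m).comp (measurable_const.prodMk measurable_id)).trans ?_
        exact lintegral_liminf_le fun m => (havm m).lintegral_prod_right'
    _ = liminf (fun m => (j + 1) * ∫⁻ v, ∫⁻ x, av m v x ∂gauss n ∂g) atTop :=
        (ENNReal.liminf_const_mul_of_ne_top (by simp)).symm
    _ ≤ j * s * ∫⁻ q, H q ∂(gauss n).prod volume + g Set.univ * Φ ^ j * (s ^ j)⁻¹ :=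
        liminf_le_of_frequently_le' (Frequently.of_forall hbound)
    _ ≤ j * s * (∫⁻ q, G q ^ (j + 1) ∂(gauss n).prod volume + η')
          + g Set.univ * Φ ^ j * (s ^ j)⁻¹ := by gcongr
    _ ≤ _ := by
        rw [mul_add, add_right_comm]
        gcongr

/-- A measure in one cell whose subcells carry little mass is spread out around flats. -/
theorem inv_dist_bound {K : ℕ} (hK : 2 ≤ K) (R k : ℕ) (hk : k ≤ n + 1) (c : Fin (n + 1) → ℤ)
    (g : Measure (Sp n)) (hsupp : g (cell K R c)ᶜ = 0) (b : ℕ → ℝ≥0∞)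
    (hb : ∀ l, ∀ i, g (cell K (R + (l + 1)) i) ≤ g Set.univ * b l)
    (hsum : ∑' l, (K : ℝ≥0∞) ^ (l + 2)
      * (ENNReal.ofReal (((K : ℝ) ^ (l + 1)) ^ k * tubeConst ^ (2 * (n + 1))) * b l) ≤ 1)
    (V : Submodule ℝ (Sp n)) (hV : Module.finrank ℝ V ≤ k) (p : Sp n) :
    ∫⁻ v, (ENNReal.ofReal ‖perp V (v - p)‖)⁻¹ ∂g ≤ 3 * (K : ℝ≥0∞) ^ (R + 1) * g Set.univ := by
  have hK1 : (1 : ℝ) < K := by exact_mod_cast hK
  have hK0 : (0 : ℝ) < K := by positivity
  let tube : ℕ → Set (Sp n) := fun l =>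
    {v | ‖perp V (v - p)‖ ≤ ((K : ℝ) ^ (R + l))⁻¹}
  have htube : ∀ l, MeasurableSet (tube l) := fun l =>
    (isClosed_le ((continuous_perp V).comp (continuous_id.sub continuous_const)).norm
      continuous_const).measurableSet
  have hpt : ∀ v, (ENNReal.ofReal ‖perp V (v - p)‖)⁻¹
      ≤ (K : ℝ≥0∞) ^ R + ∑' l, (tube l).indicator (fun _ => (K : ℝ≥0∞) ^ (R + l + 1)) v := by
    intro v
    set t := ‖perp V (v - p)‖ with ht
    rcases eq_or_lt_of_le (norm_nonneg (perp V (v - p))) with h0 | h0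
    · refine le_trans le_top (le_of_eq ?_)
      refine (ENNReal.add_eq_top.2 (Or.inr ?_)).symm
      refine top_le_iff.1 ?_
      calc (⊤ : ℝ≥0∞) = ∑' _l : ℕ, (1 : ℝ≥0∞) := by simp
        _ ≤ _ := ENNReal.tsum_le_tsum fun l => by
            rw [Set.indicator_of_mem (show v ∈ tube l by
              show t ≤ _; rw [ht, ← h0]; positivity)]
            exact one_le_pow₀ (by exact_mod_cast (le_trans one_le_two hK))
    by_cases hbig : ((K : ℝ) ^ R)⁻¹ ≤ t
    · refine le_add_right (ENNReal.inv_le_iff_inv_le.1 ?_)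
      rw [← ENNReal.ofReal_natCast, ← ENNReal.ofReal_pow hK0.le, ← ENNReal.ofReal_inv_of_pos
        (by positivity)]
      exact ENNReal.ofReal_le_ofReal hbig
    · have hex : ∃ l, ((K : ℝ) ^ (R + l + 1))⁻¹ < t := by
        obtain ⟨l, hl⟩ := pow_unbounded_of_one_lt t⁻¹ hK1
        refine ⟨l, (inv_lt_comm₀ (by positivity) h0).2 (hl.trans_le ?_)⟩
        exact pow_le_pow_right₀ hK1.le (by omega)
      classical
      refine le_add_left (le_trans ?_ (ENNReal.le_tsum (Nat.find hex)))
      have hmem : v ∈ tube (Nat.find hex) := by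
        show t ≤ _
        rcases Nat.eq_zero_or_pos (Nat.find hex) with h | h
        · rw [h, add_zero]; exact (not_le.1 hbig).le
        · have := Nat.find_min hex (Nat.sub_lt h one_pos)
          rw [not_lt, show R + (Nat.find hex - 1) + 1 = R + Nat.find hex by omega] at this
          exact this
      rw [Set.indicator_of_mem hmem, ENNReal.inv_le_iff_inv_le, ← ENNReal.ofReal_natCast,
        ← ENNReal.ofReal_pow hK0.le, ← ENNReal.ofReal_inv_of_pos (by positivity)]
      exact ENNReal.ofReal_le_ofReal (Nat.find_spec hex).le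
  have htl : ∀ l, g (tube (l + 1)) ≤
      ENNReal.ofReal (((K : ℝ) ^ (l + 1)) ^ k * tubeConst ^ (2 * (n + 1))) * b l * g Set.univ := by
    intro l
    obtain ⟨J, hJ, hmem⟩ := tube_cover (by omega : 0 < K) R (l + 1) k hk c V hV p
    have hsub : tube (l + 1) ⊆ (cell K R c)ᶜ ∪ ⋃ i ∈ J, cell K (R + (l + 1)) i := by
      intro v hv
      by_cases hc : v ∈ cell K R c
      · exact Or.inr (Set.mem_biUnion (hmem v hc hv) (mem_cell_idx K _ v))
      · exact Or.inl hc
    calc g (tube (l + 1)) ≤ g ((cell K R c)ᶜ) + g (⋃ i ∈ J, cell K (R + (l + 1)) i) :=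
          (measure_mono hsub).trans (measure_union_le _ _)
      _ ≤ 0 + ∑ _i ∈ J, g Set.univ * b l :=
          add_le_add hsupp.le ((measure_biUnion_finset_le J _).trans
            (Finset.sum_le_sum fun i _ => hb l i))
      _ = (J.card : ℝ≥0∞) * b l * g Set.univ := by
          rw [Finset.sum_const, nsmul_eq_mul]; ring
      _ ≤ _ := by
          gcongr
          rw [← ENNReal.ofReal_natCast]
          exact ENNReal.ofReal_le_ofReal hJ
  calc ∫⁻ v, (ENNReal.ofReal ‖perp V (v - p)‖)⁻¹ ∂g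
      ≤ ∫⁻ v, ((K : ℝ≥0∞) ^ R + ∑' l, (tube l).indicator (fun _ => (K : ℝ≥0∞) ^ (R + l + 1)) v) ∂g :=
        lintegral_mono hpt
    _ = (K : ℝ≥0∞) ^ R * g Set.univ + ∑' l, (K : ℝ≥0∞) ^ (R + l + 1) * g (tube l) := by
        rw [lintegral_add_left measurable_const, lintegral_const,
          lintegral_tsum fun l => (measurable_const.indicator (htube l)).aemeasurable]
        simp only [lintegral_indicator_const (htube _)]
    _ = (K : ℝ≥0∞) ^ R * g Set.univ + ((K : ℝ≥0∞) ^ (R + 1) * g (tube 0)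
          + ∑' l, (K : ℝ≥0∞) ^ (R + (l + 1) + 1) * g (tube (l + 1))) := by
        rw [tsum_eq_zero_add' ENNReal.summable]
    _ ≤ (K : ℝ≥0∞) ^ (R + 1) * g Set.univ + ((K : ℝ≥0∞) ^ (R + 1) * g Set.univ
          + ∑' l, (K : ℝ≥0∞) ^ R * g Set.univ * ((K : ℝ≥0∞) ^ (l + 2)
            * (ENNReal.ofReal (((K : ℝ) ^ (l + 1)) ^ k * tubeConst ^ (2 * (n + 1))) * b l))) := by
        gcongr ?_ + (?_ + ?_)
        · gcongr
          · exact_mod_cast (by omega : 1 ≤ K)
          · omega
        · exact mul_le_mul' le_rfl (measure_mono (Set.subset_univ _))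
        · refine ENNReal.tsum_le_tsum fun l => ?_
          calc (K : ℝ≥0∞) ^ (R + (l + 1) + 1) * g (tube (l + 1))
              ≤ (K : ℝ≥0∞) ^ (R + (l + 1) + 1) *
                (ENNReal.ofReal (((K : ℝ) ^ (l + 1)) ^ k * tubeConst ^ (2 * (n + 1))) * b l
                  * g Set.univ) := by gcongr; exact htl l
            _ = _ := by ring
    _ ≤ (K : ℝ≥0∞) ^ (R + 1) * g Set.univ + ((K : ℝ≥0∞) ^ (R + 1) * g Set.univ
          + (K : ℝ≥0∞) ^ (R + 1) * g Set.univ) := by
        rw [ENNReal.tsum_mul_left]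
        gcongr (_ : ℝ≥0∞) + (_ + ?_)
        calc (K : ℝ≥0∞) ^ R * g Set.univ * _ ≤ (K : ℝ≥0∞) ^ R * g Set.univ * 1 := by gcongr
          _ ≤ _ := by
              rw [mul_one]; gcongr
              · exact_mod_cast (by omega : 1 ≤ K)
              · omega
    _ = _ := by ring

end Vale.Agent.P309
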