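import Mathlib
import Vale.Agent.P309.Moment

/-!
One step of a finite state process driven by Gaussian rows and their labels, and the growth of the
moment functional along such a step.
-/

namespace Vale.Agent.P309

open MeasureTheory ProbabilityTheory
open scoped ENNReal RealInnerProductSpace

variable {n : ℕ} {O : Type*} [Fintype O] {O' : Type*} [Fintype O']

/-- Transition probabilities which are measurable in the pair and add up to at most one. -/
structure Kern (n : ℕ) (O O' : Type*) [Fintype O'] where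
  /-- The probability of moving from o to o' on reading a pair. -/
  p : O → Sp n × ℝ → O' → ℝ≥0∞
  meas : ∀ o o', Measurable fun q => p o q o'
  sum_le : ∀ o q, ∑ o', p o q o' ≤ 1

/-- The probability of moving from o to o' for the signal S. -/
noncomputable def Kern.dens (T : Kern n O O') (o : O) (o' : O') (S : Sp n) : ℝ≥0∞ :=
  ∫⁻ x, T.p o (x, ⟪x, S⟫) o' ∂gauss n

omit [Fintype O] in
lemma Kern.measurable_dens (T : Kern n O O') (o : O) (o' : O') : Measurable (T.dens o o') := by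
  have h : Measurable fun q : Sp n × Sp n => T.p o (q.2, ⟪q.2, q.1⟫) o' :=
    (T.meas o o').comp (by fun_prop)
  exact h.lintegral_prod_right'

omit [Fintype O] in
lemma Kern.sum_dens_le (T : Kern n O O') (o : O) (S : Sp n) : ∑ o', T.dens o o' S ≤ 1 := by
  simp only [Kern.dens]
  rw [← lintegral_finsetSum]
  · refine (lintegral_mono fun x => T.sum_le o _).trans ?_
    simp
  · exact fun o' _ => (T.meas o o').comp (by fun_prop)

/-- The image of a family of signal measures under one step. -/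
noncomputable def push (T : Kern n O O') (μ : O → Measure (Sp n)) (o' : O') : Measure (Sp n) :=
  ∑ o, (μ o).withDensity (T.dens o o')

lemma lintegral_push (T : Kern n O O') (μ : O → Measure (Sp n)) (o' : O') {f : Sp n → ℝ≥0∞}
    (hf : Measurable f) :
    ∫⁻ S, f S ∂push T μ o' = ∑ o, ∫⁻ S, T.dens o o' S * f S ∂μ o := by
  rw [push, lintegral_finsetSum_measure]
  exact Finset.sum_congr rfl fun o _ =>
    lintegral_withDensity_eq_lintegral_mul _ (T.measurable_dens o o') hf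

lemma push_apply (T : Kern n O O') (μ : O → Measure (Sp n)) (o' : O') {A : Set (Sp n)}
    (hA : MeasurableSet A) : push T μ o' A = ∑ o, ∫⁻ S in A, T.dens o o' S ∂μ o := by
  rw [push, Measure.coe_finsetSum, Finset.sum_apply]
  exact Finset.sum_congr rfl fun o _ => withDensity_apply _ hA

lemma sum_push_le (T : Kern n O O') (μ : O → Measure (Sp n)) :
    ∑ o', push T μ o' ≤ ∑ o, μ o := by
  refine Measure.le_iff.2 fun A hA => ?_
  simp only [Measure.coe_finsetSum, Finset.sum_apply, push_apply T μ _ hA]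
  rw [Finset.sum_comm]
  refine Finset.sum_le_sum fun o _ => ?_
  rw [← lintegral_finsetSum _ fun o' _ => T.measurable_dens o o']
  refine (lintegral_mono fun S => T.sum_dens_le o S).trans ?_
  simp

/-- The expected flat weight of a transition. -/
noncomputable def Kern.flat (T : Kern n O O') (o : O) (o' : O') : ℝ≥0∞ :=
  ∫⁻ q, T.p o q o' ∂(gauss n).prod volume

lemma power_mean_le (j : ℕ) (b T : O' → ℝ≥0∞) (hb : ∀ o, b o ≠ ⊤) (hT : ∑ o, T o ≤ 1) :
    ∑ o, b o ^ j * T o ≤ ((∑ o, b o ^ (j + 1) * T o) ^ ((j : ℝ) + 1)⁻¹) ^ j := by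
  set G := (∑ o, b o ^ (j + 1) * T o) ^ ((j : ℝ) + 1)⁻¹ with hGdef
  have hG : G ^ (j + 1) = ∑ o, b o ^ (j + 1) * T o := by
    rw [hGdef, ← ENNReal.rpow_natCast, ← ENNReal.rpow_mul]
    push_cast
    rw [inv_mul_cancel₀ (by positivity), ENNReal.rpow_one]
  have hTtop : ∀ o, T o ≠ ⊤ := fun o =>
    ne_top_of_le_ne_top ENNReal.one_ne_top
      ((Finset.single_le_sum (fun i _ => zero_le) (Finset.mem_univ o)).trans hT)
  have hGtop : G ≠ ⊤ := by
    rw [hGdef]
    refine ENNReal.rpow_ne_top_of_nonneg (by positivity) ?_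
    exact ENNReal.sum_ne_top.2 fun o _ => ENNReal.mul_ne_top (ENNReal.pow_ne_top (hb o)) (hTtop o)
  rcases Nat.eq_zero_or_pos j with rfl | hj
  · simpa using hT
  rcases eq_or_ne G 0 with h0 | h0
  · have : ∀ o, b o ^ j * T o = 0 := fun o => by
      rw [h0, zero_pow (by omega)] at hG
      have := (Finset.sum_eq_zero_iff.1 hG.symm) o (Finset.mem_univ o)
      rcases mul_eq_zero.1 this with h | h
      · simp [pow_eq_zero_iff (by omega : j + 1 ≠ 0) |>.1 h, zero_pow hj.ne']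
      · simp [h]
    simp [this]
  refine (ENNReal.mul_le_mul_iff_right (a := ((j : ℝ≥0∞) + 1) * G) (by simp [h0])
    (ENNReal.mul_ne_top (by simp) hGtop)).1 ?_
  calc ((j : ℝ≥0∞) + 1) * G * ∑ o, b o ^ j * T o
      = ∑ o, (((j : ℝ≥0∞) + 1) * b o ^ j * G) * T o := by
        rw [Finset.mul_sum]; exact Finset.sum_congr rfl fun o _ => by ring
    _ ≤ ∑ o, ((j : ℝ≥0∞) * b o ^ (j + 1) + G ^ (j + 1)) * T o :=
        Finset.sum_le_sum fun o _ => mul_le_mul' (amgm_ennreal j _ _) le_rfl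
    _ = (j : ℝ≥0∞) * G ^ (j + 1) + G ^ (j + 1) * ∑ o, T o := by
        simp only [add_mul, Finset.sum_add_distrib, ← Finset.mul_sum, mul_assoc, hG]
    _ ≤ (j : ℝ≥0∞) * G ^ (j + 1) + G ^ (j + 1) * 1 := by gcongr
    _ = ((j : ℝ≥0∞) + 1) * G * G ^ j := by ring

/-- The moment functional grows by at most a fixed factor in one step. -/
theorem moment_step (T : Kern n O O') (μ : O → Measure (Sp n)) [∀ o, IsFiniteMeasure (μ o)]
    (j : ℕ) (c σ : ℝ≥0∞) (hσ : σ ≠ 0) (hσ' : σ ≠ ⊤) (f : Sp n → ℝ≥0∞) (hf : Measurable f)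
    (hfin : ∀ o, ∫⁻ S, f S ∂μ o ≠ ⊤)
    (hΦ : ∀ o, ∀ V : Submodule ℝ (Sp n), Module.finrank ℝ V ≤ j → ∀ p,
      ∫⁻ v, (ENNReal.ofReal ‖perp V (v - p)‖)⁻¹ ∂(μ o).withDensity f ≤ c * σ * ∫⁻ S, f S ∂μ o)
    (Λ : O → ℝ≥0∞) (hΛ : ∀ o, Λ o ≠ 0) (hΛtop : ∀ o, Λ o ≠ ⊤)
    (Λ' : O' → ℝ≥0∞) (hΛ' : ∀ o', ∑ o, Λ o * σ * T.flat o o' ≤ Λ' o')
    (hΛ'0 : ∀ o', Λ' o' ≠ 0) (hΛ'top : ∀ o', Λ' o' ≠ ⊤) :
    ∑ o', (∫⁻ S, f S ∂push T μ o') ^ (j + 1) * (Λ' o' ^ j)⁻¹
      ≤ c ^ j * ∑ o, (∫⁻ S, f S ∂μ o) ^ (j + 1) * (Λ o ^ j)⁻¹ := by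
  set A' : O' → ℝ≥0∞ := fun o' => ∫⁻ S, f S ∂push T μ o' with hA'
  set b : O' → ℝ≥0∞ := fun o' => A' o' / Λ' o' with hb
  have hA'top : ∀ o', A' o' ≠ ⊤ := fun o' => by
    simp only [hA', lintegral_push T μ o' hf]
    refine ENNReal.sum_ne_top.2 fun o _ => ne_top_of_le_ne_top (hfin o) (lintegral_mono fun S => ?_)
    calc T.dens o o' S * f S ≤ 1 * f S := by
          gcongr
          exact (Finset.single_le_sum (fun i _ => zero_le) (Finset.mem_univ o')).trans
            (T.sum_dens_le o S)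
      _ = f S := one_mul _
  have hbtop : ∀ o', b o' ≠ ⊤ := fun o' => ENNReal.div_ne_top (hA'top o') (hΛ'0 o')
  have hbΛ : ∀ o', b o' * Λ' o' = A' o' := fun o' =>
    ENNReal.div_mul_cancel (hΛ'0 o') (hΛ'top o')
  set X := ∑ o', A' o' ^ (j + 1) * (Λ' o' ^ j)⁻¹ with hX
  have hterm : ∀ o', A' o' ^ (j + 1) * (Λ' o' ^ j)⁻¹ = b o' ^ j * A' o' := fun o' => by
    simp only [hb]
    rw [pow_succ, div_eq_mul_inv, mul_pow, ENNReal.inv_pow]
    ring
  have hterm' : ∀ o', b o' ^ (j + 1) * Λ' o' = b o' ^ j * A' o' := fun o' => by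
    rw [pow_succ, mul_assoc, hbΛ]
  have hXtop : X ≠ ⊤ := by
    refine ENNReal.sum_ne_top.2 fun o' _ => ?_
    rw [hterm]
    exact ENNReal.mul_ne_top (ENNReal.pow_ne_top (hbtop o')) (hA'top o')
  let F : O → Sp n × ℝ → ℝ≥0∞ := fun o q => ∑ o', b o' ^ (j + 1) * T.p o q o'
  have hFm : ∀ o, Measurable (F o) := fun o =>
    Finset.measurable_sum _ fun o' _ => (T.meas o o').const_mul _
  let G : O → Sp n × ℝ → ℝ≥0∞ := fun o q => F o q ^ ((j : ℝ) + 1)⁻¹
  have hGm : ∀ o, Measurable (G o) := fun o => (hFm o).pow_const _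
  have hGpow : ∀ o q, G o q ^ (j + 1) = F o q := fun o q => by
    simp only [G]
    rw [← ENNReal.rpow_natCast, ← ENNReal.rpow_mul]
    push_cast
    rw [inv_mul_cancel₀ (by positivity), ENNReal.rpow_one]
  have key : ∀ o, ((j : ℝ≥0∞) + 1) * ∑ o', b o' ^ j * ∫⁻ S, T.dens o o' S * f S ∂μ o
      ≤ j * ∑ o', b o' ^ (j + 1) * (Λ o * σ * T.flat o o')
        + c ^ j * ((∫⁻ S, f S ∂μ o) ^ (j + 1) * (Λ o ^ j)⁻¹) := by
    intro o
    have : IsFiniteMeasure ((μ o).withDensity f) := isFiniteMeasure_withDensity (hfin o)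
    have hd := pair_duality ((μ o).withDensity f) (hΦ o) (G o) (hGm o) (Λ o * σ)
      (mul_ne_zero (hΛ o) hσ) (ENNReal.mul_ne_top (hΛtop o) hσ')
    have hmx : Measurable fun v => ∫⁻ x, G o (x, ⟪x, v⟫) ^ j ∂gauss n := by
      have h : Measurable fun q : Sp n × Sp n => G o (q.2, ⟪q.2, q.1⟫) ^ j :=
        ((hGm o).comp (by fun_prop)).pow_const _
      exact h.lintegral_prod_right'
    refine le_trans (le_trans (mul_le_mul' le_rfl ?_) hd) (add_le_add ?_ ?_)
    · rw [lintegral_withDensity_eq_lintegral_mul _ hf hmx]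
      have e : ∀ o', b o' ^ j * ∫⁻ S, T.dens o o' S * f S ∂μ o
          = ∫⁻ S, b o' ^ j * (T.dens o o' S * f S) ∂μ o := fun o' =>
        (lintegral_const_mul _ ((T.measurable_dens o o').mul hf)).symm
      simp only [e]
      have hm : ∀ o', Measurable fun S => b o' ^ j * (T.dens o o' S * f S) := fun o' =>
        ((T.measurable_dens o o').mul hf).const_mul _
      rw [← lintegral_finsetSum _ fun o' _ => hm o']
      refine lintegral_mono fun S => ?_
      simp only [Pi.mul_apply, Kern.dens]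
      calc ∑ o', b o' ^ j * ((∫⁻ x, T.p o (x, ⟪x, S⟫) o' ∂gauss n) * f S)
          = f S * ∫⁻ x, ∑ o', b o' ^ j * T.p o (x, ⟪x, S⟫) o' ∂gauss n := by
            have hx : ∀ o', Measurable fun x => b o' ^ j * T.p o (x, ⟪x, S⟫) o' := fun o' =>
              ((T.meas o o').comp (by fun_prop)).const_mul _
            rw [lintegral_finsetSum _ fun o' _ => hx o', Finset.mul_sum]
            refine Finset.sum_congr rfl fun o' _ => ?_
            rw [lintegral_const_mul' _ _ (ENNReal.pow_ne_top (hbtop o'))]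
            ring
        _ ≤ f S * ∫⁻ x, G o (x, ⟪x, S⟫) ^ j ∂gauss n := by
            gcongr with x
            exact power_mean_le j b _ hbtop (T.sum_le o _)
    · refine le_of_eq ?_
      simp only [hGpow, F]
      rw [lintegral_finsetSum _ fun o' _ => (T.meas o o').const_mul _, Finset.mul_sum,
        Finset.mul_sum]
      refine Finset.sum_congr rfl fun o' _ => ?_
      rw [lintegral_const_mul _ (T.meas o o'), Kern.flat]
      ring
    · refine le_of_eq ?_
      rw [withDensity_apply _ MeasurableSet.univ, Measure.restrict_univ]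
      simp only [mul_pow]
      rw [ENNReal.mul_inv (Or.inl (pow_ne_zero _ (hΛ o))) (Or.inl (ENNReal.pow_ne_top (hΛtop o)))]
      calc (∫⁻ S, f S ∂μ o) * (c ^ j * σ ^ j * (∫⁻ S, f S ∂μ o) ^ j) * ((Λ o ^ j)⁻¹ * (σ ^ j)⁻¹)
          = c ^ j * ((∫⁻ S, f S ∂μ o) ^ (j + 1) * (Λ o ^ j)⁻¹) * (σ ^ j * (σ ^ j)⁻¹) := by ring
        _ = _ := by
            rw [ENNReal.mul_inv_cancel (pow_ne_zero _ hσ) (ENNReal.pow_ne_top hσ'), mul_one]
  have hmain : ((j : ℝ≥0∞) + 1) * X
      ≤ j * X + c ^ j * ∑ o, (∫⁻ S, f S ∂μ o) ^ (j + 1) * (Λ o ^ j)⁻¹ := by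
    calc ((j : ℝ≥0∞) + 1) * X
        = ∑ o, ((j : ℝ≥0∞) + 1) * ∑ o', b o' ^ j * ∫⁻ S, T.dens o o' S * f S ∂μ o := by
          rw [hX, Finset.sum_congr rfl (fun o' _ => hterm o')]
          simp only [hA', lintegral_push T μ _ hf, Finset.mul_sum]
          rw [Finset.sum_comm]
      _ ≤ ∑ o, (j * ∑ o', b o' ^ (j + 1) * (Λ o * σ * T.flat o o')
            + c ^ j * ((∫⁻ S, f S ∂μ o) ^ (j + 1) * (Λ o ^ j)⁻¹)) :=
          Finset.sum_le_sum fun o _ => key o
      _ ≤ _ := by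
          rw [Finset.sum_add_distrib, ← Finset.mul_sum, ← Finset.mul_sum, Finset.sum_comm]
          refine add_le_add (mul_le_mul' le_rfl ?_) le_rfl
          rw [hX]
          refine Finset.sum_le_sum fun o' _ => ?_
          rw [hterm, ← hterm', ← Finset.mul_sum]
          exact mul_le_mul' le_rfl (hΛ' o')
  rw [add_mul, one_mul] at hmain
  exact (ENNReal.add_le_add_iff_left (ENNReal.mul_ne_top (ENNReal.natCast_ne_top j) hXtop)).1 hmain

/-- A power of two with an integer exponent. -/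
noncomputable def two (e : ℤ) : ℝ≥0∞ := (2 : ℝ≥0∞) ^ e

lemma two_ne_zero' (e : ℤ) : two e ≠ 0 :=
  (ENNReal.zpow_pos (by norm_num) (by norm_num) e).ne'

lemma two_ne_top (e : ℤ) : two e ≠ ⊤ :=
  (ENNReal.zpow_lt_top (by norm_num) (by norm_num) e).ne

lemma two_add (a b : ℤ) : two (a + b) = two a * two b :=
  ENNReal.zpow_add (by norm_num) (by norm_num) a b

lemma two_le {a b : ℤ} (h : a ≤ b) : two a ≤ two b :=
  ENNReal.zpow_le_of_le (by norm_num) h

lemma two_zero : two 0 = 1 := zpow_zero _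

lemma two_nat (a : ℕ) : two a = (2 : ℝ≥0∞) ^ a := zpow_natCast _ a

lemma two_neg (a : ℤ) : two (-a) = (two a)⁻¹ := ENNReal.zpow_neg ..

lemma two_pow (a : ℤ) (j : ℕ) : two a ^ j = two (a * j) := by
  induction j with
  | zero => simp [two_zero]
  | succ j ih => rw [pow_succ, ih, ← two_add]; congr 1; push_cast; ring

lemma two_eq_ofReal (e : ℤ) : two e = ENNReal.ofReal ((2 : ℝ) ^ e) := by
  rcases e.eq_nat_or_neg with ⟨a, rfl | rfl⟩
  · rw [two_nat, zpow_natCast, ENNReal.ofReal_pow zero_le_two, ENNReal.ofReal_ofNat]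
  · rw [two_neg, two_nat, zpow_neg, zpow_natCast, ENNReal.ofReal_inv_of_pos (by positivity),
      ENNReal.ofReal_pow zero_le_two, ENNReal.ofReal_ofNat]

lemma lt_of_two_mul_lt {a b : ℤ} {m : ℝ≥0∞} (h : m * two a < m * two b) : a < b := by
  by_contra hab
  exact absurd h (not_lt.2 (mul_le_mul' le_rfl (two_le (not_lt.1 hab))))

end Vale.Agent.P309
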