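import Mathlib
import Vale.Agent.P309.Defs
import Vale.Agent.P309.Step

/-!
Finite state processes, pieces of the prior, and basic facts about cells.
-/

namespace Vale.Agent.P309

open MeasureTheory ProbabilityTheory
open scoped ENNReal RealInnerProductSpace

variable {n : ℕ}

/-- The constraints on the parameters of the proof. -/
structure Par (n b q : ℕ) : Prop where
  hb : 2 ^ 13 ≤ b
  hq : 64 ≤ q
  hn : 2048 * q ≤ n
  hn' : n ≤ 4096 * q

/-- The side ratio of consecutive levels. -/
def ratio (b : ℕ) : ℕ := 2 ^ (8 * b)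

lemma ratio_pos (b : ℕ) : 0 < ratio b := pow_pos two_pos _

lemma ratio_cast (b : ℕ) : ((ratio b : ℕ) : ℝ≥0∞) = two (8 * b) := by
  rw [show (8 : ℤ) * (b : ℤ) = ((8 * b : ℕ) : ℤ) by push_cast; rfl, two_nat, ratio]
  push_cast
  rfl

/-- The deepest level that is tracked. -/
def depth (q : ℕ) : ℕ := 4 * q ^ 2 + q + 1

/-- A finite state process that reads Gaussian pairs and finally produces an output. -/
structure Chain (n : ℕ) (Q : Type) [Fintype Q] where
  /-- The transition kernel at each index. -/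
  kern : ℕ → Kern n Q Q
  /-- The law of the output. -/
  out : Q → Measure (Sp n)
  out_prob : ∀ z, out z Set.univ = 1

variable {Q : Type} [Fintype Q]

/-- The probability of an accurate output. -/
noncomputable def Chain.win (C : Chain n Q) (ε : ℝ) : ℕ → ℕ → Q → Sp n → ℝ≥0∞
  | 0, _, z, S => C.out z (accurate ε S)
  | r + 1, t, z, S => ∑ z', (C.kern t).dens z z' S * C.win ε r (t + 1) z' S

lemma measurableSet_accurate (ε : ℝ) :
    MeasurableSet {p : Sp n × Sp n | ‖p.2‖ = 1 ∧ Real.arccos ⟪p.2, p.1⟫ ≤ ε} :=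
  (measurableSet_eq_fun continuous_snd.norm.measurable measurable_const).inter
    (measurableSet_le (Real.continuous_arccos.comp
      (continuous_inner.comp (continuous_snd.prodMk continuous_fst))).measurable measurable_const)

lemma measurable_measure_accurate (μ : Measure (Sp n)) [SFinite μ] (ε : ℝ) :
    Measurable fun S => μ (accurate ε S) :=
  measurable_measure_prodMk_left (ν := μ) (measurableSet_accurate ε)

lemma Chain.measurable_win (C : Chain n Q) (ε : ℝ) :
    ∀ r t z, Measurable (C.win ε r t z)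
  | 0, _, z => by
      have : IsProbabilityMeasure (C.out z) := ⟨C.out_prob z⟩
      exact measurable_measure_accurate (C.out z) ε
  | r + 1, t, z =>
      Finset.measurable_sum _ fun z' _ =>
        ((C.kern t).measurable_dens z z').mul (C.measurable_win ε r (t + 1) z')

lemma Chain.win_le_one (C : Chain n Q) (ε : ℝ) : ∀ r t z S, C.win ε r t z S ≤ 1
  | 0, _, z, _ => by
      rw [Chain.win, ← C.out_prob z]; exact measure_mono (Set.subset_univ _)
  | r + 1, t, z, S => by
      rw [Chain.win]
      refine le_trans (Finset.sum_le_sum fun z' _ => ?_) ((C.kern t).sum_dens_le z S)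
      calc (C.kern t).dens z z' S * C.win ε r (t + 1) z' S ≤ (C.kern t).dens z z' S * 1 := by
            gcongr; exact C.win_le_one ε r _ _ _
        _ = _ := mul_one _

lemma Chain.lintegral_win_le (C : Chain n Q) (ε : ℝ) (μ : Measure (Sp n)) (r t : ℕ) (z : Q) :
    ∫⁻ S, C.win ε r t z S ∂μ ≤ μ Set.univ :=
  (lintegral_mono fun S => C.win_le_one ε r t z S).trans (by simp)

/-- A part of the prior which is spread out inside its cell. -/
structure Piece (n b q i R : ℕ) (c : Fin (n + 1) → ℤ) (G : ℕ) (ν : Measure (Sp n)) : Prop where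
  le_prior : ν ≤ sphereUniform (n + 1)
  supp : ν (cell (ratio b) R c)ᶜ = 0
  mass : two (-(1024 * ((i : ℤ) + 1) * b * q ^ 2) - 8 * b * n * R) ≤ ν Set.univ
  reg : ∀ l, 1 ≤ l → R + l ≤ depth q → ∀ c', ν (cell (ratio b) (R + l) c') ≤
    ν Set.univ * two (256 * b * q * ((min G (4 * l + 1) : ℕ) : ℤ) - 8 * b * n * l)
  bound : 4 * R + G ≤ 2 * i + 1

lemma mass_cell_le (b L : ℕ) (c : Fin (n + 1) → ℤ) :
    sphereUniform (n + 1) (cell (ratio b) L c) ≤ two (n + 1 - 8 * b * n * L) := by
  by_cases h : ∃ s ∈ cell (ratio b) L c, ‖s‖ = 1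
  · obtain ⟨s, hs, hs1⟩ := h
    have hsub : cell (ratio b) L c ⊆ Metric.closedBall s (((ratio b : ℕ) : ℝ) ^ L)⁻¹ := by
      intro v hv
      rw [Metric.mem_closedBall, dist_eq_norm]
      exact cell_dist (ratio_pos b) L (hv.trans hs.symm)
    refine (measure_mono hsub).trans ((sphereUniform_closedBall_le s hs1 (by positivity)).trans ?_)
    rw [two_eq_ofReal]
    refine ENNReal.ofReal_le_ofReal (le_of_eq ?_)
    rw [ratio, mul_pow, zpow_sub₀ two_ne_zero, show ((n : ℤ) + 1) = ((n + 1 : ℕ) : ℤ) by push_cast; rfl,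
      show (8 : ℤ) * b * n * L = ((8 * b * L * n : ℕ) : ℤ) by push_cast; ring, zpow_natCast,
      zpow_natCast, inv_pow, pow_succ]
    push_cast
    rw [← pow_mul, ← pow_mul]
    ring
  · refine le_trans (le_of_eq ?_) zero_le
    refine measure_mono_null ?_ (ae_iff.1 (sphereUniform_ae_norm (n := n)))
    intro v hv hv'
    exact h ⟨v, hv, hv'⟩

/-- The union of the cells with indices in I. -/
def cells (K L : ℕ) (I : Set (Fin (n + 1) → ℤ)) : Set (Sp n) := idx K L ⁻¹' I

lemma measurableSet_cells (K L : ℕ) (I : Set (Fin (n + 1) → ℤ)) : MeasurableSet (cells K L I) :=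
  measurable_idx K L (Set.to_countable I).measurableSet

lemma measure_cells (K L : ℕ) (I : Set (Fin (n + 1) → ℤ)) (μ : Measure (Sp n)) :
    μ (cells K L I) = ∑' c : I, μ (cell K L c) := by
  have : cells K L I = ⋃ c : I, cell K L (c : Fin (n + 1) → ℤ) := by
    ext v; simp [cells, cell]
  rw [this, measure_iUnion]
  · intro c c' hcc'
    exact Disjoint.preimage _ (by simpa [Set.disjoint_singleton] using Subtype.coe_injective.ne hcc')
  · exact fun c => measurableSet_cell K L _

/-- Comparison of two measures that are compared on every cell. -/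
lemma measure_cells_mul_le (K L : ℕ) (I : Set (Fin (n + 1) → ℤ)) (μ ν : Measure (Sp n))
    {x y : ℝ≥0∞} (hμ : ∀ c ∈ I, μ (cell K L c) ≤ x) (hν : ∀ c ∈ I, y ≤ ν (cell K L c)) :
    μ (cells K L I) * y ≤ x * ν (cells K L I) := by
  rw [measure_cells, measure_cells, ← ENNReal.tsum_mul_right, ← ENNReal.tsum_mul_left]
  exact ENNReal.tsum_le_tsum fun c => mul_le_mul' (hμ c c.2) (hν c c.2)

end Vale.Agent.P309
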