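import Mathlib
import Vale.Agent.P309.Chain

/-!
The evolution of a piece of the prior during one window of at most q steps.
-/

namespace Vale.Agent.P309

open MeasureTheory ProbabilityTheory
open scoped ENNReal RealInnerProductSpace

variable {n : ℕ} {Q : Type} [Fintype Q]

/-- The data of a window: it starts at index t₀ in state z₀ with the piece ν of level R. -/
structure Wdw (n : ℕ) (Q : Type) [Fintype Q] where
  /-- The logarithm of the cell ratio, divided by 8. -/
  b : ℕ
  /-- The window length. -/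
  q : ℕ
  /-- The process. -/
  C : Chain n Q
  /-- The first index. -/
  t₀ : ℕ
  /-- The level. -/
  R : ℕ
  /-- The roughness. -/
  G : ℕ
  /-- A point of the cell. -/
  p : Sp n
  /-- The piece. -/
  ν : Measure (Sp n)
  /-- The first state. -/
  z₀ : Q

/-- The standing hypotheses on a window. -/
structure Wdw.Ok (D : Wdw n Q) (i : ℕ) (c : Fin (n + 1) → ℤ) : Prop where
  par : Par n D.b D.q
  piece : Piece n D.b D.q i D.R c D.G D.ν
  hi : i ≤ D.q
  hp : D.p ∈ cell (ratio D.b) D.R c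
  card : (Fintype.card Q : ℝ≥0∞) ≤ two (128 * D.b * D.q ^ 2)

variable (D : Wdw n Q)

/-- The states with a counter. -/
abbrev Wdw.St (D : Wdw n Q) : Type := Q × Fin (8 * D.b * D.q + 1)

/-- The mass of the piece. -/
noncomputable def Wdw.m : ℝ≥0∞ := D.ν Set.univ

/-- The normalised squared residual of a pair, rounded up. -/
noncomputable def Wdw.noise (x : Sp n × ℝ) : ℕ :=
  ⌈((x.2 - ⟪x.1, D.p⟫) * ((ratio D.b : ℕ) : ℝ) ^ D.R) ^ 2⌉₊

lemma Wdw.measurable_noise : Measurable D.noise := by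
  unfold Wdw.noise
  exact Nat.measurable_ceil.comp (by fun_prop)

/-- The transition kernel of the process with a counter, without counters that are too big. -/
noncomputable def Wdw.kern (s : ℕ) : Kern n D.St D.St where
  p o x o' := if (o.2 : ℕ) + D.noise x = o'.2 then (D.C.kern (D.t₀ + s)).p o.1 x o'.1 else 0
  meas o o' :=
    Measurable.ite ((measurable_const.add D.measurable_noise) (measurableSet_singleton _))
      ((D.C.kern (D.t₀ + s)).meas o.1 o'.1) measurable_const
  sum_le o x := by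
    classical
    rw [Fintype.sum_prod_type]
    refine le_trans (Finset.sum_le_sum fun z' _ => ?_) ((D.C.kern (D.t₀ + s)).sum_le o.1 x)
    by_cases h : (o.2 : ℕ) + D.noise x < 8 * D.b * D.q + 1
    · rw [Finset.sum_eq_single (⟨_, h⟩ : Fin _)]
      · simp
      · intro e _ he
        rw [if_neg fun h' => he (Fin.ext (by simpa using h'.symm))]
      · simp
    · refine le_trans (le_of_eq (Finset.sum_eq_zero fun e _ => ?_)) zero_le
      rw [if_neg fun h' : (o.2 : ℕ) + D.noise x = e => h (h' ▸ e.2)]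

/-- The initial state. -/
def Wdw.o₀ : D.St := (D.z₀, 0)

open Classical in
/-- The reference weights. -/
noncomputable def Wdw.lam (D : Wdw n Q) : ℕ → D.St → ℝ≥0∞
  | 0 => fun o => (if o = D.o₀ then D.m else 0) + two (-256 * D.b * D.q ^ 2) * D.m
  | s + 1 => fun o' => (∑ o, D.lam s o * two (8 * D.b * D.R) * (D.kern s).flat o o')
      + two (-256 * D.b * D.q ^ 2) * D.m

/-- The allowed roughness at relative level l. -/
def Wdw.gl (l : ℕ) : ℤ := ((min D.G (4 * l + 1) : ℕ) : ℤ)

/-- The threshold for a heavy cell at relative level l. -/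
noncomputable def Wdw.thr (μ : Measure (Sp n)) (l : ℕ) : ℝ≥0∞ :=
  μ Set.univ * two (256 * D.b * D.q * D.gl l + 192 * D.b * D.q - 8 * D.b * n * l)

/-- The points all of whose cells are light. -/
noncomputable def Wdw.light (μ : Measure (Sp n)) : Set (Sp n) :=
  {v | ∀ l, 1 ≤ l → D.R + l ≤ depth D.q →
    μ (cell (ratio D.b) (D.R + l) (idx (ratio D.b) (D.R + l) v)) ≤ D.thr μ l}

open Classical in
/-- The truncation of a measure with reference weight lam. -/
noncomputable def Wdw.trunc (μ : Measure (Sp n)) (lam : ℝ≥0∞) : Measure (Sp n) :=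
  if lam * two (-64 * D.b * D.q) ≤ μ Set.univ ∧ two (-256 * D.b * D.q ^ 2) * D.m ≤ μ Set.univ
  then μ.restrict (D.light μ) else 0

open Classical in
/-- The truncated signal measures of the states with a counter. -/
noncomputable def Wdw.state (D : Wdw n Q) : ℕ → D.St → Measure (Sp n)
  | 0 => fun o => if o = D.o₀ then D.ν else 0
  | s + 1 => fun o' => D.trunc (push (D.kern s) (D.state s) o') (D.lam (s + 1) o')

lemma Wdw.trunc_le (μ : Measure (Sp n)) (lam : ℝ≥0∞) : D.trunc μ lam ≤ μ := by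
  unfold Wdw.trunc
  split_ifs
  · exact Measure.restrict_le_self
  · exact Measure.zero_le _

lemma Wdw.state_le (s : ℕ) : ∑ o, D.state s o ≤ D.ν := by
  induction s with
  | zero => simp [Wdw.state, Finset.sum_ite_eq']
  | succ s ih =>
    refine le_trans ?_ ((sum_push_le (D.kern s) (D.state s)).trans ih)
    exact Finset.sum_le_sum fun o _ => D.trunc_le _ _

lemma Wdw.state_le_one (s : ℕ) (o : D.St) : D.state s o ≤ D.ν :=
  le_trans (Finset.single_le_sum (fun _ _ => Measure.zero_le _) (Finset.mem_univ o)) (D.state_le s)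

lemma Wdw.sum_mass_le (s : ℕ) : ∑ o, D.state s o Set.univ ≤ D.m := by
  have := D.state_le s Set.univ
  rwa [Measure.coe_finsetSum, Finset.sum_apply] at this

variable {D} {i : ℕ} {c : Fin (n + 1) → ℤ}

lemma Wdw.Ok.m_ne_top (h : D.Ok i c) : D.m ≠ ⊤ :=
  ne_top_of_le_ne_top (measure_ne_top (sphereUniform (n + 1)) Set.univ) (h.piece.le_prior Set.univ)

lemma Wdw.Ok.m_ne_zero (h : D.Ok i c) : D.m ≠ 0 := fun h0 => by
  have := h.piece.mass
  rw [show D.ν Set.univ = 0 from h0] at this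
  exact two_ne_zero' _ (nonpos_iff_eq_zero.1 this)

lemma Wdw.Ok.isFinite (h : D.Ok i c) (s : ℕ) (o : D.St) : IsFiniteMeasure (D.state s o) :=
  ⟨((D.state_le_one s o Set.univ).trans_lt (lt_top_iff_ne_top.2 h.m_ne_top))⟩

lemma Wdw.Ok.R_le (h : D.Ok i c) : D.R ≤ D.q := by
  have := h.piece.bound
  have := h.hi
  omega

lemma Wdw.Ok.norm_le (h : D.Ok i c) {v : Sp n} (hv : v ∈ cell (ratio D.b) D.R c) :
    ‖(((ratio D.b : ℕ) : ℝ) ^ D.R) • (v - D.p)‖ ≤ 1 := by
  have hK : (0 : ℝ) < ((ratio D.b : ℕ) : ℝ) ^ D.R :=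
    pow_pos (Nat.cast_pos.2 (ratio_pos _)) _
  rw [norm_smul, Real.norm_eq_abs, abs_of_pos hK, ← le_div_iff₀' hK, one_div]
  exact cell_dist (ratio_pos _) D.R (hv.trans h.hp.symm)

lemma Wdw.Ok.card_St (h : D.Ok i c) :
    (Fintype.card D.St : ℝ≥0∞) ≤ two (128 * D.b * D.q ^ 2 + 8 * D.b * D.q) := by
  rw [Fintype.card_prod, Fintype.card_fin, Nat.cast_mul, two_add]
  refine mul_le_mul' h.card ?_
  rw [show (8 : ℤ) * D.b * D.q = ((8 * D.b * D.q : ℕ) : ℤ) by push_cast; rfl, two_nat]
  exact_mod_cast (Nat.lt_two_pow_self (n := 8 * D.b * D.q))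

/-- The weight of a counter. -/
noncomputable def wgt (e : ℕ) : ℝ≥0∞ := ENNReal.ofReal (Real.exp (-(e : ℝ)))

lemma wgt_le_one (e : ℕ) : wgt e ≤ 1 := by
  rw [wgt, ← ENNReal.ofReal_one]
  exact ENNReal.ofReal_le_ofReal (Real.exp_le_one_iff.2 (neg_nonpos.2 (Nat.cast_nonneg e)))

lemma gauss_int_le (a : ℝ) {s : ℝ} (hs : 0 < s) :
    ∫⁻ y : ℝ, ENNReal.ofReal (Real.exp (-((y - a) * s) ^ 2)) ≤ ENNReal.ofReal (2 / s) := by
  have e : ∀ y : ℝ, -((y - a) * s) ^ 2 = -(s ^ 2) * (y - a) ^ 2 := fun y => by ring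
  simp only [e]
  have hint : Integrable fun y : ℝ => Real.exp (-(s ^ 2) * (y - a) ^ 2) :=
    (integrable_exp_neg_mul_sq (by positivity)).comp_sub_right a
  rw [← ofReal_integral_eq_lintegral_ofReal hint (Filter.Eventually.of_forall fun y => by positivity),
    integral_sub_right_eq_self (fun y : ℝ => Real.exp (-(s ^ 2) * y ^ 2)) a, integral_gaussian,
    Real.sqrt_div' _ (sq_nonneg s), Real.sqrt_sq hs.le]
  refine ENNReal.ofReal_le_ofReal ?_
  gcongr
  rw [Real.sqrt_le_left two_pos.le]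
  linarith [Real.pi_le_four]

lemma Wdw.Ok.flat_wgt (_h : D.Ok i c) (s : ℕ) (o : D.St) :
    two (8 * D.b * D.R) * ∑ o', (D.kern s).flat o o' * wgt o'.2 ≤ 2 * wgt o.2 := by
  set σ : ℝ := ((ratio D.b : ℕ) : ℝ) ^ D.R with hσ
  have hσ0 : 0 < σ := pow_pos (Nat.cast_pos.2 (ratio_pos _)) _
  have hpt : ∀ x : Sp n × ℝ, ∑ o', (D.kern s).p o x o' * wgt o'.2
      ≤ wgt o.2 * ENNReal.ofReal (Real.exp (-((x.2 - ⟪x.1, D.p⟫) * σ) ^ 2)) := by
    intro x
    have hb : ∀ o' : D.St, (D.kern s).p o x o' * wgt o'.2 ≤ (D.kern s).p o x o' *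
        (wgt o.2 * ENNReal.ofReal (Real.exp (-((x.2 - ⟪x.1, D.p⟫) * σ) ^ 2))) := by
      intro o'
      by_cases he : (o.2 : ℕ) + D.noise x = o'.2
      · refine mul_le_mul' le_rfl ?_
        rw [wgt, wgt, ← ENNReal.ofReal_mul (Real.exp_pos _).le, ← Real.exp_add, ← he]
        refine ENNReal.ofReal_le_ofReal (Real.exp_le_exp.2 ?_)
        have := Nat.le_ceil (((x.2 - ⟪x.1, D.p⟫) * σ) ^ 2)
        push_cast
        simp only [Wdw.noise]
        linarith
      · simp [Wdw.kern, he]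
    refine (Finset.sum_le_sum fun o' _ => hb o').trans ?_
    rw [← Finset.sum_mul]
    exact (mul_le_mul' ((D.kern s).sum_le o x) le_rfl).trans (one_mul _).le
  calc two (8 * D.b * D.R) * ∑ o', (D.kern s).flat o o' * wgt o'.2
      = two (8 * D.b * D.R) * ∫⁻ x, ∑ o', (D.kern s).p o x o' * wgt o'.2
          ∂(gauss n).prod volume := by
        rw [lintegral_finsetSum _ fun o' _ => ((D.kern s).meas o o').mul_const _]
        simp only [Kern.flat, lintegral_mul_const _ ((D.kern s).meas o _)]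
    _ ≤ two (8 * D.b * D.R) * ∫⁻ x,
          wgt o.2 * ENNReal.ofReal (Real.exp (-((x.2 - ⟪x.1, D.p⟫) * σ) ^ 2))
          ∂(gauss n).prod volume := mul_le_mul' le_rfl (lintegral_mono hpt)
    _ ≤ two (8 * D.b * D.R) * (wgt o.2 * ENNReal.ofReal (2 / σ)) := by
        have hm : Measurable fun x : Sp n × ℝ =>
            ENNReal.ofReal (Real.exp (-((x.2 - ⟪x.1, D.p⟫) * σ) ^ 2)) :=
          (Continuous.measurable (by fun_prop : Continuous fun x : Sp n × ℝ =>
            Real.exp (-((x.2 - ⟪x.1, D.p⟫) * σ) ^ 2))).ennreal_ofReal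
        rw [lintegral_const_mul _ hm, lintegral_prod _ hm.aemeasurable]
        refine mul_le_mul' le_rfl (mul_le_mul' le_rfl ?_)
        refine (lintegral_mono fun x : Sp n => gauss_int_le ⟪x, D.p⟫ hσ0).trans ?_
        simp
    _ = 2 * wgt o.2 := by
        have : two (8 * D.b * D.R) = ENNReal.ofReal σ := by
          rw [hσ, ENNReal.ofReal_pow (Nat.cast_nonneg _), ENNReal.ofReal_natCast, ratio_cast,
            two_pow]
        rw [this, mul_left_comm, ← ENNReal.ofReal_mul hσ0.le, mul_div_cancel₀ _ hσ0.ne', mul_comm]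
        simp

lemma Wdw.Ok.card_eta (h : D.Ok i c) :
    (Fintype.card D.St : ℝ≥0∞) * two (-256 * D.b * D.q ^ 2) ≤ two (-(D.b * D.q : ℤ)) := by
  refine (mul_le_mul' h.card_St le_rfl).trans ?_
  rw [← two_add]
  refine two_le ?_
  have : (64 : ℤ) ≤ D.q := by exact_mod_cast h.par.hq
  have hb : (0 : ℤ) ≤ D.b := Nat.cast_nonneg _
  nlinarith [mul_nonneg (mul_nonneg hb (Nat.cast_nonneg (α := ℤ) D.q))
    (by linarith : (0 : ℤ) ≤ 128 * (D.q : ℤ) - 9)]

lemma Wdw.Ok.lam_wgt (h : D.Ok i c) (s : ℕ) :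
    ∑ o, D.lam s o * wgt o.2 + D.m ≤ 3 * 2 ^ s * D.m := by
  have hη : ∑ o : D.St, two (-256 * D.b * D.q ^ 2) * D.m * wgt o.2 ≤ D.m := by
    calc ∑ o : D.St, two (-256 * D.b * D.q ^ 2) * D.m * wgt o.2
        ≤ ∑ _o : D.St, two (-256 * D.b * D.q ^ 2) * D.m * 1 :=
          Finset.sum_le_sum fun o _ => mul_le_mul' le_rfl (wgt_le_one _)
      _ = (Fintype.card D.St * two (-256 * D.b * D.q ^ 2)) * D.m := by
          simp [mul_assoc]
      _ ≤ two (-(D.b * D.q : ℤ)) * D.m := mul_le_mul' h.card_eta le_rfl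
      _ ≤ 1 * D.m := by
          refine mul_le_mul' ?_ le_rfl
          rw [← two_zero]
          exact two_le (neg_nonpos.2 (by positivity))
      _ = D.m := one_mul _
  induction s with
  | zero =>
    simp only [Wdw.lam, add_mul, Finset.sum_add_distrib]
    calc _ ≤ D.m + D.m + D.m := by
          gcongr
          rw [Finset.sum_eq_single D.o₀]
          · simp only [if_true]; exact (mul_le_mul' le_rfl (wgt_le_one _)).trans (mul_one _).le
          · intro o _ ho; simp [ho]
          · simp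
      _ = _ := by ring
  | succ s ih =>
    simp only [Wdw.lam, add_mul, Finset.sum_add_distrib, Finset.sum_mul]
    calc _ ≤ 2 * ∑ o, D.lam s o * wgt o.2 + D.m + D.m := by
          gcongr
          rw [Finset.sum_comm, Finset.mul_sum]
          refine Finset.sum_le_sum fun o _ => ?_
          calc ∑ o', D.lam s o * two (8 * D.b * D.R) * (D.kern s).flat o o' * wgt o'.2
              = D.lam s o * (two (8 * D.b * D.R) * ∑ o', (D.kern s).flat o o' * wgt o'.2) := by
                rw [Finset.mul_sum, Finset.mul_sum]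
                exact Finset.sum_congr rfl fun o' _ => by ring
            _ ≤ D.lam s o * (2 * wgt o.2) := mul_le_mul' le_rfl (h.flat_wgt s o)
            _ = _ := by ring
      _ = 2 * (∑ o, D.lam s o * wgt o.2 + D.m) := by ring
      _ ≤ 2 * (3 * 2 ^ s * D.m) := mul_le_mul' le_rfl ih
      _ = _ := by ring

lemma two_mul_exp_ge (e : ℕ) : (1 : ℝ≥0∞) ≤ two (2 * e) * wgt e := by
  rw [two_eq_ofReal, wgt, ← ENNReal.ofReal_mul (by positivity), ← ENNReal.ofReal_one]
  refine ENNReal.ofReal_le_ofReal ?_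
  rw [show (2 : ℤ) * e = ((2 * e : ℕ) : ℤ) by push_cast; rfl, zpow_natCast, pow_mul, Real.exp_neg,
    ← div_eq_mul_inv, one_le_div (Real.exp_pos _), ← Real.exp_one_pow]
  gcongr
  linarith [Real.exp_one_lt_d9]

lemma Wdw.Ok.lam_sum (h : D.Ok i c) {s : ℕ} (hs : s ≤ D.q) :
    ∑ o, D.lam s o ≤ two (24 * D.b * D.q) * D.m := by
  calc ∑ o, D.lam s o ≤ ∑ o, two (16 * D.b * D.q) * (D.lam s o * wgt o.2) := by
        refine Finset.sum_le_sum fun o _ => ?_
        calc D.lam s o = D.lam s o * 1 := (mul_one _).symm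
          _ ≤ D.lam s o * (two (2 * (o.2 : ℕ)) * wgt o.2) := mul_le_mul' le_rfl (two_mul_exp_ge _)
          _ ≤ D.lam s o * (two (16 * D.b * D.q) * wgt o.2) := by
              gcongr
              refine two_le ?_
              have := o.2.2
              have : ((o.2 : ℕ) : ℤ) ≤ 8 * D.b * D.q := by exact_mod_cast Nat.lt_succ_iff.1 this
              linarith
          _ = _ := by ring
    _ = two (16 * D.b * D.q) * ∑ o, D.lam s o * wgt o.2 := (Finset.mul_sum _ _ _).symm
    _ ≤ two (16 * D.b * D.q) * (3 * 2 ^ s * D.m) :=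
        mul_le_mul' le_rfl (le_self_add.trans (h.lam_wgt s))
    _ ≤ two (16 * D.b * D.q) * (two 2 * two s * D.m) := by
        gcongr
        · rw [show (2 : ℤ) = ((2 : ℕ) : ℤ) by rfl, two_nat]; norm_num
        · rw [two_nat]
    _ = two (16 * D.b * D.q + 2 + s) * D.m := by rw [two_add, two_add]; ring
    _ ≤ _ := by
        gcongr
        refine two_le ?_
        have : (s : ℤ) ≤ D.q := by exact_mod_cast hs
        have : (2 ^ 13 : ℤ) ≤ D.b := by exact_mod_cast h.par.hb
        have : (64 : ℤ) ≤ D.q := by exact_mod_cast h.par.hq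
        nlinarith

lemma Wdw.Ok.lam_ne_zero (h : D.Ok i c) (s : ℕ) (o : D.St) : D.lam s o ≠ 0 := by
  have : two (-256 * D.b * D.q ^ 2) * D.m ≠ 0 := mul_ne_zero (two_ne_zero' _) h.m_ne_zero
  cases s <;> exact fun h0 => this (add_eq_zero.1 h0).2

lemma Wdw.Ok.lam_ne_top (h : D.Ok i c) {s : ℕ} (hs : s ≤ D.q) (o : D.St) : D.lam s o ≠ ⊤ :=
  ne_top_of_le_ne_top (ENNReal.mul_ne_top (two_ne_top _) h.m_ne_top)
    ((Finset.single_le_sum (fun _ _ => zero_le) (Finset.mem_univ o)).trans (h.lam_sum hs))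

/-- The invariant of the truncated process. -/
def Wdw.Inv (D : Wdw n Q) (s : ℕ) : Prop :=
  ∀ o, D.state s o Set.univ ≠ 0 →
    two (-384 * D.b * D.q ^ 2) * D.m ≤ D.state s o Set.univ ∧
    ∀ l, 1 ≤ l → D.R + l ≤ depth D.q → ∀ c', D.state s o (cell (ratio D.b) (D.R + l) c') ≤
      D.state s o Set.univ * two (256 * D.b * D.q * (D.gl l + 1) - 8 * D.b * n * l)

/-- The points whose first heavy relative level is j. -/
noncomputable def Wdw.heavy (D : Wdw n Q) (μ : Measure (Sp n)) (j : ℕ) : Set (Sp n) :=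
  {v | D.thr μ j < μ (cell (ratio D.b) (D.R + j) (idx (ratio D.b) (D.R + j) v)) ∧
    ∀ l, 1 ≤ l → l < j →
      μ (cell (ratio D.b) (D.R + l) (idx (ratio D.b) (D.R + l) v)) ≤ D.thr μ l}

lemma Wdw.heavy_mem {μ : Measure (Sp n)} {j : ℕ} {v w : Sp n}
    (hw : idx (ratio D.b) (D.R + j) w = idx (ratio D.b) (D.R + j) v) (hv : v ∈ D.heavy μ j) :
    w ∈ D.heavy μ j := by
  refine ⟨by rw [hw]; exact hv.1, fun l hl hlj => ?_⟩
  rw [idx_mono (ratio_pos D.b) (by omega : D.R + l ≤ D.R + j) hw]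
  exact hv.2 l hl hlj

lemma Wdw.heavy_eq (μ : Measure (Sp n)) (j : ℕ) :
    D.heavy μ j = cells (ratio D.b) (D.R + j) (idx (ratio D.b) (D.R + j) '' D.heavy μ j) := by
  ext v
  exact ⟨fun hv => ⟨v, hv, rfl⟩, fun ⟨w, hw, e⟩ => Wdw.heavy_mem e.symm hw⟩

lemma Wdw.measurableSet_heavy (μ : Measure (Sp n)) (j : ℕ) : MeasurableSet (D.heavy μ j) := by
  rw [Wdw.heavy_eq]; exact measurableSet_cells _ _ _

lemma Wdw.measurableSet_light (μ : Measure (Sp n)) : MeasurableSet (D.light μ) := by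
  have : D.light μ = ⋂ l : {l : ℕ // 1 ≤ l ∧ D.R + l ≤ depth D.q},
      cells (ratio D.b) (D.R + l) {c | μ (cell (ratio D.b) (D.R + l) c) ≤ D.thr μ l} := by
    ext v
    simp [Wdw.light, cells]
  rw [this]
  exact MeasurableSet.iInter fun l => measurableSet_cells _ _ _

lemma Wdw.light_compl_subset (μ : Measure (Sp n)) :
    (D.light μ)ᶜ ⊆ ⋃ j ∈ Finset.Icc 1 (depth D.q - D.R), D.heavy μ j := by
  intro v hv
  classical
  simp only [Wdw.light, Set.mem_compl_iff, Set.mem_ofPred_eq, not_forall, not_le] at hv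
  obtain ⟨l, hl1, hl2, hl3⟩ := hv
  have hex : ∃ j, 1 ≤ j ∧ D.thr μ j
      < μ (cell (ratio D.b) (D.R + j) (idx (ratio D.b) (D.R + j) v)) := ⟨l, hl1, hl3⟩
  have hle : Nat.find hex ≤ l := Nat.find_le ⟨hl1, hl3⟩
  refine Set.mem_biUnion (x := Nat.find hex)
    (Finset.mem_Icc.2 ⟨(Nat.find_spec hex).1, by omega⟩) ⟨(Nat.find_spec hex).2, fun l' h1 h2 => ?_⟩
  exact not_lt.1 fun hcon => Nat.find_min hex h2 ⟨h1, hcon⟩

open Classical in
/-- The test function of the first heavy level j. -/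
noncomputable def Wdw.test (D : Wdw n Q) (μ : Measure (Sp n)) (j : ℕ) (v : Sp n) : ℝ≥0∞ :=
  two (256 * D.b * D.q * D.gl j) + (D.heavy μ j).indicator
    (fun _ => two (256 * D.b * D.q * D.gl j + 192 * D.b * D.q)) v

lemma Wdw.measurable_test (μ : Measure (Sp n)) (j : ℕ) : Measurable (D.test μ j) := by
  unfold Wdw.test
  exact measurable_const.add (measurable_const.indicator (Wdw.measurableSet_heavy μ j))

lemma Wdw.test_integral (μ ρ : Measure (Sp n)) (j : ℕ) :
    ∫⁻ v, D.test μ j v ∂ρ = two (256 * D.b * D.q * D.gl j) * ρ Set.univ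
      + two (256 * D.b * D.q * D.gl j + 192 * D.b * D.q) * ρ (D.heavy μ j) := by
  unfold Wdw.test
  rw [lintegral_add_left measurable_const, lintegral_const,
    lintegral_indicator_const (Wdw.measurableSet_heavy μ j)]

lemma Wdw.test_setIntegral (μ ρ : Measure (Sp n)) (j : ℕ) {A : Set (Sp n)} :
    ∫⁻ v in A, D.test μ j v ∂ρ = two (256 * D.b * D.q * D.gl j) * ρ A
      + two (256 * D.b * D.q * D.gl j + 192 * D.b * D.q) * ρ (D.heavy μ j ∩ A) := by
  rw [Wdw.test_integral, Measure.restrict_apply MeasurableSet.univ, Set.univ_inter,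
    Measure.restrict_apply (Wdw.measurableSet_heavy μ j)]

lemma Wdw.gl_nonneg (l : ℕ) : 0 ≤ D.gl l := Int.natCast_nonneg _

lemma Wdw.gl_le (l : ℕ) : D.gl l ≤ 4 * (l : ℤ) + 1 := by
  have h := min_le_right D.G (4 * l + 1)
  calc D.gl l ≤ ((4 * l + 1 : ℕ) : ℤ) := Int.ofNat_le.2 h
    _ = _ := by push_cast; ring

lemma Wdw.Ok.state_cell (h : D.Ok i c) (s : ℕ) (o : D.St) (L : ℕ) (c' : Fin (n + 1) → ℤ) :
    D.state s o (cell (ratio D.b) L c') ≤ two (n + 1 - 8 * D.b * n * L) :=
  ((D.state_le_one s o _).trans (h.piece.le_prior _)).trans (mass_cell_le _ _ _)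

lemma Wdw.Ok.test_cell (h : D.Ok i c) {s : ℕ} (hinv : D.Inv s) (o : D.St) {μ : Measure (Sp n)}
    (hμ0 : μ Set.univ ≠ 0) (hμt : μ Set.univ ≠ ⊤) {j : ℕ} (hj1 : 1 ≤ j)
    (hj2 : D.R + j ≤ depth D.q) {l : ℕ} (hl : 1 ≤ l) (c' : Fin (n + 1) → ℤ) :
    ((D.state s o).withDensity (D.test μ j)) (cell (ratio D.b) (D.R + l) c')
      ≤ (∫⁻ v, D.test μ j v ∂D.state s o)
        * two (256 * D.b * D.q * (4 * l + 3) + 1 - 8 * D.b * n * l) := by
  rw [withDensity_apply _ (measurableSet_cell _ _ _), Wdw.test_setIntegral, Wdw.test_integral]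
  set ρ := D.state s o with hρ
  rcases eq_or_ne (ρ Set.univ) 0 with h0 | h0
  · rw [measure_mono_null (Set.subset_univ _) h0, measure_mono_null (Set.subset_univ _) h0]
    simp
  obtain ⟨hmass, hreg⟩ := hinv o h0
  set a : ℤ := 256 * D.b * D.q * D.gl j with ha
  refine le_trans ?_ (mul_le_mul' le_self_add le_rfl)
  have hb : (0 : ℤ) ≤ D.b := Nat.cast_nonneg _
  have hq : (0 : ℤ) ≤ D.q := Nat.cast_nonneg _
  have hbq : (0 : ℤ) ≤ D.b * D.q := mul_nonneg hb hq
  suffices H : ∃ e : ℤ, e + 1 ≤ 256 * D.b * D.q * (4 * l + 3) + 1 - 8 * D.b * n * l ∧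
      two a * ρ (cell (ratio D.b) (D.R + l) c') ≤ two a * ρ Set.univ * two e ∧
      two (a + 192 * D.b * D.q) * ρ (D.heavy μ j ∩ cell (ratio D.b) (D.R + l) c')
        ≤ two a * ρ Set.univ * two e by
    obtain ⟨e, he, h1, h2⟩ := H
    calc _ ≤ two a * ρ Set.univ * two e + two a * ρ Set.univ * two e := add_le_add h1 h2
      _ = two a * ρ Set.univ * two (e + 1) := by
          rw [two_add, show two 1 = 2 by rw [show (1 : ℤ) = ((1 : ℕ) : ℤ) by rfl, two_nat, pow_one]]
          ring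
      _ ≤ _ := mul_le_mul' le_rfl (two_le he)
  by_cases hlD : D.R + l ≤ depth D.q
  · refine ⟨256 * D.b * D.q * (D.gl l + 2) - 8 * D.b * n * l, ?_, ?_, ?_⟩
    · have := D.gl_le l
      nlinarith
    · calc two a * ρ (cell (ratio D.b) (D.R + l) c')
          ≤ two a * (ρ Set.univ * two (256 * D.b * D.q * (D.gl l + 1) - 8 * D.b * n * l)) :=
            mul_le_mul' le_rfl (hreg l hl hlD c')
        _ ≤ two a * (ρ Set.univ * two (256 * D.b * D.q * (D.gl l + 2) - 8 * D.b * n * l)) := by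
            gcongr
            exact two_le (by nlinarith)
        _ = _ := by ring
    by_cases hjl : j ≤ l
    · calc two (a + 192 * D.b * D.q) * ρ (D.heavy μ j ∩ cell (ratio D.b) (D.R + l) c')
          ≤ two (a + 192 * D.b * D.q)
              * (ρ Set.univ * two (256 * D.b * D.q * (D.gl l + 1) - 8 * D.b * n * l)) :=
            mul_le_mul' le_rfl ((measure_mono Set.inter_subset_right).trans (hreg l hl hlD c'))
        _ = two a * ρ Set.univ * (two (192 * D.b * D.q)
              * two (256 * D.b * D.q * (D.gl l + 1) - 8 * D.b * n * l)) := by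
            rw [two_add]; ring
        _ ≤ _ := by
            gcongr
            rw [← two_add]
            exact two_le (by nlinarith)
    rcases (D.heavy μ j ∩ cell (ratio D.b) (D.R + l) c').eq_empty_or_nonempty with he | ⟨v, hv, hvc⟩
    · simp [he]
    have hlight : μ (cell (ratio D.b) (D.R + l) c') ≤ D.thr μ l := by
      have := hv.2 l hl (by omega)
      rwa [show idx (ratio D.b) (D.R + l) v = c' from hvc] at this
    set I := idx (ratio D.b) (D.R + j) '' (D.heavy μ j ∩ cell (ratio D.b) (D.R + l) c')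
    have hset : D.heavy μ j ∩ cell (ratio D.b) (D.R + l) c' = cells (ratio D.b) (D.R + j) I := by
      ext w
      refine ⟨fun hw => ⟨w, hw, rfl⟩, fun ⟨u, ⟨hu, huc⟩, e⟩ => ⟨Wdw.heavy_mem e.symm hu, ?_⟩⟩
      exact (idx_mono (ratio_pos D.b) (by omega : D.R + l ≤ D.R + j) e.symm).trans huc
    have hcmp := measure_cells_mul_le (ratio D.b) (D.R + j) I ρ μ (fun c _ => hreg j hj1 hj2 c)
      (y := D.thr μ j) (fun c hc => by
        obtain ⟨u, hu, rfl⟩ := hc
        exact hu.1.1.le)
    rw [← hset] at hcmp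
    have h3 : ρ (D.heavy μ j ∩ cell (ratio D.b) (D.R + l) c') * D.thr μ j
        ≤ ρ Set.univ * two (256 * D.b * D.q * (D.gl j + 1) - 8 * D.b * n * j) * D.thr μ l :=
      hcmp.trans (mul_le_mul' le_rfl ((measure_mono Set.inter_subset_right).trans hlight))
    refine (ENNReal.mul_le_mul_iff_right (a := μ Set.univ * two (-8 * D.b * n * j))
      (mul_ne_zero hμ0 (two_ne_zero' _)) (ENNReal.mul_ne_top hμt (two_ne_top _))).1 ?_
    calc μ Set.univ * two (-8 * D.b * n * j) * (two (a + 192 * D.b * D.q)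
          * ρ (D.heavy μ j ∩ cell (ratio D.b) (D.R + l) c'))
        = ρ (D.heavy μ j ∩ cell (ratio D.b) (D.R + l) c') * D.thr μ j := by
          rw [Wdw.thr, ha, show (256 : ℤ) * D.b * D.q * D.gl j + 192 * D.b * D.q - 8 * D.b * n * j
            = -8 * D.b * n * j + (256 * D.b * D.q * D.gl j + 192 * D.b * D.q) by ring,
            two_add (-8 * D.b * n * j)]
          ring
      _ ≤ _ := h3
      _ = μ Set.univ * ρ Set.univ *
            two (256 * D.b * D.q * (D.gl j + 1) - 8 * D.b * n * j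
              + (256 * D.b * D.q * D.gl l + 192 * D.b * D.q - 8 * D.b * n * l)) := by
          rw [Wdw.thr, two_add]; ring
      _ ≤ μ Set.univ * ρ Set.univ *
            two (-8 * D.b * n * j + a + (256 * D.b * D.q * (D.gl l + 2) - 8 * D.b * n * l)) := by
          gcongr
          exact two_le (by rw [ha]; nlinarith)
      _ = _ := by rw [two_add, two_add]; ring
  · refine ⟨256 * D.b * D.q * (4 * l + 3) - 8 * D.b * n * l, by linarith, ?_, ?_⟩
    all_goals
      have hl' : (4 : ℤ) * D.q ^ 2 + D.q + 1 < D.R + l := by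
        have : depth D.q < D.R + l := by omega
        unfold depth at this
        exact_mod_cast this
      have hR : (D.R : ℤ) ≤ D.q := by exact_mod_cast h.R_le
      have hi : (i : ℤ) ≤ D.q := by exact_mod_cast h.hi
      have hq64 : (64 : ℤ) ≤ D.q := by exact_mod_cast h.par.hq
      have hn : (n : ℤ) ≤ 4096 * D.q := by exact_mod_cast h.par.hn'
      have hb13 : (2 ^ 13 : ℤ) ≤ D.b := by exact_mod_cast h.par.hb
      have hlow : two (-384 * D.b * D.q ^ 2
          + (-(1024 * ((i : ℤ) + 1) * D.b * D.q ^ 2) - 8 * D.b * n * D.R)) ≤ ρ Set.univ := by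
        rw [two_add]
        exact le_trans (mul_le_mul' le_rfl h.piece.mass) hmass
      have key : (192 : ℤ) * D.b * D.q + (n + 1 - 8 * D.b * n * (D.R + l : ℕ))
          ≤ (-384 * D.b * D.q ^ 2 + (-(1024 * ((i : ℤ) + 1) * D.b * D.q ^ 2) - 8 * D.b * n * D.R))
            + (256 * D.b * D.q * (4 * l + 3) - 8 * D.b * n * l) := by
        have h1 : 0 ≤ ((D.q : ℤ) - i) * (D.b * D.q ^ 2) := by
          apply mul_nonneg (by linarith); positivity
        have h2 : 0 ≤ ((l : ℤ) - (4 * D.q ^ 2)) * (D.b * D.q) :=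
          mul_nonneg (by linarith) hbq
        have h3 : (n : ℤ) + 1 ≤ D.b * D.q := by nlinarith
        have h4 : (0 : ℤ) ≤ D.b * D.q ^ 2 := by positivity
        have h5 : 0 ≤ ((D.q : ℤ) - 64) * (D.b * D.q ^ 2) := mul_nonneg (by linarith) h4
        push_cast
        nlinarith
    · calc two a * ρ (cell (ratio D.b) (D.R + l) c')
          ≤ two a * two (192 * D.b * D.q + (n + 1 - 8 * D.b * n * (D.R + l : ℕ))) := by
            gcongr
            refine (h.state_cell s o _ _).trans (two_le ?_)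
            nlinarith
        _ ≤ two a * two (-384 * D.b * D.q ^ 2
              + (-(1024 * ((i : ℤ) + 1) * D.b * D.q ^ 2) - 8 * D.b * n * D.R)
              + (256 * D.b * D.q * (4 * l + 3) - 8 * D.b * n * l)) := by
            gcongr; exact two_le key
        _ ≤ _ := by
            rw [two_add, mul_assoc (two a)]
            exact mul_le_mul' le_rfl (mul_le_mul' hlow le_rfl)
    · calc two (a + 192 * D.b * D.q) * ρ (D.heavy μ j ∩ cell (ratio D.b) (D.R + l) c')
          ≤ two (a + 192 * D.b * D.q) * two (n + 1 - 8 * D.b * n * (D.R + l : ℕ)) :=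
            mul_le_mul' le_rfl ((measure_mono Set.inter_subset_right).trans (h.state_cell s o _ _))
        _ = two a * two (192 * D.b * D.q + (n + 1 - 8 * D.b * n * (D.R + l : ℕ))) := by
            rw [two_add, two_add]; ring
        _ ≤ two a * two (-384 * D.b * D.q ^ 2
              + (-(1024 * ((i : ℤ) + 1) * D.b * D.q ^ 2) - 8 * D.b * n * D.R)
              + (256 * D.b * D.q * (4 * l + 3) - 8 * D.b * n * l)) := by
            gcongr; exact two_le key
        _ ≤ _ := by
            rw [two_add, mul_assoc (two a)]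
            exact mul_le_mul' le_rfl (mul_le_mul' hlow le_rfl)

end Vale.Agent.P309
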