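import Mathlib
import Vale.Agent.P309.Window

/-!
Heavy cells carry little mass: the invariant of a window and the loss of success probability in it.
-/

namespace Vale.Agent.P309

open MeasureTheory ProbabilityTheory
open scoped ENNReal RealInnerProductSpace

variable {n : ℕ} {Q : Type} [Fintype Q] {D : Wdw n Q} {i : ℕ} {c : Fin (n + 1) → ℤ}

lemma two_one : two 1 = 2 := by
  rw [show (1 : ℤ) = ((1 : ℕ) : ℤ) by rfl, two_nat, pow_one]

lemma le_of_mul_two_le {a e : ℤ} {m : ℝ≥0∞} (hm : m ≠ 0) (hm' : m ≠ ⊤)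
    (h : two a * m ≤ two e * m) : a ≤ e := by
  by_contra hc
  have h1 : two e * two 1 ≤ two a := by rw [← two_add]; exact two_le (by omega)
  have h2 : two e * two 1 ≤ two e * 1 := by
    rw [mul_one]; exact h1.trans ((ENNReal.mul_le_mul_iff_left hm hm').1 h)
  have h3 := (ENNReal.mul_le_mul_iff_right (two_ne_zero' e) (two_ne_top e)).1 h2
  rw [two_one] at h3
  norm_num at h3

lemma exp_le_two : Real.exp 28 ≤ 2 ^ 42 := by
  rw [show (28 : ℝ) = ((28 : ℕ) : ℝ) * 1 by norm_num, Real.exp_nat_mul,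
    show (2 : ℝ) ^ 42 = (2 ^ 3) ^ 14 by norm_num, show Real.exp 1 ^ 28 = (Real.exp 1 ^ 2) ^ 14 by ring]
  refine pow_le_pow_left₀ (by positivity) ?_ 14
  nlinarith [Real.exp_one_lt_d9, Real.exp_pos (1 : ℝ)]

lemma ofReal_tube (n : ℕ) :
    ENNReal.ofReal (tubeConst ^ (2 * (n + 1))) ≤ two (84 * (n + 1)) := by
  rw [two_eq_ofReal]
  refine ENNReal.ofReal_le_ofReal ?_
  rw [show (84 : ℤ) * ((n : ℤ) + 1) = ((42 * (2 * (n + 1)) : ℕ) : ℤ) by push_cast; ring,
    zpow_natCast, pow_mul (2 : ℝ) 42]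
  exact pow_le_pow_left₀ (Real.exp_pos _).le exp_le_two _

lemma Wdw.Ok.inv_dist (h : D.Ok i c) {s : ℕ} (hinv : D.Inv s) (o : D.St) {μ : Measure (Sp n)}
    (hμ0 : μ Set.univ ≠ 0) (hμt : μ Set.univ ≠ ⊤) {j : ℕ} (hj1 : 1 ≤ j)
    (hj2 : D.R + j ≤ depth D.q) (V : Submodule ℝ (Sp n)) (hV : Module.finrank ℝ V ≤ 64 * D.q)
    (p : Sp n) :
    ∫⁻ v, (ENNReal.ofReal ‖perp V (v - p)‖)⁻¹ ∂(D.state s o).withDensity (D.test μ j)
      ≤ 3 * two (8 * D.b) * two (8 * D.b * D.R) * ∫⁻ v, D.test μ j v ∂D.state s o := by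
  have hn2 : 2048 * D.q ≤ n := h.par.hn
  have hU : ((D.state s o).withDensity (D.test μ j)) Set.univ = ∫⁻ v, D.test μ j v ∂D.state s o := by
    rw [withDensity_apply _ MeasurableSet.univ, Measure.restrict_univ]
  have hsupp : ((D.state s o).withDensity (D.test μ j)) (cell (ratio D.b) D.R c)ᶜ = 0 := by
    refine withDensity_absolutelyContinuous _ _ ?_
    exact nonpos_iff_eq_zero.1 ((D.state_le_one s o _).trans h.piece.supp.le)
  refine (inv_dist_bound (K := ratio D.b) (Nat.one_lt_two_pow (by have := h.par.hb; omega)) D.R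
    (64 * D.q) (by omega) c _ hsupp
    (fun l => two (256 * D.b * D.q * (4 * ((l + 1 : ℕ) : ℤ) + 3) + 1 - 8 * D.b * n * ((l + 1 : ℕ) : ℤ)))
    (fun l c' => by rw [hU]; exact h.test_cell hinv o hμ0 hμt hj1 hj2 (by omega) c') ?_ V hV p).trans
    (le_of_eq ?_)
  · calc _ ≤ ∑' l : ℕ, two (-((l : ℤ) + 1)) := by
          refine ENNReal.tsum_le_tsum fun l => ?_
          rw [ENNReal.ofReal_mul (by positivity), ENNReal.ofReal_pow (by positivity),
            ENNReal.ofReal_pow (by positivity), ENNReal.ofReal_natCast, ratio_cast, two_pow, two_pow,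
            two_pow]
          calc two (8 * D.b * (l + 2 : ℕ)) * (two (8 * D.b * (l + 1 : ℕ) * (64 * D.q : ℕ))
                * ENNReal.ofReal (tubeConst ^ (2 * (n + 1)))
                * two (256 * D.b * D.q * (4 * ((l + 1 : ℕ) : ℤ) + 3) + 1
                    - 8 * D.b * n * ((l + 1 : ℕ) : ℤ)))
              ≤ two (8 * D.b * (l + 2 : ℕ)) * (two (8 * D.b * (l + 1 : ℕ) * (64 * D.q : ℕ))
                * two (84 * (n + 1))
                * two (256 * D.b * D.q * (4 * ((l + 1 : ℕ) : ℤ) + 3) + 1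
                    - 8 * D.b * n * ((l + 1 : ℕ) : ℤ))) := by
                gcongr; exact ofReal_tube n
            _ ≤ _ := by
                rw [← two_add, ← two_add, ← two_add]
                refine two_le ?_
                push_cast
                have hb : (2 ^ 13 : ℤ) ≤ D.b := by exact_mod_cast h.par.hb
                have hq : (64 : ℤ) ≤ D.q := by exact_mod_cast h.par.hq
                have hnl : (2048 : ℤ) * D.q ≤ n := by exact_mod_cast h.par.hn
                have hnu : (n : ℤ) ≤ 4096 * D.q := by exact_mod_cast h.par.hn'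
                have h1 : 0 ≤ ((n : ℤ) - 2048 * D.q) * ((D.b : ℤ) * ((l : ℤ) + 1)) := by
                  apply mul_nonneg (by linarith); positivity
                have h2 : 0 ≤ ((D.b : ℤ) * D.q) * (l : ℤ) := by positivity
                have h3 : 0 ≤ ((D.q : ℤ) - 64) * (D.b : ℤ) := mul_nonneg (by linarith) (by linarith)
                have h4 : 0 ≤ ((D.b : ℤ) - 2 ^ 13) * (D.q : ℤ) := mul_nonneg (by linarith) (by linarith)
                have h5 : 0 ≤ ((D.b : ℤ) - 2 ^ 13) * ((l : ℤ) + 1) := mul_nonneg (by linarith) (by positivity)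
                have h6 : 0 ≤ ((D.q : ℤ) - 64) * ((D.b : ℤ) * l) := mul_nonneg (by linarith) (by positivity)
                nlinarith
      _ = ∑' l : ℕ, (2⁻¹ : ℝ≥0∞) * (2⁻¹ : ℝ≥0∞) ^ l := by
          refine tsum_congr fun l => ?_
          rw [two_neg, show (l : ℤ) + 1 = ((l + 1 : ℕ) : ℤ) by push_cast; rfl, two_nat,
            ENNReal.inv_pow, pow_succ']
      _ ≤ 1 := by
          rw [ENNReal.tsum_mul_left, ENNReal.tsum_geometric, ENNReal.one_sub_inv_two, inv_inv,
            ENNReal.inv_mul_cancel two_ne_zero (by simp)]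
  · rw [hU, pow_succ, ratio_cast, two_pow]
    ring

lemma Wdw.push_le (D : Wdw n Q) (s : ℕ) (o' : D.St) : push (D.kern s) (D.state s) o' ≤ D.ν :=
  le_trans (Finset.single_le_sum (f := fun o => push (D.kern s) (D.state s) o)
    (fun _ _ => Measure.zero_le _) (Finset.mem_univ o'))
    ((sum_push_le (D.kern s) (D.state s)).trans (D.state_le s))

/-- The moment functional of the pushed measures. -/
noncomputable def Wdw.pushR (D : Wdw n Q) (μ : Measure (Sp n)) (j s : ℕ) : ℝ≥0∞ :=
  ∑ o', (∫⁻ v, D.test μ j v ∂push (D.kern s) (D.state s) o') ^ (64 * D.q + 1)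
    * (D.lam (s + 1) o' ^ (64 * D.q))⁻¹

/-- The moment functional of the truncated measures. -/
noncomputable def Wdw.stateR (D : Wdw n Q) (μ : Measure (Sp n)) (j s : ℕ) : ℝ≥0∞ :=
  ∑ o, (∫⁻ v, D.test μ j v ∂D.state s o) ^ (64 * D.q + 1) * (D.lam s o ^ (64 * D.q))⁻¹

lemma Wdw.Ok.test_ne_top (h : D.Ok i c) (μ : Measure (Sp n)) (j s : ℕ) (o : D.St) :
    ∫⁻ v, D.test μ j v ∂D.state s o ≠ ⊤ := by
  have := h.isFinite s o
  rw [Wdw.test_integral]
  exact ENNReal.add_ne_top.2 ⟨ENNReal.mul_ne_top (two_ne_top _) (measure_ne_top _ _),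
    ENNReal.mul_ne_top (two_ne_top _) (measure_ne_top _ _)⟩

lemma Wdw.Ok.stateR_zero (h : D.Ok i c) {μ : Measure (Sp n)} (hμ0 : μ Set.univ ≠ 0)
    (hμt : μ Set.univ ≠ ⊤) {j : ℕ} (hj1 : 1 ≤ j) (hj2 : D.R + j ≤ depth D.q) :
    D.stateR μ j 0 ≤ two ((256 * D.b * D.q * D.gl j + 1) * (64 * D.q + 1 : ℕ)) * D.m := by
  classical
  unfold Wdw.stateR
  rw [Finset.sum_eq_single D.o₀]
  · set a : ℤ := 256 * D.b * D.q * D.gl j with ha
    have hA : ∫⁻ v, D.test μ j v ∂D.state 0 D.o₀ ≤ two (a + 1) * D.m := by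
      simp only [Wdw.state, if_true, Wdw.test_integral]
      rw [← ha, show D.ν Set.univ = D.m from rfl, two_add a 1, two_one, mul_two, add_mul]
      refine add_le_add le_rfl ?_
      set I := idx (ratio D.b) (D.R + j) '' D.heavy μ j
      have hcmp := measure_cells_mul_le (ratio D.b) (D.R + j) I D.ν μ
        (fun c' _ => h.piece.reg j hj1 hj2 c') (y := D.thr μ j) (fun c' hc => by
          obtain ⟨u, hu, rfl⟩ := hc
          exact hu.1.le)
      rw [← Wdw.heavy_eq] at hcmp
      refine (ENNReal.mul_le_mul_iff_right (a := μ Set.univ * two (-8 * D.b * n * j))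
        (mul_ne_zero hμ0 (two_ne_zero' _)) (ENNReal.mul_ne_top hμt (two_ne_top _))).1 ?_
      calc μ Set.univ * two (-8 * D.b * n * j) * (two (a + 192 * D.b * D.q) * D.ν (D.heavy μ j))
          = D.ν (D.heavy μ j) * D.thr μ j := by
            rw [Wdw.thr, ha, show (256 : ℤ) * D.b * D.q * D.gl j + 192 * D.b * D.q - 8 * D.b * n * j
              = -8 * D.b * n * j + (256 * D.b * D.q * D.gl j + 192 * D.b * D.q) by ring,
              two_add (-8 * D.b * n * j)]
            ring
        _ ≤ D.ν Set.univ * two (256 * D.b * D.q * D.gl j - 8 * D.b * n * j) * μ (D.heavy μ j) :=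
            hcmp
        _ ≤ D.ν Set.univ * two (256 * D.b * D.q * D.gl j - 8 * D.b * n * j) * μ Set.univ :=
            mul_le_mul' le_rfl (measure_mono (Set.subset_univ _))
        _ = _ := by
            rw [Wdw.m, ha, show (256 : ℤ) * D.b * D.q * D.gl j - 8 * D.b * n * j
              = -8 * D.b * n * j + 256 * D.b * D.q * D.gl j by ring, two_add]
            ring
    have hΛ : D.m ≤ D.lam 0 D.o₀ := by
      simp only [Wdw.lam, if_true]; exact le_self_add
    calc _ ≤ (two (a + 1) * D.m) ^ (64 * D.q + 1) * (D.m ^ (64 * D.q))⁻¹ := by gcongr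
      _ = two (a + 1) ^ (64 * D.q + 1) * D.m * (D.m ^ (64 * D.q) * (D.m ^ (64 * D.q))⁻¹) := by
          rw [mul_pow, pow_succ D.m]; ring
      _ = _ := by
          rw [ENNReal.mul_inv_cancel (pow_ne_zero _ h.m_ne_zero) (ENNReal.pow_ne_top h.m_ne_top),
            mul_one, two_pow]
  · intro o _ ho
    simp [Wdw.state, ho]
  · simp

lemma Wdw.Ok.pushR_le (h : D.Ok i c) {μ : Measure (Sp n)} (hμ0 : μ Set.univ ≠ 0)
    (hμt : μ Set.univ ≠ ⊤) {j : ℕ} (hj1 : 1 ≤ j) (hj2 : D.R + j ≤ depth D.q) :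
    ∀ s, s + 1 ≤ D.q → (∀ s' ≤ s, D.Inv s') →
      D.pushR μ j s ≤ ((3 * two (8 * D.b)) ^ (64 * D.q)) ^ (s + 1) * D.stateR μ j 0 := by
  intro s
  have step : ∀ s', s' + 1 ≤ D.q → D.Inv s' →
      D.pushR μ j s' ≤ (3 * two (8 * D.b)) ^ (64 * D.q) * D.stateR μ j s' := by
    intro s' hs hinv
    have := h.isFinite s'
    exact moment_step (D.kern s') (D.state s') (64 * D.q) (3 * two (8 * D.b))
      (two (8 * D.b * D.R)) (two_ne_zero' _) (two_ne_top _) _ (Wdw.measurable_test μ j)
      (h.test_ne_top μ j s') (fun o => h.inv_dist hinv o hμ0 hμt hj1 hj2) (D.lam s')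
      (h.lam_ne_zero s') (h.lam_ne_top (by omega)) (D.lam (s' + 1)) (fun o' => le_self_add)
      (h.lam_ne_zero _) (h.lam_ne_top hs)
  induction s with
  | zero =>
    intro hs hinv
    simpa using step 0 hs (hinv 0 le_rfl)
  | succ s ih =>
    intro hs hinv
    have hmono : D.stateR μ j (s + 1) ≤ D.pushR μ j s := by
      refine Finset.sum_le_sum fun o _ => mul_le_mul' (pow_le_pow_left' ?_ _) le_rfl
      exact lintegral_mono' (D.trunc_le _ _) le_rfl
    calc D.pushR μ j (s + 1) ≤ _ := step (s + 1) hs (hinv _ le_rfl)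
      _ ≤ (3 * two (8 * D.b)) ^ (64 * D.q)
            * (((3 * two (8 * D.b)) ^ (64 * D.q)) ^ (s + 1) * D.stateR μ j 0) :=
          mul_le_mul' le_rfl (hmono.trans (ih (by omega) fun s' hs' => hinv s' (by omega)))
      _ = _ := by rw [← mul_assoc, ← pow_succ']

lemma Wdw.Ok.heavy_small (h : D.Ok i c) {s : ℕ} (hs : s + 1 ≤ D.q) (hinv : ∀ s' ≤ s, D.Inv s')
    (o' : D.St)
    (hk1 : D.lam (s + 1) o' * two (-64 * D.b * D.q) ≤ push (D.kern s) (D.state s) o' Set.univ)
    (hk2 : two (-256 * D.b * D.q ^ 2) * D.m ≤ push (D.kern s) (D.state s) o' Set.univ)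
    {j : ℕ} (hj1 : 1 ≤ j) (hj2 : D.R + j ≤ depth D.q) :
    push (D.kern s) (D.state s) o' (D.heavy (push (D.kern s) (D.state s) o') j)
      ≤ two (-64 * D.b * D.q) * push (D.kern s) (D.state s) o' Set.univ := by
  set μ := push (D.kern s) (D.state s) o' with hμ
  by_contra hcon
  have hμ0 : μ Set.univ ≠ 0 := fun h0 =>
    mul_ne_zero (two_ne_zero' _) h.m_ne_zero (nonpos_iff_eq_zero.1 (h0 ▸ hk2))
  have hμt : μ Set.univ ≠ ⊤ := by
    refine ne_top_of_le_ne_top h.m_ne_top ?_
    have h1 : μ ≤ D.ν := D.push_le s _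
    exact h1 Set.univ
  set a : ℤ := 256 * D.b * D.q * D.gl j with ha
  set J := 64 * D.q with hJ
  have hA : two (a + 128 * D.b * D.q) * μ Set.univ ≤ ∫⁻ v, D.test μ j v ∂μ := by
    rw [Wdw.test_integral, ← ha]
    refine le_trans ?_ le_add_self
    calc two (a + 128 * D.b * D.q) * μ Set.univ
        = two (a + 192 * D.b * D.q) * (two (-64 * D.b * D.q) * μ Set.univ) := by
          rw [← mul_assoc, ← two_add]; congr 2; ring
      _ ≤ _ := mul_le_mul' le_rfl (not_le.1 hcon).le
  have hΛ : D.lam (s + 1) o' ≤ two (64 * D.b * D.q) * μ Set.univ := by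
    calc D.lam (s + 1) o'
        = two (64 * D.b * D.q) * (D.lam (s + 1) o' * two (-64 * D.b * D.q)) := by
          rw [mul_left_comm, ← two_add, show (64 : ℤ) * D.b * D.q + -64 * D.b * D.q = 0 by ring,
            two_zero, mul_one]
      _ ≤ _ := mul_le_mul' le_rfl hk1
  have hlow : two ((a + 128 * D.b * D.q) * (J + 1 : ℕ) - 64 * D.b * D.q * J) * μ Set.univ
      ≤ D.pushR μ j s := by
    refine le_trans ?_ (Finset.single_le_sum (fun _ _ => zero_le) (Finset.mem_univ o'))
    rw [← hJ, ← hμ]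
    calc two ((a + 128 * D.b * D.q) * (J + 1 : ℕ) - 64 * D.b * D.q * J) * μ Set.univ
        = (two (a + 128 * D.b * D.q) * μ Set.univ) ^ (J + 1)
            * ((two (64 * D.b * D.q) * μ Set.univ) ^ J)⁻¹ := by
          rw [mul_pow, mul_pow, two_pow, two_pow, pow_succ (μ Set.univ),
            ENNReal.mul_inv (Or.inl (two_ne_zero' _)) (Or.inl (two_ne_top _)), ← two_neg,
            sub_eq_add_neg, two_add]
          calc _ = two ((a + 128 * D.b * D.q) * (J + 1 : ℕ)) * two (-(64 * D.b * D.q * J))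
                * μ Set.univ * ((μ Set.univ) ^ J * ((μ Set.univ) ^ J)⁻¹) := by
                rw [ENNReal.mul_inv_cancel (pow_ne_zero _ hμ0) (ENNReal.pow_ne_top hμt), mul_one]
            _ = _ := by ring
      _ ≤ _ := by gcongr
  have hup : D.pushR μ j s
      ≤ two ((8 * D.b + 2) * J * D.q + (a + 1) * (J + 1 : ℕ)) * D.m := by
    refine (h.pushR_le hμ0 hμt hj1 hj2 s hs hinv).trans ?_
    rw [two_add, mul_assoc, ← hJ]
    refine mul_le_mul' ?_ (h.stateR_zero hμ0 hμt hj1 hj2)
    have h3 : (3 : ℝ≥0∞) * two (8 * D.b) ≤ two (8 * D.b + 2) := by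
      rw [two_add, mul_comm]
      refine mul_le_mul' le_rfl ?_
      rw [show (2 : ℤ) = ((2 : ℕ) : ℤ) by rfl, two_nat]; norm_num
    calc ((3 * two (8 * D.b)) ^ J) ^ (s + 1) ≤ (two (8 * D.b + 2) ^ J) ^ (s + 1) := by gcongr
      _ ≤ _ := by
          rw [two_pow, two_pow]
          refine two_le ?_
          have : (s : ℤ) + 1 ≤ D.q := by exact_mod_cast hs
          push_cast
          gcongr
  have hcmb := le_of_mul_two_le h.m_ne_zero h.m_ne_top
    (a := (a + 128 * D.b * D.q) * (J + 1 : ℕ) - 64 * D.b * D.q * J + -256 * D.b * D.q ^ 2)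
    ((le_of_eq (by rw [two_add, mul_assoc])).trans
      ((mul_le_mul' le_rfl hk2).trans (hlow.trans hup)))
  rw [hJ] at hcmb
  push_cast at hcmb
  have hb : (2 ^ 13 : ℤ) ≤ D.b := by exact_mod_cast h.par.hb
  have hq : (64 : ℤ) ≤ D.q := by exact_mod_cast h.par.hq
  have hq2 : (64 * 64 : ℤ) ≤ (D.q : ℤ) ^ 2 := by nlinarith
  have hb1 : 0 ≤ ((D.b : ℤ) - 1) * (D.q : ℤ) ^ 2 := mul_nonneg (by linarith) (sq_nonneg _)
  have hbq : (D.q : ℤ) ≤ (D.q : ℤ) ^ 2 := by nlinarith
  have hbbq : 0 ≤ (D.b : ℤ) * D.q := by positivity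
  nlinarith

lemma depth_le_two (q : ℕ) : ((depth q : ℕ) : ℝ≥0∞) ≤ two (2 * q + 3) := by
  rw [show (2 : ℤ) * q + 3 = ((2 * q + 3 : ℕ) : ℤ) by push_cast; rfl, two_nat]
  have h : q + 1 ≤ 2 ^ q := Nat.lt_two_pow_self
  have : depth q ≤ 2 ^ (2 * q + 3) := by
    calc depth q ≤ 8 * ((q + 1) * (q + 1)) := by unfold depth; nlinarith
      _ ≤ 8 * (2 ^ q * 2 ^ q) := by gcongr
      _ = _ := by rw [pow_add, ← pow_add 2 q q, ← two_mul]; ring
  exact_mod_cast this

lemma Wdw.Ok.light_compl_small (h : D.Ok i c) {s : ℕ} (hs : s + 1 ≤ D.q)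
    (hinv : ∀ s' ≤ s, D.Inv s') (o' : D.St)
    (hk1 : D.lam (s + 1) o' * two (-64 * D.b * D.q) ≤ push (D.kern s) (D.state s) o' Set.univ)
    (hk2 : two (-256 * D.b * D.q ^ 2) * D.m ≤ push (D.kern s) (D.state s) o' Set.univ) :
    push (D.kern s) (D.state s) o' (D.light (push (D.kern s) (D.state s) o'))ᶜ
      ≤ two (-(D.b * D.q : ℤ)) * push (D.kern s) (D.state s) o' Set.univ := by
  set μ := push (D.kern s) (D.state s) o' with hμ
  calc μ (D.light μ)ᶜ ≤ ∑ j ∈ Finset.Icc 1 (depth D.q - D.R), μ (D.heavy μ j) :=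
        (measure_mono (Wdw.light_compl_subset μ)).trans (measure_biUnion_finset_le _ _)
    _ ≤ ∑ _j ∈ Finset.Icc 1 (depth D.q - D.R), two (-64 * D.b * D.q) * μ Set.univ := by
        refine Finset.sum_le_sum fun j hj => ?_
        rw [Finset.mem_Icc] at hj
        exact h.heavy_small hs hinv o' hk1 hk2 hj.1 (by omega)
    _ = ((depth D.q - D.R : ℕ) : ℝ≥0∞) * two (-64 * D.b * D.q) * μ Set.univ := by
        rw [Finset.sum_const, Nat.card_Icc, nsmul_eq_mul, Nat.add_sub_cancel]; ring
    _ ≤ two (2 * D.q + 3) * two (-64 * D.b * D.q) * μ Set.univ := by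
        gcongr
        refine le_trans ?_ (depth_le_two D.q)
        exact_mod_cast Nat.sub_le _ _
    _ ≤ _ := by
        rw [← two_add]
        gcongr
        refine two_le ?_
        have hb : (2 ^ 13 : ℤ) ≤ D.b := by exact_mod_cast h.par.hb
        have hq : (64 : ℤ) ≤ D.q := by exact_mod_cast h.par.hq
        nlinarith

lemma Wdw.Ok.inv_zero (h : D.Ok i c) : D.Inv 0 := by
  classical
  intro o ho
  by_cases h0 : o = D.o₀
  · simp only [Wdw.state, h0, if_true] at ho ⊢
    have hbq : (0 : ℤ) ≤ D.b * D.q := by positivity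
    refine ⟨?_, fun l hl1 hl2 c' => ?_⟩
    · calc two (-384 * D.b * D.q ^ 2) * D.m ≤ two 0 * D.m := by
            gcongr
            refine two_le ?_
            have : (0 : ℤ) ≤ D.b * D.q ^ 2 := by positivity
            linarith
        _ = _ := by rw [two_zero, one_mul]; rfl
    · refine (h.piece.reg l hl1 hl2 c').trans (mul_le_mul' le_rfl (two_le ?_))
      simp only [Wdw.gl]
      nlinarith
  · simp [Wdw.state, h0] at ho

lemma Wdw.Ok.inv_succ (h : D.Ok i c) {s : ℕ} (hs : s + 1 ≤ D.q) (hinv : ∀ s' ≤ s, D.Inv s') :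
    D.Inv (s + 1) := by
  classical
  intro o ho
  simp only [Wdw.state, Wdw.trunc] at ho ⊢
  set μ := push (D.kern s) (D.state s) o with hμ
  by_cases hk : D.lam (s + 1) o * two (-64 * D.b * D.q) ≤ μ Set.univ
      ∧ two (-256 * D.b * D.q ^ 2) * D.m ≤ μ Set.univ
  swap
  · rw [if_neg hk] at ho; simp at ho
  simp only [hk, and_self, if_true] at ho ⊢
  rw [Measure.restrict_apply MeasurableSet.univ, Set.univ_inter] at ho ⊢
  have hμt : μ Set.univ ≠ ⊤ := by
    refine ne_top_of_le_ne_top h.m_ne_top ?_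
    have h1 : μ ≤ D.ν := D.push_le s _
    exact h1 Set.univ
  have hb : (2 ^ 13 : ℤ) ≤ D.b := by exact_mod_cast h.par.hb
  have hq : (64 : ℤ) ≤ D.q := by exact_mod_cast h.par.hq
  have hhalf : two (-1) * μ Set.univ ≤ μ (D.light μ) := by
    have hsmall : μ (D.light μ)ᶜ ≤ two (-1) * μ Set.univ :=
      (h.light_compl_small hs hinv o hk.1 hk.2).trans (by gcongr; exact two_le (by nlinarith))
    have hsum : two (-1) * μ Set.univ + two (-1) * μ Set.univ = μ Set.univ := by
      rw [← two_mul, ← mul_assoc, show (2 : ℝ≥0∞) * two (-1) = two 0 by rw [← two_one, ← two_add]; rfl,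
        two_zero, one_mul]
    refine (ENNReal.add_le_add_iff_right (ENNReal.mul_ne_top (two_ne_top (-1)) hμt)).1 ?_
    rw [hsum, ← measure_add_measure_compl (μ := μ) (Wdw.measurableSet_light (D := D) μ)]
    refine add_le_add le_rfl ?_
    rw [measure_add_measure_compl (Wdw.measurableSet_light (D := D) μ)]
    exact hsmall
  refine ⟨?_, fun l hl1 hl2 c' => ?_⟩
  · calc two (-384 * D.b * D.q ^ 2) * D.m ≤ two (-1) * (two (-256 * D.b * D.q ^ 2) * D.m) := by
          rw [← mul_assoc, ← two_add]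
          gcongr
          exact two_le (by nlinarith)
      _ ≤ two (-1) * μ Set.univ := mul_le_mul' le_rfl hk.2
      _ ≤ _ := hhalf
  · rw [Measure.restrict_apply (measurableSet_cell _ _ _)]
    rcases (cell (ratio D.b) (D.R + l) c' ∩ D.light μ).eq_empty_or_nonempty with he | ⟨v, hv, hvl⟩
    · simp [he]
    have := hvl l hl1 hl2
    rw [show idx (ratio D.b) (D.R + l) v = c' from hv] at this
    refine (measure_mono Set.inter_subset_left).trans (this.trans ?_)
    calc D.thr μ l = two (-1) * μ Set.univ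
          * two (256 * D.b * D.q * D.gl l + 192 * D.b * D.q - 8 * D.b * n * l + 1) := by
          rw [Wdw.thr, mul_comm (two (-1)), mul_assoc (μ Set.univ) (two (-1)), ← two_add]; congr 2; ring
      _ ≤ _ := mul_le_mul' hhalf (two_le (by nlinarith))

lemma Wdw.Ok.inv (h : D.Ok i c) : ∀ s ≤ D.q, D.Inv s := by
  intro s
  induction s using Nat.strong_induction_on with
  | _ s ih =>
    intro hs
    cases s with
    | zero => exact h.inv_zero
    | succ s => exact h.inv_succ hs fun s' hs' => ih s' (by omega) (by omega)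

/-- The exponential weight of a counter. -/
noncomputable def grow (e : ℕ) : ℝ≥0∞ := ENNReal.ofReal (Real.exp ((e : ℝ) / 4))

lemma grow_zero : grow 0 = 1 := by simp [grow]

lemma grow_add (a e : ℕ) : grow (a + e) = grow a * grow e := by
  rw [grow, grow, grow, ← ENNReal.ofReal_mul (Real.exp_pos _).le, ← Real.exp_add]
  congr 2; push_cast; ring

lemma grow_mono {a e : ℕ} (hle : a ≤ e) : grow a ≤ grow e :=
  ENNReal.ofReal_le_ofReal (Real.exp_le_exp.2 (by gcongr))

lemma Wdw.Ok.grow_noise (h : D.Ok i c) {S : Sp n} (hS : S ∈ cell (ratio D.b) D.R c) :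
    ∫⁻ x, grow (D.noise (x, ⟪x, S⟫)) ∂gauss n ≤ 2 := by
  set w := (((ratio D.b : ℕ) : ℝ) ^ D.R) • (S - D.p) with hw
  have hpt : ∀ x : Sp n, grow (D.noise (x, ⟪x, S⟫))
      ≤ ENNReal.ofReal (Real.exp (1 / 4)) * ENNReal.ofReal (Real.exp (⟪x, w⟫ ^ 2 / 4)) := by
    intro x
    rw [grow, ← ENNReal.ofReal_mul (Real.exp_pos _).le, ← Real.exp_add]
    refine ENNReal.ofReal_le_ofReal (Real.exp_le_exp.2 ?_)
    have e : (⟪x, S⟫ - ⟪x, D.p⟫) * ((ratio D.b : ℕ) : ℝ) ^ D.R = ⟪x, w⟫ := by
      rw [hw, inner_smul_right, inner_sub_right, mul_comm]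
    have := (Nat.ceil_lt_add_one (sq_nonneg ⟪x, w⟫)).le
    simp only [Wdw.noise, e]
    linarith
  calc _ ≤ ∫⁻ x, ENNReal.ofReal (Real.exp (1 / 4))
          * ENNReal.ofReal (Real.exp (⟪x, w⟫ ^ 2 / 4)) ∂gauss n := lintegral_mono hpt
    _ ≤ ENNReal.ofReal (Real.exp (1 / 4)) * ENNReal.ofReal (Real.sqrt 2) := by
        rw [lintegral_const_mul' _ _ ENNReal.ofReal_ne_top]
        exact mul_le_mul' le_rfl (lintegral_exp_sq_inner_le w (h.norm_le hS))
    _ ≤ _ := by
        rw [← ENNReal.ofReal_mul (Real.exp_pos _).le, ← ENNReal.ofReal_ofNat]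
        refine ENNReal.ofReal_le_ofReal ?_
        have h1 : Real.exp (1 / 4) ≤ 4 / 3 :=
          (Real.exp_bound_div_one_sub_of_interval (by norm_num) (by norm_num)).trans (by norm_num)
        have h2 : Real.sqrt 2 ≤ 3 / 2 := (Real.sqrt_le_left (by norm_num)).2 (by norm_num)
        nlinarith [Real.exp_pos (1 / 4 : ℝ), Real.sqrt_nonneg 2]

lemma Wdw.Ok.state_ae (h : D.Ok i c) (s : ℕ) (o : D.St) :
    ∀ᵐ S ∂D.state s o, S ∈ cell (ratio D.b) D.R c :=
  ae_iff.2 (nonpos_iff_eq_zero.1 ((D.state_le_one s o _).trans h.piece.supp.le))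

/-- The exponential potential of the counters. -/
noncomputable def Wdw.pot (D : Wdw n Q) (s : ℕ) : ℝ≥0∞ :=
  ∑ o, grow o.2 * D.state s o Set.univ

lemma Wdw.Ok.pot_le (h : D.Ok i c) : ∀ s, D.pot s ≤ 2 ^ s * D.m := by
  intro s
  induction s with
  | zero =>
    classical
    rw [Wdw.pot, Finset.sum_eq_single D.o₀]
    · simp [Wdw.state, Wdw.o₀, grow_zero, Wdw.m]
    · intro o _ ho; simp [Wdw.state, ho]
    · simp
  | succ s ih =>
    calc D.pot (s + 1) ≤ ∑ o', grow o'.2 * push (D.kern s) (D.state s) o' Set.univ :=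
          Finset.sum_le_sum fun o _ => mul_le_mul' le_rfl (D.trunc_le _ _ Set.univ)
      _ = ∑ o, ∫⁻ S, ∑ o', grow o'.2 * (D.kern s).dens o o' S ∂D.state s o := by
          simp only [push_apply _ _ _ MeasurableSet.univ, setLIntegral_univ, Finset.mul_sum]
          rw [Finset.sum_comm]
          refine Finset.sum_congr rfl fun o _ => ?_
          rw [lintegral_finsetSum _ fun o' _ => ((D.kern s).measurable_dens o o').const_mul _]
          exact Finset.sum_congr rfl fun o' _ =>
            (lintegral_const_mul _ ((D.kern s).measurable_dens o o')).symm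
      _ ≤ ∑ o : D.St, ∫⁻ _S, grow o.2 * 2 ∂D.state s o := by
          refine Finset.sum_le_sum fun o _ => lintegral_mono_ae ?_
          filter_upwards [h.state_ae s o] with S hS
          have hm : ∀ o', Measurable fun x => grow o'.2 * (D.kern s).p o (x, ⟪x, S⟫) o' := fun o' =>
            (((D.kern s).meas o o').comp (by fun_prop)).const_mul _
          calc ∑ o', grow o'.2 * (D.kern s).dens o o' S
              = ∫⁻ x, ∑ o', grow o'.2 * (D.kern s).p o (x, ⟪x, S⟫) o' ∂gauss n := by
                rw [lintegral_finsetSum _ fun o' _ => hm o']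
                exact Finset.sum_congr rfl fun o' _ =>
                  (lintegral_const_mul' _ _ ENNReal.ofReal_ne_top).symm
            _ ≤ ∫⁻ x, grow o.2 * grow (D.noise (x, ⟪x, S⟫)) ∂gauss n := by
                refine lintegral_mono fun x => ?_
                calc ∑ o', grow o'.2 * (D.kern s).p o (x, ⟪x, S⟫) o'
                    ≤ ∑ o', grow o.2 * grow (D.noise (x, ⟪x, S⟫))
                        * (D.kern s).p o (x, ⟪x, S⟫) o' := by
                      refine Finset.sum_le_sum fun o' _ => ?_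
                      by_cases he : (o.2 : ℕ) + D.noise (x, ⟪x, S⟫) = o'.2
                      · rw [← grow_add, he]
                      · simp [Wdw.kern, he]
                  _ ≤ _ := by
                      rw [← Finset.mul_sum]
                      exact (mul_le_mul' le_rfl ((D.kern s).sum_le o _)).trans (mul_one _).le
            _ ≤ _ := by
                rw [lintegral_const_mul' (grow o.2) _ ENNReal.ofReal_ne_top]
                exact mul_le_mul' le_rfl (h.grow_noise hS)
      _ = 2 * D.pot s := by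
          rw [Wdw.pot, Finset.mul_sum]
          exact Finset.sum_congr rfl fun o _ => by rw [lintegral_const]; ring
      _ ≤ 2 * (2 ^ s * D.m) := mul_le_mul' le_rfl ih
      _ = _ := by ring

/-- The probability that the counter overflows in one step. -/
noncomputable def Wdw.over (D : Wdw n Q) (e : ℕ) (S : Sp n) : ℝ≥0∞ :=
  gauss n {x | 8 * D.b * D.q < e + D.noise (x, ⟪x, S⟫)}

lemma Wdw.Ok.over_sum (h : D.Ok i c) {s : ℕ} (hs : s + 1 ≤ D.q) :
    ∑ o, ∫⁻ S, D.over o.2 S ∂D.state s o ≤ two (-(D.b * D.q : ℤ)) * D.m := by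
  set g := grow (8 * D.b * D.q) with hg
  have hg0 : g ≠ 0 := (ENNReal.ofReal_pos.2 (Real.exp_pos _)).ne'
  have hgt : g ≠ ⊤ := ENNReal.ofReal_ne_top
  refine (ENNReal.mul_le_mul_iff_right hg0 hgt).1 ?_
  calc g * ∑ o, ∫⁻ S, D.over o.2 S ∂D.state s o
      ≤ ∑ o : D.St, ∫⁻ _S, grow o.2 * 2 ∂D.state s o := by
        rw [Finset.mul_sum]
        refine Finset.sum_le_sum fun o _ => ?_
        rw [← lintegral_const_mul' _ _ hgt]
        refine lintegral_mono_ae ?_
        filter_upwards [h.state_ae s o] with S hS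
        have hm : MeasurableSet {x | 8 * D.b * D.q < (o.2 : ℕ) + D.noise (x, ⟪x, S⟫)} :=
          (measurable_const.add (D.measurable_noise.comp (by fun_prop :
            Measurable fun x : Sp n => (x, ⟪x, S⟫)))) (Set.to_countable _).measurableSet
        rw [Wdw.over, ← lintegral_indicator_const hm g]
        calc _ ≤ ∫⁻ x, grow o.2 * grow (D.noise (x, ⟪x, S⟫)) ∂gauss n := by
              refine lintegral_mono fun x => ?_
              by_cases hx : 8 * D.b * D.q < (o.2 : ℕ) + D.noise (x, ⟪x, S⟫)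
              · rw [Set.indicator_of_mem (by exact hx), ← grow_add]; exact grow_mono hx.le
              · rw [Set.indicator_of_notMem (by exact hx)]; exact zero_le
          _ ≤ _ := by
              rw [lintegral_const_mul' (grow o.2) _ ENNReal.ofReal_ne_top]
              exact mul_le_mul' le_rfl (h.grow_noise hS)
    _ = 2 * D.pot s := by
        rw [Wdw.pot, Finset.mul_sum]
        exact Finset.sum_congr rfl fun o _ => by rw [lintegral_const]; ring
    _ ≤ 2 * (2 ^ s * D.m) := mul_le_mul' le_rfl (h.pot_le s)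
    _ = two (s + 1 : ℕ) * D.m := by rw [two_nat, pow_succ]; ring
    _ ≤ two (2 * (D.b * D.q : ℕ)) * two (-(D.b * D.q : ℤ)) * D.m := by
        rw [← two_add]
        gcongr
        refine two_le ?_
        push_cast
        have hb : (2 ^ 13 : ℤ) ≤ D.b := by exact_mod_cast h.par.hb
        have hs' : (s : ℤ) + 1 ≤ D.q := by exact_mod_cast hs
        nlinarith
    _ ≤ g * two (-(D.b * D.q : ℤ)) * D.m := by
        gcongr
        rw [show (2 : ℤ) * ((D.b * D.q : ℕ) : ℤ) = ((2 * (D.b * D.q) : ℕ) : ℤ) by push_cast; rfl,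
          two_eq_ofReal, zpow_natCast, hg, grow]
        refine ENNReal.ofReal_le_ofReal ?_
        rw [show ((8 * D.b * D.q : ℕ) : ℝ) / 4 = ((2 * (D.b * D.q) : ℕ) : ℝ) * 1 by push_cast; ring,
          Real.exp_nat_mul]
        gcongr
        linarith [Real.exp_one_gt_d9]
    _ = _ := mul_assoc _ _ _

lemma Wdw.dens_split (s : ℕ) (o : D.St) (r : ℕ) (ε : ℝ) (S : Sp n) :
    D.C.win ε (r + 1) (D.t₀ + s) o.1 S
      ≤ ∑ o', (D.kern s).dens o o' S * D.C.win ε r (D.t₀ + (s + 1)) o'.1 S + D.over o.2 S := by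
  classical
  set K := D.C.kern (D.t₀ + s) with hK
  set F : Sp n → ℕ := fun x => (o.2 : ℕ) + D.noise (x, ⟪x, S⟫) with hF
  have hFm : Measurable F :=
    measurable_const.add (D.measurable_noise.comp (by fun_prop :
      Measurable fun x : Sp n => (x, ⟪x, S⟫)))
  have hset : MeasurableSet {x | 8 * D.b * D.q < F x} := hFm (Set.to_countable _).measurableSet
  set V : Q → ℝ≥0∞ := fun z => D.C.win ε r (D.t₀ + (s + 1)) z S with hV
  have hVle : ∀ z, V z ≤ 1 := fun z => D.C.win_le_one _ _ _ _ _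
  have hKm : ∀ z', Measurable fun x => K.p o.1 (x, ⟪x, S⟫) z' * V z' := fun z' =>
    ((K.meas o.1 z').comp (by fun_prop)).mul_const _
  have hem : ∀ o' : D.St, Measurable fun x => (D.kern s).p o (x, ⟪x, S⟫) o' * V o'.1 := fun o' =>
    (((D.kern s).meas o o').comp (by fun_prop)).mul_const _
  calc D.C.win ε (r + 1) (D.t₀ + s) o.1 S = ∫⁻ x, ∑ z', K.p o.1 (x, ⟪x, S⟫) z' * V z' ∂gauss n := by
        rw [lintegral_finsetSum _ fun z' _ => hKm z', Chain.win]
        exact Finset.sum_congr rfl fun z' _ =>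
          (lintegral_mul_const' _ _ (ne_top_of_le_ne_top ENNReal.one_ne_top (hVle z'))).symm
    _ ≤ ∫⁻ x, (∑ o', (D.kern s).p o (x, ⟪x, S⟫) o' * V o'.1)
          + {x | 8 * D.b * D.q < F x}.indicator (fun _ => (1 : ℝ≥0∞)) x ∂gauss n := by
        refine lintegral_mono fun x => ?_
        by_cases hx : 8 * D.b * D.q < F x
        · rw [Set.indicator_of_mem (by exact hx)]
          refine le_trans ?_ le_add_self
          calc _ ≤ ∑ z', K.p o.1 (x, ⟪x, S⟫) z' := Finset.sum_le_sum fun z' _ =>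
                (mul_le_mul' le_rfl (hVle z')).trans (mul_one _).le
            _ ≤ 1 := K.sum_le _ _
        · refine le_trans ?_ le_self_add
          rw [Fintype.sum_prod_type]
          refine Finset.sum_le_sum fun z' _ => ?_
          refine le_trans ?_ (Finset.single_le_sum (fun _ _ => zero_le)
            (Finset.mem_univ (⟨F x, by omega⟩ : Fin (8 * D.b * D.q + 1))))
          simp [Wdw.kern, hF, hK]
    _ = _ := by
        rw [lintegral_add_left (Finset.measurable_sum _ fun o' _ => hem o'),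
          lintegral_indicator_const hset, one_mul, lintegral_finsetSum _ fun o' _ => hem o']
        congr 1
        exact Finset.sum_congr rfl fun o' _ =>
          lintegral_mul_const' _ _ (ne_top_of_le_ne_top ENNReal.one_ne_top (hVle o'.1))

lemma Wdw.Ok.win_step (h : D.Ok i c) {s : ℕ} (hs : s + 1 ≤ D.q) (ε : ℝ) (r : ℕ) :
    ∑ o, ∫⁻ S, D.C.win ε (r + 1) (D.t₀ + s) o.1 S ∂D.state s o
      ≤ ∑ o, ∫⁻ S, D.C.win ε r (D.t₀ + (s + 1)) o.1 S ∂D.state (s + 1) o
        + 4 * two (-(D.b * D.q : ℤ)) * D.m := by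
  classical
  set θ := two (-(D.b * D.q : ℤ)) with hθ
  have hwm : ∀ z, Measurable (D.C.win ε r (D.t₀ + (s + 1)) z) := D.C.measurable_win ε r _
  have hlost : ∀ o' : D.St, ∫⁻ S, D.C.win ε r (D.t₀ + (s + 1)) o'.1 S ∂push (D.kern s) (D.state s) o'
      ≤ ∫⁻ S, D.C.win ε r (D.t₀ + (s + 1)) o'.1 S ∂D.state (s + 1) o'
        + (D.lam (s + 1) o' * two (-64 * D.b * D.q) + two (-256 * D.b * D.q ^ 2) * D.m
          + θ * push (D.kern s) (D.state s) o' Set.univ) := by
    intro o'
    simp only [Wdw.state, Wdw.trunc]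
    set μ := push (D.kern s) (D.state s) o'
    split_ifs with hk
    · rw [← lintegral_add_compl _ (Wdw.measurableSet_light (D := D) μ)]
      gcongr
      refine le_trans ?_ le_add_self
      refine ((lintegral_mono fun S => D.C.win_le_one _ _ _ _ S).trans (le_of_eq (setLIntegral_one _))).trans
        (h.light_compl_small hs (fun s' hs' => h.inv s' (by omega)) o' hk.1 hk.2)
    · refine le_trans (D.C.lintegral_win_le ε μ r _ _) (le_trans ?_ le_add_self)
      refine le_trans ?_ le_self_add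
      rw [not_and_or, not_le, not_le] at hk
      rcases hk with hk | hk
      · exact hk.le.trans le_self_add
      · exact hk.le.trans le_add_self
  calc ∑ o, ∫⁻ S, D.C.win ε (r + 1) (D.t₀ + s) o.1 S ∂D.state s o
      ≤ ∑ o, ∫⁻ S, (∑ o', (D.kern s).dens o o' S * D.C.win ε r (D.t₀ + (s + 1)) o'.1 S)
          + D.over o.2 S ∂D.state s o :=
        Finset.sum_le_sum fun o _ => lintegral_mono fun S => Wdw.dens_split s o r ε S
    _ = ∑ o', ∫⁻ S, D.C.win ε r (D.t₀ + (s + 1)) o'.1 S ∂push (D.kern s) (D.state s) o'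
          + ∑ o, ∫⁻ S, D.over o.2 S ∂D.state s o := by
        have hm : ∀ (o o' : D.St), Measurable fun S =>
            (D.kern s).dens o o' S * D.C.win ε r (D.t₀ + (s + 1)) o'.1 S := fun o o' =>
          ((D.kern s).measurable_dens o o').mul (hwm o'.1)
        simp only [lintegral_push _ _ _ (hwm _)]
        rw [Finset.sum_comm (f := fun o' o => ∫⁻ S, (D.kern s).dens o o' S
          * D.C.win ε r (D.t₀ + (s + 1)) o'.1 S ∂D.state s o), ← Finset.sum_add_distrib]
        refine Finset.sum_congr rfl fun o _ => ?_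
        rw [lintegral_add_left (Finset.measurable_sum _ fun o' _ => hm o o'),
          lintegral_finsetSum _ fun o' _ => hm o o']
    _ ≤ (∑ o', ∫⁻ S, D.C.win ε r (D.t₀ + (s + 1)) o'.1 S ∂D.state (s + 1) o'
          + (θ + θ + θ) * D.m) + θ * D.m := by
        refine add_le_add ?_ (h.over_sum hs)
        refine (Finset.sum_le_sum fun o' _ => hlost o').trans ?_
        rw [Finset.sum_add_distrib, Finset.sum_add_distrib, Finset.sum_add_distrib,
          ← Finset.sum_mul, ← Finset.mul_sum, add_mul, add_mul]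
        refine add_le_add le_rfl (add_le_add (add_le_add ?_ ?_) ?_)
        · calc (∑ o', D.lam (s + 1) o') * two (-64 * D.b * D.q)
              ≤ two (24 * D.b * D.q) * D.m * two (-64 * D.b * D.q) :=
                mul_le_mul' (h.lam_sum hs) le_rfl
            _ = two (24 * D.b * D.q + -64 * D.b * D.q) * D.m := by rw [two_add]; ring
            _ ≤ _ := by
                gcongr
                refine two_le ?_
                have : (0 : ℤ) ≤ D.b * D.q := by positivity
                linarith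
        · rw [Finset.sum_const, Finset.card_univ, nsmul_eq_mul]
          refine le_trans (le_of_eq ?_) (mul_le_mul' h.card_eta le_rfl)
          ring
        · rw [← Finset.mul_sum]
          refine mul_le_mul' le_rfl ?_
          refine le_trans (le_of_eq ?_) ((sum_push_le (D.kern s) (D.state s)).trans (D.state_le s) Set.univ)
          rw [Measure.coe_finsetSum, Finset.sum_apply]
    _ = _ := by ring

/-- The success probability at the start of the window is at most the one at its end, up to a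
small loss. -/
theorem Wdw.Ok.win_window (h : D.Ok i c) (ε : ℝ) :
    ∀ N ≤ D.q, ∀ r, ∫⁻ S, D.C.win ε (r + N) D.t₀ D.z₀ S ∂D.ν
      ≤ ∑ o, ∫⁻ S, D.C.win ε r (D.t₀ + N) o.1 S ∂D.state N o
        + (4 * N : ℕ) * two (-(D.b * D.q : ℤ)) * D.m := by
  classical
  intro N
  induction N with
  | zero =>
    intro _ r
    refine le_trans (le_of_eq ?_) le_self_add
    rw [Finset.sum_eq_single D.o₀]
    · simp [Wdw.state, Wdw.o₀]
    · intro o _ ho; simp [Wdw.state, ho]
    · simp
  | succ N ih =>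
    intro hN r
    rw [show r + (N + 1) = (r + 1) + N by ring]
    refine (ih (by omega) (r + 1)).trans ?_
    refine (add_le_add (h.win_step hN ε r) le_rfl).trans (le_of_eq ?_)
    push_cast
    ring

end Vale.Agent.P309
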