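import Mathlib
import Vale.Agent.P309.Growth

/-!
The induction over windows: the pieces at the end of a window and the bound on the success
probability of a process started from a piece.
-/

namespace Vale.Agent.P309

open MeasureTheory ProbabilityTheory
open scoped ENNReal RealInnerProductSpace

variable {n : ℕ} {Q : Type} [Fintype Q]

lemma norm_sub_le_of_accurate {v S : Sp n} {ε : ℝ} (hε : 0 ≤ ε) (hv : ‖v‖ = 1) (hS : ‖S‖ = 1)
    (harc : Real.arccos ⟪v, S⟫ ≤ ε) : ‖S - v‖ ≤ ε := by
  rw [norm_sub_rev]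
  set θ := Real.arccos ⟪v, S⟫ with hθ
  have h0 : 0 ≤ θ := Real.arccos_nonneg _
  have habs : |⟪v, S⟫| ≤ 1 := by simpa [hv, hS] using abs_real_inner_le_norm v S
  have hcos : Real.cos θ = ⟪v, S⟫ := Real.cos_arccos (abs_le.1 habs).1 (abs_le.1 habs).2
  have h1 := Real.one_sub_sq_div_two_le_cos (x := θ)
  have h2 : ‖v - S‖ ^ 2 ≤ ε ^ 2 := by
    rw [norm_sub_sq_real, hv, hS]
    nlinarith [pow_le_pow_left₀ h0 harc 2]
  exact (pow_le_pow_iff_left₀ (norm_nonneg _) hε two_ne_zero).1 h2

lemma exp_four_le : Real.exp (2 * (1 : ℝ) ^ 2 + 2) * 4 ≤ 2 ^ 8 := by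
  rw [show (2 : ℝ) * 1 ^ 2 + 2 = ((4 : ℕ) : ℝ) * 1 by norm_num, Real.exp_nat_mul]
  have h : Real.exp 1 ^ 4 ≤ 2.72 ^ 4 :=
    pow_le_pow_left₀ (Real.exp_pos _).le (by linarith [Real.exp_one_lt_d9]) 4
  norm_num at h ⊢
  linarith

lemma piece_ball_le {b q i R : ℕ} {c : Fin (n + 1) → ℤ} {G : ℕ} {ν : Measure (Sp n)}
    (hP : Par n b q) (hν : Piece n b q i R c G ν) (hi : i ≤ q) (v₀ : Sp n) {ε : ℝ}
    (hε : ε ≤ (((ratio b : ℕ) : ℝ) ^ (R + 1))⁻¹) :
    ν (Metric.closedBall v₀ ε) ≤ ν Set.univ * two (-(b * q : ℤ)) := by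
  classical
  have hK := ratio_pos b
  set P : Set (Fin (n + 1) → ℤ) := idx (ratio b) (R + 1) '' Metric.closedBall v₀ ε with hPdef
  have key : ∀ S : Finset (Fin (n + 1) → ℤ), (↑S : Set (Fin (n + 1) → ℤ)) ⊆ P →
      (S.card : ℝ) ≤ (2 ^ 8 : ℝ) ^ (n + 1) := by
    intro S hS
    refine (ball_cells hK (R + 1) S v₀ (r := 1) fun j hj => ?_).trans
      (pow_le_pow_left₀ (by positivity) exp_four_le _)
    obtain ⟨v, hv, rfl⟩ := hS hj
    refine ⟨v, rfl, ?_⟩
    rw [one_mul, ← dist_eq_norm]
    exact (Metric.mem_closedBall.1 hv).trans hε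
  have hfin : P.Finite := by
    by_contra hinf
    obtain ⟨S, hS, hcard⟩ := (Set.not_finite.1 hinf).exists_subset_card_eq
      (⌊(2 ^ 8 : ℝ) ^ (n + 1)⌋₊ + 1)
    have := key S hS
    rw [hcard] at this
    push_cast at this
    linarith [Nat.lt_floor_add_one ((2 ^ 8 : ℝ) ^ (n + 1))]
  have hcard : (hfin.toFinset.card : ℝ≥0∞) ≤ two (8 * (n + 1)) := by
    have := key hfin.toFinset (by simp)
    rw [show (8 : ℤ) * ((n : ℤ) + 1) = ((8 * (n + 1) : ℕ) : ℤ) by push_cast; rfl, two_nat, pow_mul]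
    have h' : hfin.toFinset.card ≤ (2 ^ 8) ^ (n + 1) := by exact_mod_cast this
    exact_mod_cast h'
  have hR : R ≤ q := by have := hν.bound; omega
  have hdepth : R + 1 ≤ depth q := by unfold depth; omega
  calc ν (Metric.closedBall v₀ ε) ≤ ν (⋃ j ∈ hfin.toFinset, cell (ratio b) (R + 1) j) :=
        measure_mono fun v hv =>
          Set.mem_biUnion (hfin.mem_toFinset.2 ⟨v, hv, rfl⟩) (mem_cell_idx _ _ v)
    _ ≤ ∑ j ∈ hfin.toFinset, ν (cell (ratio b) (R + 1) j) := measure_biUnion_finset_le _ _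
    _ ≤ ∑ _j ∈ hfin.toFinset, ν Set.univ * two (1280 * b * q - 8 * b * n) := by
        refine Finset.sum_le_sum fun j _ => (hν.reg 1 le_rfl hdepth j).trans ?_
        gcongr
        refine two_le ?_
        have : ((min G (4 * 1 + 1) : ℕ) : ℤ) ≤ 5 := by exact_mod_cast min_le_right _ _
        have : (0 : ℤ) ≤ b * q := by positivity
        push_cast at *
        nlinarith
    _ = (hfin.toFinset.card : ℝ≥0∞) * two (1280 * b * q - 8 * b * n) * ν Set.univ := by
        rw [Finset.sum_const, nsmul_eq_mul]; ring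
    _ ≤ two (8 * (n + 1)) * two (1280 * b * q - 8 * b * n) * ν Set.univ := by gcongr
    _ ≤ _ := by
        rw [← two_add, mul_comm]
        gcongr
        refine two_le ?_
        have hb : (2 ^ 13 : ℤ) ≤ b := by exact_mod_cast hP.hb
        have hq : (64 : ℤ) ≤ q := by exact_mod_cast hP.hq
        have hn : (2048 : ℤ) * q ≤ n := by exact_mod_cast hP.hn
        have hn' : (n : ℤ) ≤ 4096 * q := by exact_mod_cast hP.hn'
        have : 0 ≤ ((n : ℤ) - 2048 * q) * b := mul_nonneg (by linarith) (by linarith)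
        have : 0 ≤ ((b : ℤ) - 2 ^ 13) * q := mul_nonneg (by linarith) (by linarith)
        nlinarith

lemma piece_end {b q i R : ℕ} {c : Fin (n + 1) → ℤ} {G : ℕ} {ν : Measure (Sp n)}
    (hP : Par n b q) (hν : Piece n b q i R c G ν) (hi : i ≤ q) (C : Chain n Q) {ε : ℝ}
    (hε : ε ≤ (((ratio b : ℕ) : ℝ) ^ (R + 1))⁻¹) (t : ℕ) (z : Q) :
    ∫⁻ S, C.win ε 0 t z S ∂ν ≤ ν Set.univ * two (-(b * q : ℤ)) := by
  have : IsFiniteMeasure ν :=
    ⟨(hν.le_prior Set.univ).trans_lt (measure_lt_top (sphereUniform (n + 1)) Set.univ)⟩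
  have : IsProbabilityMeasure (C.out z) := ⟨C.out_prob z⟩
  have hae : ∀ᵐ S ∂ν, ‖S‖ = 1 :=
    (Measure.absolutelyContinuous_of_le hν.le_prior).ae_le (sphereUniform_ae_norm (n := n))
  set A : Set (Sp n × Sp n) := {p | ‖p.2‖ = 1 ∧ Real.arccos ⟪p.2, p.1⟫ ≤ ε}
  have hA : MeasurableSet A := measurableSet_accurate ε
  calc ∫⁻ S, C.win ε 0 t z S ∂ν = ∫⁻ S, C.out z (Prod.mk S ⁻¹' A) ∂ν := rfl
    _ = (ν.prod (C.out z)) A := (Measure.prod_apply hA).symm
    _ = ∫⁻ v, ν ((fun S => (S, v)) ⁻¹' A) ∂C.out z := Measure.prod_apply_symm hA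
    _ ≤ ∫⁻ _v, ν Set.univ * two (-(b * q : ℤ)) ∂C.out z := by
        refine lintegral_mono fun v => ?_
        rcases ((fun S => (S, v)) ⁻¹' A).eq_empty_or_nonempty with he | ⟨S, hv, harc⟩
        · simp [he]
        have hε0 : 0 ≤ ε := (Real.arccos_nonneg _).trans harc
        refine le_trans ?_ (piece_ball_le hP hν hi v hε)
        refine measure_mono_ae ?_
        filter_upwards [hae] with S hS
        intro hmem
        show dist S v ≤ ε
        rw [dist_eq_norm]
        exact norm_sub_le_of_accurate hε0 hv hS hmem.2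
    _ = _ := by rw [lintegral_const, measure_univ (μ := C.out z), mul_one]

variable {D : Wdw n Q} {i : ℕ} {c : Fin (n + 1) → ℤ}

/-- A relative level at which the cell of v is too heavy for a new piece. -/
def Wdw.Jump (D : Wdw n Q) (μ : Measure (Sp n)) (v : Sp n) (l : ℕ) : Prop :=
  μ Set.univ * two (1024 * D.b * D.q * l - 8 * D.b * n * l)
    < μ (cell (ratio D.b) (D.R + l) (idx (ratio D.b) (D.R + l) v))

open Classical in
/-- The relative level of the piece that contains v. -/
noncomputable def Wdw.jump (D : Wdw n Q) (μ : Measure (Sp n)) (v : Sp n) : ℕ :=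
  Nat.findGreatest (D.Jump μ v) (depth D.q - D.R)

lemma Wdw.measurable_jump (μ : Measure (Sp n)) : Measurable (D.jump μ) := by
  classical
  refine measurable_findGreatest fun k _ => ?_
  have : {v | D.Jump μ v k} = cells (ratio D.b) (D.R + k)
      {c' | μ Set.univ * two (1024 * D.b * D.q * k - 8 * D.b * n * k)
        < μ (cell (ratio D.b) (D.R + k) c')} := by
    ext v; rfl
  rw [this]
  exact measurableSet_cells _ _ _

lemma Wdw.jump_spec (μ : Measure (Sp n)) (v : Sp n) (h : 1 ≤ D.jump μ v) :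
    D.Jump μ v (D.jump μ v) := by
  classical
  exact Nat.findGreatest_of_ne_zero rfl (by omega : D.jump μ v ≠ 0)

lemma Wdw.jump_max (μ : Measure (Sp n)) (v : Sp n) {l : ℕ} (h1 : D.jump μ v < l)
    (h2 : D.R + l ≤ depth D.q) : ¬ D.Jump μ v l := by
  classical
  exact Nat.findGreatest_is_greatest h1 (by omega)

lemma Wdw.Ok.new_piece (h : D.Ok i c) {s : ℕ} (hinv : D.Inv s) (o : D.St)
    (h0 : D.state s o Set.univ ≠ 0) {l : ℕ} (hl : D.R + l ≤ depth D.q)
    (c' : Fin (n + 1) → ℤ)
    (hkeep1 : D.state s o (cell (ratio D.b) (D.R + l) c') * two (-64 * D.b * D.q)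
      ≤ D.state s o ({v | D.jump (D.state s o) v = l} ∩ cell (ratio D.b) (D.R + l) c'))
    (hkeep2 : D.state s o Set.univ * two (-512 * D.b * D.q ^ 2 - 8 * D.b * n * l)
      ≤ D.state s o ({v | D.jump (D.state s o) v = l} ∩ cell (ratio D.b) (D.R + l) c')) :
    ∃ G', Piece n D.b D.q (i + 1) (D.R + l) c' G'
      ((D.state s o).restrict ({v | D.jump (D.state s o) v = l} ∩ cell (ratio D.b) (D.R + l) c')) := by
  classical
  set μ := D.state s o with hμ
  set A := {v | D.jump μ v = l} ∩ cell (ratio D.b) (D.R + l) c' with hA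
  have hAm : MeasurableSet A :=
    (Wdw.measurable_jump μ (measurableSet_singleton l)).inter (measurableSet_cell _ _ _)
  obtain ⟨hmass, hreg⟩ := hinv o h0
  have hfin := h.isFinite s o
  have hcell0 : μ (cell (ratio D.b) D.R c)ᶜ = 0 :=
    nonpos_iff_eq_zero.1 ((D.state_le_one s o _).trans h.piece.supp.le)
  have hne : μ A ≠ 0 := fun hz => by
    rw [hz] at hkeep2
    exact mul_ne_zero h0 (two_ne_zero' _) (nonpos_iff_eq_zero.1 hkeep2)
  obtain ⟨v₁, ⟨hv1j, hv1c⟩, hv1R⟩ : ∃ v, v ∈ A ∧ v ∈ cell (ratio D.b) D.R c := by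
    by_contra hno
    push Not at hno
    exact hne (measure_mono_null (fun v hv => hno v hv) hcell0)
  have hb0 : (0 : ℤ) ≤ D.b := Nat.cast_nonneg _
  have hbq : (0 : ℤ) ≤ D.b * D.q := mul_nonneg hb0 (Nat.cast_nonneg _)
  have hlow : μ Set.univ * two (1024 * D.b * D.q * l - 8 * D.b * n * l)
      ≤ μ A * two (64 * D.b * D.q) := by
    have h1 : μ Set.univ * two (1024 * D.b * D.q * l - 8 * D.b * n * l)
        ≤ μ (cell (ratio D.b) (D.R + l) c') := by
      rcases Nat.eq_zero_or_pos l with rfl | hl1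
      · have : c' = c := hv1c.symm.trans hv1R
        subst this
        simp only [Nat.cast_zero, mul_zero, sub_zero, two_zero, mul_one, Nat.add_zero]
        rw [← measure_add_measure_compl (μ := μ) (measurableSet_cell (ratio D.b) D.R c'),
          hcell0, add_zero]
      · have hsp := D.jump_spec μ v₁ (by rw [show D.jump μ v₁ = l from hv1j]; exact hl1)
        rw [show D.jump μ v₁ = l from hv1j, Wdw.Jump,
          show idx (ratio D.b) (D.R + l) v₁ = c' from hv1c] at hsp
        exact hsp.le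
    calc _ ≤ μ (cell (ratio D.b) (D.R + l) c') * two (-64 * D.b * D.q) * two (64 * D.b * D.q) := by
          refine h1.trans (le_of_eq ?_)
          rw [mul_assoc, ← two_add, show (-64 : ℤ) * D.b * D.q + 64 * D.b * D.q = 0 by ring,
            two_zero, mul_one]
      _ ≤ _ := mul_le_mul' hkeep1 le_rfl
  have hlG : 4 * l ≤ D.G := by
    rcases Nat.eq_zero_or_pos l with rfl | hl1
    · omega
    have hsp := D.jump_spec μ v₁ (by rw [show D.jump μ v₁ = l from hv1j]; exact hl1)
    rw [show D.jump μ v₁ = l from hv1j, Wdw.Jump,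
      show idx (ratio D.b) (D.R + l) v₁ = c' from hv1c] at hsp
    have hlt := lt_of_two_mul_lt (hsp.trans_le (hreg l hl1 hl c'))
    have hgl : D.gl l ≤ D.G := by
      simp only [Wdw.gl]; exact_mod_cast min_le_left _ _
    have hb : (0 : ℤ) < D.b := by
      have := h.par.hb
      exact_mod_cast (by omega : 0 < D.b)
    have hq : (0 : ℤ) < D.q := by
      have := h.par.hq
      exact_mod_cast (by omega : 0 < D.q)
    have : (4 : ℤ) * l < D.gl l + 1 := by
      by_contra hc
      have : 256 * D.b * D.q * (D.gl l + 1) ≤ 256 * (D.b : ℤ) * D.q * (4 * l) :=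
        mul_le_mul_of_nonneg_left (not_lt.1 hc) (by positivity)
      linarith
    have : (4 : ℤ) * l ≤ D.G := by linarith
    exact_mod_cast this
  refine ⟨D.G + 2 - 4 * l, ⟨?_, ?_, ?_, ?_, ?_⟩⟩
  · exact le_trans Measure.restrict_le_self (le_trans (D.state_le_one s o) h.piece.le_prior)
  · rw [Measure.restrict_apply (measurableSet_cell _ _ _).compl]
    exact measure_mono_null (fun v hv => hv.1 hv.2.2) measure_empty
  · rw [Measure.restrict_apply MeasurableSet.univ, Set.univ_inter]
    refine le_trans ?_ hkeep2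
    calc two (-(1024 * (((i + 1 : ℕ) : ℤ) + 1) * D.b * D.q ^ 2) - 8 * D.b * n * ((D.R + l : ℕ) : ℤ))
        ≤ two (-384 * D.b * D.q ^ 2) * two (-(1024 * ((i : ℤ) + 1) * D.b * D.q ^ 2) - 8 * D.b * n * D.R)
          * two (-512 * D.b * D.q ^ 2 - 8 * D.b * n * l) := by
          rw [← two_add, ← two_add]
          refine two_le ?_
          have : (0 : ℤ) ≤ D.b * D.q ^ 2 := by positivity
          push_cast
          nlinarith
      _ ≤ _ := by
          refine mul_le_mul' (le_trans ?_ hmass) le_rfl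
          exact mul_le_mul' le_rfl h.piece.mass
  · intro j hj1 hj2 c''
    rw [Measure.restrict_apply MeasurableSet.univ, Set.univ_inter,
      Measure.restrict_apply (measurableSet_cell _ _ _)]
    rcases (cell (ratio D.b) (D.R + l + j) c'' ∩ A).eq_empty_or_nonempty with he | ⟨v, hv, hvj, -⟩
    · simp [he]
    refine (measure_mono Set.inter_subset_left).trans ?_
    rw [Nat.add_assoc] at hj2 hv ⊢
    have e1 : μ (cell (ratio D.b) (D.R + (l + j)) c'')
        ≤ μ Set.univ * two (1024 * D.b * D.q * ((l + j : ℕ) : ℤ) - 8 * D.b * n * ((l + j : ℕ) : ℤ)) := by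
      have := D.jump_max μ v (l := l + j) (by rw [show D.jump μ v = l from hvj]; omega) hj2
      rw [Wdw.Jump, not_lt, show idx (ratio D.b) (D.R + (l + j)) v = c'' from hv] at this
      exact this
    have e2 : μ (cell (ratio D.b) (D.R + (l + j)) c'')
        ≤ μ Set.univ * two (256 * D.b * D.q * ((D.G : ℤ) + 1) - 8 * D.b * n * ((l + j : ℕ) : ℤ)) := by
      refine (hreg (l + j) (by omega) hj2 c'').trans (mul_le_mul' le_rfl (two_le ?_))
      have : D.gl (l + j) ≤ D.G := by simp only [Wdw.gl]; exact_mod_cast min_le_left _ _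
      nlinarith
    have conv : ∀ E : ℤ, 64 * D.b * D.q + E - (1024 * D.b * D.q * l - 8 * D.b * n * l)
          ≤ 256 * D.b * D.q * ((min (D.G + 2 - 4 * l) (4 * j + 1) : ℕ) : ℤ) - 8 * D.b * n * j →
        μ (cell (ratio D.b) (D.R + (l + j)) c'') ≤ μ Set.univ * two E →
        μ (cell (ratio D.b) (D.R + (l + j)) c'') ≤ μ A *
          two (256 * D.b * D.q * ((min (D.G + 2 - 4 * l) (4 * j + 1) : ℕ) : ℤ) - 8 * D.b * n * j) := by
      intro E hE hb
      refine hb.trans ?_
      calc μ Set.univ * two E = μ Set.univ * two (1024 * D.b * D.q * l - 8 * D.b * n * l)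
            * two (E - (1024 * D.b * D.q * l - 8 * D.b * n * l)) := by
            rw [mul_assoc, ← two_add, add_sub_cancel]
        _ ≤ μ A * two (64 * D.b * D.q)
            * two (E - (1024 * D.b * D.q * l - 8 * D.b * n * l)) := mul_le_mul' hlow le_rfl
        _ ≤ _ := by
            rw [mul_assoc, ← two_add]
            exact mul_le_mul' le_rfl (two_le (by linarith))
    rcases Nat.le_total (D.G + 2 - 4 * l) (4 * j + 1) with hc | hc
    · refine conv _ ?_ e2
      rw [min_eq_left hc, Nat.cast_sub (by omega)]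
      push_cast
      nlinarith
    · refine conv _ ?_ e1
      rw [min_eq_right hc]
      push_cast
      nlinarith
  · have := h.piece.bound
    omega

/-- At the end of a window the state splits into pieces, up to a small loss. -/
theorem Wdw.Ok.boundary (h : D.Ok i c) {s : ℕ} (hinv : D.Inv s) (o : D.St) (f : Sp n → ℝ≥0∞)
    (hf : ∀ v, f v ≤ 1) (β : ℝ≥0∞)
    (hIH : ∀ R' c' G' ρ, Piece n D.b D.q (i + 1) R' c' G' ρ → ∫⁻ v, f v ∂ρ ≤ ρ Set.univ * β) :
    ∫⁻ v, f v ∂D.state s o
      ≤ D.state s o Set.univ * β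
        + D.state s o Set.univ * ((2 * (depth D.q + 1) : ℕ) * two (-(D.b * D.q : ℤ))) := by
  classical
  set μ := D.state s o with hμ
  rcases eq_or_ne (μ Set.univ) 0 with h0 | h0
  · rw [Measure.measure_univ_eq_zero.1 h0]; simp
  have hfin := h.isFinite s o
  set Lr := depth D.q - D.R
  set θ := two (-(D.b * D.q : ℤ)) with hθ
  set S : ℕ → Set (Sp n) := fun l => {v | D.jump μ v = l} with hS
  have hSm : ∀ l, MeasurableSet (S l) := fun l => Wdw.measurable_jump μ (measurableSet_singleton l)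
  have hSd : Set.PairwiseDisjoint (↑(Finset.range (Lr + 1))) S := fun a _ b _ hab =>
    Set.disjoint_left.2 fun v ha hb => hab (ha.symm.trans hb)
  have hcover : (⋃ l ∈ Finset.range (Lr + 1), S l) = Set.univ :=
    Set.eq_univ_of_forall fun v => Set.mem_biUnion
      (Finset.mem_range.2 (Nat.lt_succ_of_le (Nat.findGreatest_le _))) rfl
  have hlev : ∀ l ∈ Finset.range (Lr + 1),
      ∫⁻ v in S l, f v ∂μ ≤ μ (S l) * β + μ Set.univ * (2 * θ) := by
    intro l hl
    have hl' : D.R + l ≤ depth D.q := by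
      have := Finset.mem_range.1 hl
      have : D.R ≤ depth D.q := by have := h.R_le; unfold depth; omega
      omega
    obtain ⟨J, hJ, hJmem⟩ := child_cells (ratio_pos D.b) D.R l c
    set T : (Fin (n + 1) → ℤ) → Set (Sp n) := fun c' => S l ∩ cell (ratio D.b) (D.R + l) c' with hT
    have hTm : ∀ c', MeasurableSet (T c') := fun c' => (hSm l).inter (measurableSet_cell _ _ _)
    have hTd : Pairwise (Function.onFun Disjoint T) := fun a b hab =>
      Set.disjoint_left.2 fun v ha hb => hab (ha.2.symm.trans hb.2)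
    have hTu : (⋃ c', T c') = S l := by
      ext v; simp [hT, cell]
    have hcellU : ∑' c', μ (cell (ratio D.b) (D.R + l) c') = μ Set.univ := by
      rw [← measure_iUnion (fun a b hab => Set.disjoint_left.2 fun v ha hb => hab (ha.symm.trans hb))
        (fun c' => measurableSet_cell _ _ _)]
      congr 1
      ext v; simp [cell]
    set γ := μ Set.univ * two (-512 * D.b * D.q ^ 2 - 8 * D.b * n * l) with hγ
    have hone : ∀ c', ∫⁻ v in T c', f v ∂μ ≤ μ (T c') * β
        + μ (cell (ratio D.b) (D.R + l) c') * two (-64 * D.b * D.q)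
        + (↑J : Set (Fin (n + 1) → ℤ)).indicator (fun _ => γ) c' := by
      intro c'
      by_cases hk : μ (cell (ratio D.b) (D.R + l) c') * two (-64 * D.b * D.q) ≤ μ (T c')
          ∧ γ ≤ μ (T c')
      · obtain ⟨G', hp⟩ := h.new_piece hinv o h0 hl' c' hk.1 hk.2
        refine le_trans ?_ (le_self_add.trans le_self_add)
        refine (hIH _ _ _ _ hp).trans (le_of_eq ?_)
        rw [Measure.restrict_apply MeasurableSet.univ, Set.univ_inter]
      · have hle : ∫⁻ v in T c', f v ∂μ ≤ μ (T c') :=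
          (lintegral_mono fun v => hf v).trans (le_of_eq (setLIntegral_one _))
        refine hle.trans ?_
        rcases not_and_or.1 hk with hk | hk
        · exact (not_le.1 hk).le.trans (le_add_self.trans le_self_add)
        by_cases hJc : c' ∈ J
        · rw [Set.indicator_of_mem (Finset.mem_coe.2 hJc)]
          exact (not_le.1 hk).le.trans le_add_self
        · refine le_trans (le_of_eq ?_) zero_le
          refine measure_mono_null ?_ (nonpos_iff_eq_zero.1
            ((D.state_le_one s o _).trans h.piece.supp.le))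
          exact fun v hv hvc => hJc (hv.2 ▸ hJmem v hvc)
    have hJγ : ∑' c', (↑J : Set (Fin (n + 1) → ℤ)).indicator (fun _ => γ) c' ≤ μ Set.univ * θ := by
      rw [← tsum_subtype, Finset.tsum_subtype' J (fun _ => γ), Finset.sum_const, nsmul_eq_mul, hγ,
        ← mul_assoc, mul_comm (J.card : ℝ≥0∞), mul_assoc]
      gcongr
      have hJ' : (J.card : ℝ≥0∞) ≤ two (8 * D.b * l * (n + 1 : ℕ)) * two (84 * (n + 1)) := by
        rw [← ENNReal.ofReal_natCast]
        refine (ENNReal.ofReal_le_ofReal hJ).trans ?_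
        rw [ENNReal.ofReal_mul (by positivity), ENNReal.ofReal_pow (by positivity),
          ENNReal.ofReal_pow (by positivity), ENNReal.ofReal_natCast, ratio_cast, two_pow, two_pow]
        gcongr
        exact ofReal_tube n
      refine (mul_le_mul' hJ' le_rfl).trans ?_
      rw [hθ, ← two_add, ← two_add]
      refine two_le ?_
      have hb : (2 ^ 13 : ℤ) ≤ D.b := by exact_mod_cast h.par.hb
      have hq : (64 : ℤ) ≤ D.q := by exact_mod_cast h.par.hq
      have hn' : (n : ℤ) ≤ 4096 * D.q := by exact_mod_cast h.par.hn'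
      have hld : (l : ℤ) ≤ 4 * (D.q : ℤ) ^ 2 + D.q + 1 := by
        have : l ≤ depth D.q := by omega
        unfold depth at this
        exact_mod_cast this
      have h1 : 0 ≤ ((4 : ℤ) * D.q ^ 2 + D.q + 1 - l) * D.b := mul_nonneg (by linarith) (by linarith)
      have h2 : 0 ≤ ((D.q : ℤ) - 64) * ((D.b : ℤ) * D.q) := mul_nonneg (by linarith) (by positivity)
      have h3 : 0 ≤ ((D.b : ℤ) - 2 ^ 13) * (D.q : ℤ) ^ 2 := mul_nonneg (by linarith) (sq_nonneg _)
      have h4 : 0 ≤ ((D.q : ℤ) - 64) * (D.q : ℤ) := mul_nonneg (by linarith) (by linarith)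
      push_cast
      nlinarith
    calc ∫⁻ v in S l, f v ∂μ = ∑' c', ∫⁻ v in T c', f v ∂μ := by
          rw [← hTu, lintegral_iUnion hTm hTd]
      _ ≤ ∑' c', (μ (T c') * β + μ (cell (ratio D.b) (D.R + l) c') * two (-64 * D.b * D.q)
            + (↑J : Set (Fin (n + 1) → ℤ)).indicator (fun _ => γ) c') := ENNReal.tsum_le_tsum hone
      _ = μ (S l) * β + μ Set.univ * two (-64 * D.b * D.q)
            + ∑' c', (↑J : Set (Fin (n + 1) → ℤ)).indicator (fun _ => γ) c' := by
          rw [ENNReal.tsum_add, ENNReal.tsum_add, ENNReal.tsum_mul_right, ENNReal.tsum_mul_right,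
            ← measure_iUnion hTd hTm, hTu, hcellU]
      _ ≤ μ (S l) * β + μ Set.univ * θ + μ Set.univ * θ := by
          gcongr
          refine two_le ?_
          have : (0 : ℤ) ≤ D.b * D.q := by positivity
          linarith
      _ = _ := by ring
  calc ∫⁻ v, f v ∂μ = ∑ l ∈ Finset.range (Lr + 1), ∫⁻ v in S l, f v ∂μ := by
        rw [← lintegral_biUnion_finset hSd (fun l _ => hSm l), hcover, setLIntegral_univ]
    _ ≤ ∑ l ∈ Finset.range (Lr + 1), (μ (S l) * β + μ Set.univ * (2 * θ)) := Finset.sum_le_sum hlev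
    _ = μ Set.univ * β + μ Set.univ * (((2 * (Lr + 1) : ℕ) : ℝ≥0∞) * θ) := by
        rw [Finset.sum_add_distrib, ← Finset.sum_mul,
          ← measure_biUnion_finset hSd (fun l _ => hSm l), hcover, Finset.sum_const,
          Finset.card_range, nsmul_eq_mul]
        push_cast
        ring
    _ ≤ _ := by
        gcongr
        exact Nat.sub_le _ _

lemma loss_le (b q : ℕ) :
    ((4 * q + 2 * (depth q + 1) : ℕ) : ℝ≥0∞) * two (-(b * q : ℤ)) ≤ two (5 + 2 * q - b * q) := by
  rw [show (5 : ℤ) + 2 * q - b * q = ((5 + 2 * q : ℕ) : ℤ) + -((b : ℤ) * q) by push_cast; ring,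
    two_add, two_nat]
  refine mul_le_mul' ?_ le_rfl
  have h : q + 1 ≤ 2 ^ q := Nat.lt_two_pow_self
  have : 4 * q + 2 * (depth q + 1) ≤ 2 ^ (5 + 2 * q) := by
    calc 4 * q + 2 * (depth q + 1) ≤ 32 * ((q + 1) * (q + 1)) := by unfold depth; nlinarith
      _ ≤ 32 * (2 ^ q * 2 ^ q) := by gcongr
      _ = _ := by ring
  exact_mod_cast this

/-- A process with few states, started from a piece, rarely reaches accuracy ε. -/
theorem chain_bound {Q : Type} [Fintype Q] {n b q : ℕ} (hP : Par n b q) (C : Chain n Q)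
    (hQ : (Fintype.card Q : ℝ≥0∞) ≤ two (128 * b * q ^ 2)) {ε : ℝ} (wtot : ℕ) (hw : wtot ≤ q)
    (hε : ε ≤ (((ratio b : ℕ) : ℝ) ^ (wtot + 1))⁻¹)
    (w i : ℕ) (hiw : i + w ≤ wtot) (R : ℕ) (c : Fin (n + 1) → ℤ) (G : ℕ) (ν : Measure (Sp n))
    (hν : Piece n b q i R c G ν) (z : Q) (t r : ℕ) (hr : r ≤ w * q) :
    ∫⁻ S, C.win ε r t z S ∂ν
      ≤ ν Set.univ * (((w : ℝ≥0∞) + 1) * two (5 + 2 * q - b * q)) := by
  classical
  set θ' := two (5 + 2 * q - b * q) with hθ'
  have hend : ∀ (j R' : ℕ) (c' : Fin (n + 1) → ℤ) (G' : ℕ) (ρ : Measure (Sp n)),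
      Piece n b q j R' c' G' ρ → j ≤ wtot → ∀ (t' : ℕ) (z' : Q),
      ∫⁻ S, C.win ε 0 t' z' S ∂ρ ≤ ρ Set.univ * θ' := by
    intro j R' c' G' ρ hρ hj t' z'
    refine (piece_end hP hρ (hj.trans hw) C (hε.trans ?_) t' z').trans
      (mul_le_mul' le_rfl (two_le (by linarith [Nat.cast_nonneg (α := ℤ) q])))
    have hK1 : (1 : ℝ) ≤ ((ratio b : ℕ) : ℝ) := by exact_mod_cast ratio_pos b
    have : R' ≤ wtot := by have := hρ.bound; omega
    gcongr
  induction w generalizing i R c G ν z t r with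
  | zero =>
    have : r = 0 := by simpa using hr
    subst this
    simpa using hend i R c G ν hν (by omega) t z
  | succ w ih =>
    rcases Nat.eq_zero_or_pos r with rfl | hr0
    · refine (hend i R c G ν hν (by omega) t z).trans (mul_le_mul' le_rfl ?_)
      calc θ' = 1 * θ' := (one_mul _).symm
        _ ≤ _ := mul_le_mul' (by exact le_add_self) le_rfl
    obtain ⟨p, hp⟩ : (cell (ratio b) R c).Nonempty := by
      by_contra hne
      rw [Set.not_nonempty_iff_eq_empty] at hne
      have h0 := hν.supp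
      rw [hne, Set.compl_empty] at h0
      have := hν.mass
      rw [h0] at this
      exact two_ne_zero' _ (nonpos_iff_eq_zero.1 this)
    let D : Wdw n Q := ⟨b, q, C, t, R, G, p, ν, z⟩
    have h : D.Ok i c := ⟨hP, hν, by show i ≤ q; omega, hp, hQ⟩
    set N := min q r with hN
    obtain ⟨r', hr'⟩ : ∃ r', r = r' + N := ⟨r - N, by omega⟩
    have hr'w : r' ≤ w * q := by
      have : (w + 1) * q = w * q + q := by ring
      omega
    have hwin := h.win_window ε N (min_le_left q r) r'
    rw [← hr'] at hwin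
    refine hwin.trans ?_
    set θ := two (-(b * q : ℤ)) with hθ
    have hbd : ∀ o, ∫⁻ S, C.win ε r' (t + N) o.1 S ∂D.state N o
        ≤ D.state N o Set.univ * ((((w : ℝ≥0∞) + 1) * θ') + (2 * (depth q + 1) : ℕ) * θ) := by
      intro o
      rw [mul_add]
      exact h.boundary (h.inv N (min_le_left q r)) o _ (fun v => C.win_le_one _ _ _ _ v) _
        fun R' c' G' ρ hρ => ih (i + 1) (by omega) R' c' G' ρ hρ o.1 (t + N) r' hr'w
    calc (∑ o, ∫⁻ S, C.win ε r' (t + N) o.1 S ∂D.state N o) + ((4 * N : ℕ) : ℝ≥0∞) * θ * D.m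
        ≤ (∑ o, D.state N o Set.univ * ((((w : ℝ≥0∞) + 1) * θ') + (2 * (depth q + 1) : ℕ) * θ))
          + ((4 * q : ℕ) : ℝ≥0∞) * θ * D.m := by
          gcongr with o
          · exact hbd o
          · exact min_le_left q r
      _ ≤ D.m * ((((w : ℝ≥0∞) + 1) * θ') + (2 * (depth q + 1) : ℕ) * θ)
          + ((4 * q : ℕ) : ℝ≥0∞) * θ * D.m := by
          rw [← Finset.sum_mul]
          gcongr
          exact D.sum_mass_le N
      _ = ν Set.univ * (((w : ℝ≥0∞) + 1) * θ' + ((4 * q + 2 * (depth q + 1) : ℕ) : ℝ≥0∞) * θ) := by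
          rw [show D.m = ν Set.univ from rfl]; push_cast; ring
      _ ≤ ν Set.univ * (((w : ℝ≥0∞) + 1) * θ' + θ') := by
          gcongr
          exact loss_le b q
      _ = _ := by push_cast; ring

end Vale.Agent.P309
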