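import Mathlib
import Vale.Agent.P309.Induction

/-!
The memory-sample lower bound: from learners to chains, the extremely precise case, and the
decomposition of the prior into the cells of level 0.
-/

namespace Vale.Agent.P309

open MeasureTheory ProbabilityTheory
open scoped ENNReal RealInnerProductSpace

variable {n M : ℕ}

section reduction

/-- The states of the chain of a learner: running states, and stopped states with their index. -/
abbrev RState (L : Learner (n + 1) M) (T : ℕ) : Type :=
  Fin L.numStates ⊕ (Fin L.numStates × Fin (T + 1))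

/-- The index at which the learner has stopped, after stopping at index t. -/
def stopIdx (T t : ℕ) : Fin (T + 1) := ⟨min (t + 1) T, Nat.lt_succ_of_le (min_le_right _ _)⟩

/-- One transition of the chain of a learner. -/
noncomputable def rTrans (L : Learner (n + 1) M) (T t : ℕ) :
    RState L T → Sp n × ℝ → RState L T → ℝ≥0∞
  | Sum.inl z, p, Sum.inl z' => L.step t z p.1 p.2 (z', false)
  | Sum.inl z, p, Sum.inr a => if a.2 = stopIdx T t then L.step t z p.1 p.2 (a.1, true) else 0
  | Sum.inr _, _, Sum.inl _ => 0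
  | Sum.inr a, _, Sum.inr a' => if a' = a then 1 else 0

/-- The kernel of the chain of a learner. -/
noncomputable def rKern (L : Learner (n + 1) M) (T t : ℕ) : Kern n (RState L T) (RState L T) where
  p := rTrans L T t
  meas o o' := by
    rcases o with z | a <;> rcases o' with z' | a'
    · exact L.step_measurable t z (z', false)
    · simp only [rTrans]
      split_ifs
      · exact L.step_measurable t z (a'.1, true)
      · exact measurable_const
    · exact measurable_const
    · exact measurable_const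
  sum_le o p := by
    refine le_of_eq ?_
    rcases o with z | a
    · rw [Fintype.sum_sum_type, Fintype.sum_prod_type]
      simp only [rTrans, Finset.sum_ite_eq', Finset.mem_univ, if_true]
      rw [← L.step_sum t z p.1 p.2, Fintype.sum_prod_type]
      simp only [Fintype.sum_bool]
      rw [Finset.sum_add_distrib, add_comm]
    · rw [Fintype.sum_sum_type]
      simp [rTrans]

/-- The law of the output in a state of the chain of a learner. -/
noncomputable def rOut (L : Learner (n + 1) M) (T : ℕ) : RState L T → Measure (Sp n)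
  | Sum.inl z => L.out T z
  | Sum.inr a => L.out a.2 a.1

/-- The chain of a learner. -/
noncomputable def rChain (L : Learner (n + 1) M) (T : ℕ) : Chain n (RState L T) where
  kern := rKern L T
  out := rOut L T
  out_prob z := by rcases z with z | a <;> exact L.out_prob _ _

lemma win_stopped (L : Learner (n + 1) M) (T : ℕ) (ε : ℝ) (a : Fin L.numStates × Fin (T + 1))
    (S : Sp n) : ∀ r t, (rChain L T).win ε r t (Sum.inr a) S = L.out a.2 a.1 (accurate ε S)
  | 0, _ => rfl
  | r + 1, t => by
      rw [Chain.win, Finset.sum_eq_single (Sum.inr a)]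
      · rw [win_stopped L T ε a S r (t + 1)]
        simp [Kern.dens, rChain, rKern, rTrans]
      · intro o _ ho
        rcases o with z | a'
        · simp [Kern.dens, rChain, rKern, rTrans]
        · have : a' ≠ a := fun h => ho (h ▸ rfl)
          simp [Kern.dens, rChain, rKern, rTrans, this]
      · simp

lemma winProb_eq (L : Learner (n + 1) M) (T : ℕ) (ε : ℝ) (S : Sp n) :
    ∀ r t z, t + r = T → winProb L ε r t z S = (rChain L T).win ε r t (Sum.inl z) S
  | 0, t, z, h => by
      obtain rfl : t = T := by omega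
      rfl
  | r + 1, t, z, h => by
      rw [winProb, Chain.win, Fintype.sum_sum_type, Fintype.sum_prod_type, ← Finset.sum_add_distrib]
      refine Finset.sum_congr rfl fun z' _ => ?_
      have hst : ((stopIdx T t : Fin (T + 1)) : ℕ) = t + 1 := by
        simp only [stopIdx]; omega
      have hm : ∀ o : Fin L.numStates × Bool, Measurable fun x => L.step t z x ⟪x, S⟫ o := fun o =>
        (L.step_measurable t z o).comp (f := fun x => (x, ⟪x, S⟫)) (by fun_prop)
      rw [Finset.sum_eq_single (stopIdx T t)]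
      · rw [win_stopped, hst, ← winProb_eq L T ε S r (t + 1) z' (by omega),
          lintegral_add_left ((hm (z', true)).mul_const _), lintegral_mul_const _ (hm (z', true)),
          lintegral_mul_const _ (hm (z', false)), add_comm]
        simp [Kern.dens, rChain, rKern, rTrans]
      · intro τ _ hτ
        simp [Kern.dens, rChain, rKern, rTrans, hτ]
      · simp

lemma card_rState (L : Learner (n + 1) M) (T : ℕ) :
    Fintype.card (RState L T) ≤ 2 ^ M * (T + 2) := by
  rw [Fintype.card_sum, Fintype.card_prod, Fintype.card_fin, Fintype.card_fin]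
  calc L.numStates + L.numStates * (T + 1) = L.numStates * (T + 2) := by ring
    _ ≤ 2 ^ M * (T + 2) := Nat.mul_le_mul_right _ L.numStates_le

lemma successProb_le_of_win (L : Learner (n + 1) M) (T : ℕ) (ε : ℝ) {B : ℝ≥0∞}
    (h : ∀ z, ∫⁻ S, (rChain L T).win ε T 0 z S ∂sphereUniform (n + 1) ≤ B) :
    successProb L T ε ≤ B := by
  rw [successProb]
  calc ∑ z, L.init z * ∫⁻ S, winProb L ε T 0 z S ∂sphereUniform (n + 1)
      ≤ ∑ z, L.init z * B := by
        refine Finset.sum_le_sum fun z _ => mul_le_mul' le_rfl ?_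
        rw [lintegral_congr fun S => winProb_eq L T ε S T 0 z (by omega)]
        exact h (Sum.inl z)
    _ = B := by rw [← Finset.sum_mul, L.init_sum, one_mul]

end reduction

section crude

variable {Q : Type} [Fintype Q]

/-- The probability of winning is at most the number of states times that of a fixed guess. -/
lemma Chain.win_le_sum_out (C : Chain n Q) (ε : ℝ) :
    ∀ r t z S, C.win ε r t z S ≤ ∑ z', C.out z' (accurate ε S)
  | 0, _, z, S => Finset.single_le_sum (f := fun z' => C.out z' (accurate ε S))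
      (fun _ _ => zero_le) (Finset.mem_univ z)
  | r + 1, t, z, S => by
      rw [Chain.win]
      calc ∑ z', (C.kern t).dens z z' S * C.win ε r (t + 1) z' S
          ≤ ∑ z', (C.kern t).dens z z' S * ∑ z'', C.out z'' (accurate ε S) :=
            Finset.sum_le_sum fun z' _ => mul_le_mul' le_rfl (C.win_le_sum_out ε r _ _ _)
        _ ≤ _ := by
            rw [← Finset.sum_mul]
            exact mul_le_of_le_one_left zero_le ((C.kern t).sum_dens_le z S)

lemma accurate_prior_le (v : Sp n) {ε : ℝ} (hε : 0 ≤ ε) :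
    sphereUniform (n + 1) {S | v ∈ accurate ε S} ≤ ENNReal.ofReal (2 * (2 * ε) ^ n) := by
  by_cases hv : ‖v‖ = 1
  · refine le_trans ?_ (sphereUniform_closedBall_le v hv hε)
    refine measure_mono_ae ?_
    filter_upwards [sphereUniform_ae_norm (n := n)] with S hS
    intro hmem
    obtain ⟨-, harc⟩ := hmem
    show dist S v ≤ ε
    rw [dist_comm, dist_eq_norm]
    set θ := Real.arccos ⟪v, S⟫ with hθ
    have h0 : 0 ≤ θ := Real.arccos_nonneg _
    have habs : |⟪v, S⟫| ≤ 1 := by simpa [hv, hS] using abs_real_inner_le_norm v S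
    have hcos : Real.cos θ = ⟪v, S⟫ := Real.cos_arccos (abs_le.1 habs).1 (abs_le.1 habs).2
    have h1 := Real.one_sub_sq_div_two_le_cos (x := θ)
    have h2 : ‖v - S‖ ^ 2 ≤ ε ^ 2 := by
      rw [norm_sub_sq_real, hv, hS]
      nlinarith [pow_le_pow_left₀ h0 harc 2]
    exact (pow_le_pow_iff_left₀ (norm_nonneg _) hε two_ne_zero).1 h2
  · refine le_trans (le_of_eq ?_) zero_le
    convert measure_empty (μ := sphereUniform (n + 1)) using 2
    exact Set.eq_empty_of_forall_notMem fun S hS => hv hS.1

lemma Chain.lintegral_win_le_card (C : Chain n Q) {ε : ℝ} (hε : 0 ≤ ε) (r t : ℕ) (z : Q) :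
    ∫⁻ S, C.win ε r t z S ∂sphereUniform (n + 1)
      ≤ (Fintype.card Q : ℝ≥0∞) * ENNReal.ofReal (2 * (2 * ε) ^ n) := by
  refine (lintegral_mono fun S => C.win_le_sum_out ε r t z S).trans ?_
  have hp : ∀ z, IsProbabilityMeasure (C.out z) := fun z => ⟨C.out_prob z⟩
  have hm : ∀ z, Measurable fun S => C.out z (accurate ε S) := fun z => by
    have := hp z; exact measurable_measure_accurate (C.out z) ε
  rw [lintegral_finsetSum _ fun z _ => hm z, ← nsmul_eq_mul, ← Finset.card_univ, ← Finset.sum_const]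
  refine Finset.sum_le_sum fun z' _ => ?_
  have := hp z'
  set A : Set (Sp n × Sp n) := {p | ‖p.2‖ = 1 ∧ Real.arccos ⟪p.2, p.1⟫ ≤ ε}
  have hA : MeasurableSet A := measurableSet_accurate ε
  calc ∫⁻ S, C.out z' (accurate ε S) ∂sphereUniform (n + 1)
      = ((sphereUniform (n + 1)).prod (C.out z')) A := (Measure.prod_apply hA).symm
    _ = ∫⁻ v, sphereUniform (n + 1) {S | v ∈ accurate ε S} ∂C.out z' := Measure.prod_apply_symm hA
    _ ≤ ∫⁻ _, ENNReal.ofReal (2 * (2 * ε) ^ n) ∂C.out z' :=
        lintegral_mono fun v => accurate_prior_le v hε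
    _ = _ := by simp

end crude

section start

lemma par_of_large (hn : 2048 * 64 ≤ n) : Par n (2 ^ 13) (n / 2048) where
  hb := le_rfl
  hq := by omega
  hn := by omega
  hn' := by omega

/-- The cells of level 0 that meet the sphere are few and cover almost all of it. -/
lemma sphere_cells {K : ℕ} (hK : 0 < K) :
    ∃ J : Finset (Fin (n + 1) → ℤ), (J.card : ℝ) ≤ 2 ^ (8 * (n + 1)) ∧
      ∀ v : Sp n, ‖v‖ = 1 → idx K 0 v ∈ J := by
  classical
  set N : ℤ := (n : ℤ) + 2
  refine ⟨(Fintype.piFinset fun _ : Fin (n + 1) => Finset.Icc (-N) N).filter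
    fun j => ∃ v : Sp n, idx K 0 v = j ∧ ‖v‖ = 1, ?_, fun v hv => ?_⟩
  · refine (ball_cells hK 0 _ (0 : Sp n) (r := 1) fun j hj => ?_).trans ?_
    · obtain ⟨v, h1, h2⟩ := (Finset.mem_filter.1 hj).2
      exact ⟨v, h1, by simp [h2]⟩
    · rw [pow_mul]
      gcongr
      have he := Real.exp_one_lt_three
      have h4 : Real.exp (2 * 1 ^ 2 + 2 : ℝ) = Real.exp 1 ^ 4 := by
        rw [← Real.exp_nat_mul]; norm_num
      rw [h4]
      have : Real.exp 1 ^ 4 ≤ 64 := by
        have h28 : Real.exp 1 ≤ 2.8 := (Real.exp_one_lt_d9.le).trans (by norm_num)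
        calc Real.exp 1 ^ 4 ≤ (2.8 : ℝ) ^ 4 := by gcongr
          _ ≤ 64 := by norm_num
      linarith
  · refine Finset.mem_filter.2 ⟨Fintype.mem_piFinset.2 fun i => ?_, v, rfl, hv⟩
    have hvi : |v i| ≤ 1 := hv ▸ PiLp.norm_apply_le v i
    have hs : scale n K 0 ≤ (n : ℝ) + 1 := by
      simp only [scale, pow_zero, mul_one]
      rw [Real.sqrt_le_left (by positivity)]
      nlinarith [Nat.cast_nonneg (α := ℝ) n]
    have hs0 : 0 ≤ scale n K 0 := (scale_pos hK 0).le
    have hb : |v i * scale n K 0| ≤ (n : ℝ) + 1 := by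
      rw [abs_mul, abs_of_nonneg hs0]
      calc |v i| * scale n K 0 ≤ 1 * scale n K 0 := mul_le_mul_of_nonneg_right hvi hs0
        _ ≤ _ := by linarith
    rw [abs_le] at hb
    simp only [idx, Finset.mem_Icc, N]
    constructor
    · rw [Int.le_floor]; push_cast; linarith
    · rw [Int.floor_le_iff]; push_cast; linarith

/-- The bound from the induction, started from the prior. -/
lemma lintegral_win_start {Q : Type} [Fintype Q] {b q : ℕ} (hP : Par n b q) (C : Chain n Q)
    (hQ : (Fintype.card Q : ℝ≥0∞) ≤ two (128 * b * q ^ 2)) {ε : ℝ} (wtot : ℕ) (hw : wtot ≤ q)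
    (hε : ε ≤ (((ratio b : ℕ) : ℝ) ^ (wtot + 1))⁻¹) (T : ℕ) (hT : T ≤ wtot * q) (z : Q) :
    ∫⁻ S, C.win ε T 0 z S ∂sphereUniform (n + 1)
      ≤ two (-8 * (n + 1)) + two (5 + 3 * q - b * q) := by
  classical
  obtain ⟨J, hJ, hmem⟩ := sphere_cells (n := n) (ratio_pos b)
  set K := ratio b
  set σ := sphereUniform (n + 1)
  set B := two (5 + 3 * q - b * q)
  set f := C.win ε T 0 z
  have hae : ∀ᵐ S ∂σ, S ∈ ⋃ j ∈ J, cell K 0 j := by
    filter_upwards [sphereUniform_ae_norm (n := n)] with S hS
    simp only [Set.mem_iUnion]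
    exact ⟨idx K 0 S, hmem S hS, mem_cell_idx K 0 S⟩
  have hdis : Set.PairwiseDisjoint (↑J : Set (Fin (n + 1) → ℤ)) (cell (n := n) K 0) :=
    fun i _ j _ hij => Disjoint.preimage _ (Set.disjoint_singleton.2 hij)
  have hres : ∀ j, (σ.restrict (cell K 0 j)) Set.univ = σ (cell K 0 j) := fun j => by simp
  have hone : ∀ j ∈ J, ∫⁻ S in cell K 0 j, f S ∂σ
      ≤ two (-16 * (n + 1)) + σ (cell K 0 j) * B := by
    intro j _
    by_cases hsmall : σ (cell K 0 j) ≤ two (-16 * (n + 1))
    · refine le_add_right ((C.lintegral_win_le ε _ T 0 z).trans ?_)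
      rw [hres]; exact hsmall
    · refine le_add_left ?_
      have hν : Piece n b q 0 0 j 1 (σ.restrict (cell K 0 j)) :=
        { le_prior := Measure.restrict_le_self
          supp := by
            rw [Measure.restrict_apply (measurableSet_cell K 0 j).compl, Set.compl_inter_self,
              measure_empty]
          mass := by
            rw [hres]
            refine le_trans (two_le ?_) (not_le.1 hsmall).le
            have : 16 * ((n : ℤ) + 1) ≤ 1024 * (b : ℤ) * (q : ℤ) ^ 2 := by
              have h1 : (n : ℤ) ≤ 4096 * (q : ℤ) := by exact_mod_cast hP.hn'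
              have h2 : (2 : ℤ) ^ 13 ≤ (b : ℤ) := by exact_mod_cast hP.hb
              have h3 : (64 : ℤ) ≤ (q : ℤ) := by exact_mod_cast hP.hq
              nlinarith [mul_le_mul_of_nonneg_right h2 (sq_nonneg (q : ℤ))]
            push_cast
            linarith
          reg := by
            intro l hl _ c'
            refine (Measure.restrict_le_self _).trans ((mass_cell_le b (0 + l) c').trans ?_)
            rw [hres]
            refine le_trans (le_trans (two_le ?_) (le_of_eq (two_add _ _)))
              (mul_le_mul' (not_le.1 hsmall).le le_rfl)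
            have hmin : min 1 (4 * l + 1) = 1 := by omega
            rw [hmin]
            have : 17 * ((n : ℤ) + 1) ≤ 256 * (b : ℤ) * (q : ℤ) := by
              have h1 : (n : ℤ) ≤ 4096 * (q : ℤ) := by exact_mod_cast hP.hn'
              have h2 : (2 : ℤ) ^ 13 ≤ (b : ℤ) := by exact_mod_cast hP.hb
              have h3 : (64 : ℤ) ≤ (q : ℤ) := by exact_mod_cast hP.hq
              nlinarith [mul_le_mul_of_nonneg_right h2 (Nat.cast_nonneg (α := ℤ) q)]
            push_cast
            linarith
          bound := by omega }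
      refine (chain_bound hP C hQ wtot hw hε wtot 0 (by omega) 0 j 1 _ hν z 0 T hT).trans ?_
      rw [hres]
      refine mul_le_mul' le_rfl ?_
      simp only [B]
      rw [show (5 : ℤ) + 3 * (q : ℤ) - (b : ℤ) * (q : ℤ) = (q : ℤ) + (5 + 2 * (q : ℤ) - b * q) by ring,
        two_add, two_nat]
      refine mul_le_mul' ?_ le_rfl
      have : wtot + 1 ≤ 2 ^ q := (Nat.succ_le_succ hw).trans Nat.lt_two_pow_self
      exact_mod_cast this
  calc ∫⁻ S, f S ∂σ = ∫⁻ S in ⋃ j ∈ J, cell K 0 j, f S ∂σ := by
        rw [Measure.restrict_eq_self_of_ae_mem hae]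
    _ = ∑ j ∈ J, ∫⁻ S in cell K 0 j, f S ∂σ :=
        lintegral_biUnion_finset hdis (fun j _ => measurableSet_cell K 0 j) f
    _ ≤ ∑ j ∈ J, (two (-16 * (n + 1)) + σ (cell K 0 j) * B) := Finset.sum_le_sum hone
    _ ≤ _ := by
        rw [Finset.sum_add_distrib, Finset.sum_const, nsmul_eq_mul, ← Finset.sum_mul]
        refine add_le_add ?_ ?_
        · have hc : (J.card : ℝ≥0∞) ≤ two (8 * (n + 1)) := by
            rw [show (8 : ℤ) * ((n : ℤ) + 1) = ((8 * (n + 1) : ℕ) : ℤ) by push_cast; rfl, two_nat]
            have hJ' : J.card ≤ 2 ^ (8 * (n + 1)) := by exact_mod_cast hJ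
            exact_mod_cast hJ'
          refine (mul_le_mul' hc le_rfl).trans (le_of_eq ?_)
          rw [← two_add]; congr 1; ring
        · refine (mul_le_mul' ?_ le_rfl).trans_eq (one_mul _)
          rw [← measure_biUnion_finset hdis fun j _ => measurableSet_cell K 0 j]
          exact prob_le_one

end start

section main

/-- A learner with M ≤ d² / 64 bits needs a number of samples proportional to d log (1/ε). -/
lemma lower_bound_aux {b : ℕ} (hb : b = 2 ^ 13) (hn : 2048 * 64 ≤ n) {ε : ℝ} (hε0 : 0 < ε)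
    (hε1 : ε ≤ (((ratio b : ℕ) : ℝ) ^ 4)⁻¹) (hM : 64 * M ≤ (n + 1) ^ 2) (T : ℕ)
    (L : Learner (n + 1) M) (hT : (T : ℝ) < (1 / 2 ^ 29) * ((n + 1 : ℕ) : ℝ) * Real.log (1 / ε)) :
    successProb L T ε ≤ 1 / 2 := by
  set q := n / 2048 with hq
  have hP : Par n b q := hb ▸ par_of_large hn
  set K : ℝ := ((ratio b : ℕ) : ℝ) with hK
  have hKeq : K = 2 ^ (8 * b) := by rw [hK, ratio]; push_cast; rfl
  have hK1 : 1 < K := by
    rw [hKeq]; exact one_lt_pow₀ one_lt_two (by positivity)
  have hKlog : Real.log K = (8 * b : ℕ) * Real.log 2 := by rw [hKeq, Real.log_pow]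
  have hε1' : ε ≤ 1 := hε1.trans (inv_le_one_of_one_le₀ (one_le_pow₀ hK1.le))
  refine successProb_le_of_win L T ε fun z => ?_
  have hhalf : two (-2) + two (-2) = 1 / 2 := by
    rw [← two_mul, show (2 : ℝ≥0∞) = two 1 by simp [two], ← two_add]
    simp [two, zpow_neg_one]
  by_cases hcase : ε ≤ (K ^ (q + 1))⁻¹
  · -- a guess is hopeless
    refine ((rChain L T).lintegral_win_le_card hε0.le T 0 z).trans ?_
    calc (Fintype.card (RState L T) : ℝ≥0∞) * ENNReal.ofReal (2 * (2 * ε) ^ n)
        ≤ ((2 ^ M * (T + 2) : ℕ) : ℝ≥0∞) * ENNReal.ofReal (2 * (2 * ε) ^ n) := by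
          gcongr; exact card_rState L T
      _ = ENNReal.ofReal (((2 ^ M * (T + 2) : ℕ) : ℝ) * (2 * (2 * ε) ^ n)) := by
          rw [ENNReal.ofReal_mul (Nat.cast_nonneg _), ENNReal.ofReal_natCast]
      _ ≤ ENNReal.ofReal ((2 : ℝ) ^ (-1 : ℤ)) := by
          refine ENNReal.ofReal_le_ofReal ?_
          have hd : (1 : ℝ) ≤ ((n + 1 : ℕ) : ℝ) := by exact_mod_cast Nat.succ_pos n
          have hT2 : ((T : ℝ) + 2) * ε ≤ 3 * ((n + 1 : ℕ) : ℝ) := by
            have hl : Real.log (1 / ε) ≤ 1 / ε :=
              (Real.log_le_sub_one_of_pos (by positivity)).trans (by linarith)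
            have h1 : (T : ℝ) * ε ≤ ((n + 1 : ℕ) : ℝ) := by
              calc (T : ℝ) * ε ≤ (1 * ((n + 1 : ℕ) : ℝ) * (1 / ε)) * ε := by
                    gcongr
                    refine hT.le.trans ?_
                    gcongr
                    · exact Real.log_nonneg ((one_le_div₀ hε0).2 hε1')
                    · norm_num
                _ = _ := by field_simp
            linarith
          have h3 : 3 * ((n + 1 : ℕ) : ℝ) ≤ 2 ^ (n + 3) := by
            have h : 3 * (n + 1) ≤ 2 ^ (n + 3) := by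
              have h2 := Nat.lt_two_pow_self (n := n)
              rw [pow_add]; omega
            exact_mod_cast h
          obtain ⟨m, rfl⟩ : ∃ m, n = m + 1 := ⟨n - 1, by omega⟩
          set e := M + (m + 1 + 3) + (m + 2)
          have hexp : e + 1 ≤ 8 * b * (q + 1) * m := by
            have h2 : m + 1 + 1 ≤ 2048 * (q + 1) := by omega
            have h4 : 64 * M ≤ (m + 2) ^ 2 := hM
            have h5 : 32 * (m + 1 + 1) * m ≤ 8 * b * (q + 1) * m := by
              refine Nat.mul_le_mul_right m ?_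
              have hb' : 8 * b = 32 * 2048 := by rw [hb]; norm_num
              rw [hb', mul_assoc 32 2048]
              exact Nat.mul_le_mul_left 32 h2
            have hm : 100 ≤ m := by omega
            have h6 : (m + 2) ^ 2 ≤ 64 * ((m + 2) * m) := by
              rw [sq, ← mul_assoc, mul_comm 64, mul_assoc]
              exact Nat.mul_le_mul_left _ (by omega)
            have h7 : (m + 2) * 100 ≤ (m + 2) * m := Nat.mul_le_mul_left _ hm
            have h8 : 32 * ((m + 2) * m) = 32 * (m + 1 + 1) * m := by ring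
            simp only [e]
            omega
          calc ((2 ^ M * (T + 2) : ℕ) : ℝ) * (2 * (2 * ε) ^ (m + 1))
              = 2 ^ M * (((T : ℝ) + 2) * ε) * 2 ^ (m + 2) * ε ^ m := by push_cast; ring
            _ ≤ 2 ^ M * (2 ^ (m + 1 + 3)) * 2 ^ (m + 2) * ((K ^ (q + 1))⁻¹) ^ m := by
                gcongr
                exact hT2.trans h3
            _ = 2 ^ e / 2 ^ (8 * b * (q + 1) * m) := by
                rw [hKeq, inv_pow, ← pow_mul, ← pow_mul, ← mul_assoc, div_eq_mul_inv]
                simp only [e, pow_add]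
            _ ≤ (2 : ℝ) ^ (-1 : ℤ) := by
                rw [zpow_neg_one, div_le_iff₀ (by positivity), ← div_eq_inv_mul,
                  le_div_iff₀ two_pos, ← pow_succ]
                exact pow_le_pow_right₀ one_le_two hexp
      _ = 1 / 2 := by
          rw [zpow_neg_one, ENNReal.ofReal_inv_of_pos two_pos, ENNReal.ofReal_ofNat, one_div]
  · -- the levels up to log (1/ε) are tracked
    set x := Real.log (1 / ε) / Real.log K with hx
    have hlK : 0 < Real.log K := Real.log_pos hK1
    have hlog : Real.log (1 / ε) = x * Real.log K := by rw [hx, div_mul_cancel₀ _ hlK.ne']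
    have key : ∀ j : ℕ, ε ≤ (K ^ j)⁻¹ ↔ (j : ℝ) ≤ x := by
      intro j
      rw [hx, le_div_iff₀ hlK, ← Real.log_pow, Real.log_le_log_iff (by positivity) (by positivity),
        le_div_iff₀ hε0, ← one_div, le_div_iff₀ (by positivity), mul_comm]
    have hx4 : (4 : ℝ) ≤ x := by exact_mod_cast (key 4).1 hε1
    have hxq : x < ((q + 1 : ℕ) : ℝ) := lt_of_not_ge fun h => hcase ((key (q + 1)).2 h)
    have hx0 : 0 ≤ x := by linarith
    obtain ⟨w, hwe⟩ : ∃ w, ⌊x⌋₊ = w + 1 :=
      Nat.exists_eq_add_of_le' (Nat.le_floor (show ((1 : ℕ) : ℝ) ≤ x by push_cast; linarith))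
    have hwq : w ≤ q := by
      have := (Nat.floor_lt hx0).2 hxq
      omega
    have hεw : ε ≤ (K ^ (w + 1))⁻¹ := (key _).2 (hwe ▸ Nat.floor_le hx0)
    have hwx : x / 2 ≤ (w : ℝ) := by
      have := Nat.lt_floor_add_one x
      rw [hwe] at this
      push_cast at this
      linarith
    have hnq : ((n + 1 : ℕ) : ℝ) ≤ 4097 * (q : ℝ) := by
      have : n + 1 ≤ 4097 * q := by omega
      exact_mod_cast this
    have hTq : T ≤ w * q := by
      have : (T : ℝ) ≤ (w : ℝ) * (q : ℝ) := by
        refine le_trans ?_ (mul_le_mul_of_nonneg_right hwx (Nat.cast_nonneg q))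
        refine hT.le.trans ?_
        rw [hlog, hKlog, hb]
        have hl2 : Real.log 2 ≤ 0.7 := (Real.log_two_lt_d9.le).trans (by norm_num)
        have hl0 : 0 ≤ Real.log 2 := Real.log_nonneg one_le_two
        push_cast
        have h1 : ((n + 1 : ℕ) : ℝ) * (x * Real.log 2) ≤ 4097 * (q : ℝ) * (x * 0.7) :=
          mul_le_mul hnq (mul_le_mul_of_nonneg_left hl2 hx0) (by positivity) (by positivity)
        push_cast at h1
        nlinarith [mul_nonneg hx0 (Nat.cast_nonneg (α := ℝ) q)]
      exact_mod_cast this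
    have hQ : (Fintype.card (RState L T) : ℝ≥0∞) ≤ two (128 * b * q ^ 2) := by
      rw [show (128 : ℤ) * (b : ℤ) * (q : ℤ) ^ 2 = ((128 * b * q ^ 2 : ℕ) : ℤ) by push_cast; rfl,
        two_nat]
      have h : Fintype.card (RState L T) ≤ 2 ^ (128 * b * q ^ 2) := by
        refine (card_rState L T).trans ?_
        have hTT : T + 2 ≤ 2 ^ (q ^ 2 + 1) := by
          have h1 : T ≤ q ^ 2 := hTq.trans ((Nat.mul_le_mul_right q hwq).trans_eq (sq q).symm)
          have h2 := Nat.lt_two_pow_self (n := q ^ 2 + 1)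
          omega
        refine (Nat.mul_le_mul_left _ hTT).trans ?_
        rw [← pow_add]
        refine Nat.pow_le_pow_right two_pos ?_
        have h1 : (n + 1) ^ 2 ≤ (4097 * q) ^ 2 := Nat.pow_le_pow_left (by omega) 2
        have h2 : 1 ≤ q ^ 2 := Nat.one_le_pow _ _ (by omega)
        rw [hb]; nlinarith
      exact_mod_cast h
    refine (lintegral_win_start hP (rChain L T) hQ w hwq hεw T hTq z).trans ?_
    rw [← hhalf]
    refine add_le_add (two_le ?_) (two_le ?_)
    · omega
    · have h3 : (64 : ℤ) ≤ (q : ℤ) := by exact_mod_cast hP.hq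
      rw [hb]; push_cast; linarith

/-- Learners with M ≤ c d² bits need at least c' d log (1/ε) samples. -/
theorem memory_sample_lower_bound :
    ∃ c c' ε₀ : ℝ, 0 < c ∧ 0 < c' ∧ 0 < ε₀ ∧ ∃ d₀ : ℕ, ∀ d ≥ d₀, ∀ ε : ℝ, 0 < ε → ε ≤ ε₀ →
      ∀ M : ℕ, (M : ℝ) ≤ c * (d : ℝ) ^ 2 → ∀ (T : ℕ) (L : Learner d M),
        (2 / 3 : ℝ≥0∞) ≤ successProb L T ε → c' * d * Real.log (1 / ε) ≤ T := by
  refine ⟨1 / 64, 1 / 2 ^ 29, (((ratio (2 ^ 13) : ℕ) : ℝ) ^ 4)⁻¹, by norm_num, by positivity, ?_,
    2048 * 64 + 1, ?_⟩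
  · have : (0 : ℝ) < ((ratio (2 ^ 13) : ℕ) : ℝ) := by exact_mod_cast ratio_pos _
    positivity
  intro d hd ε hε0 hε1 M hM T L hwin
  obtain ⟨n, rfl⟩ : ∃ n, d = n + 1 := ⟨d - 1, by omega⟩
  by_contra hT
  have hM' : 64 * M ≤ (n + 1) ^ 2 := by
    have : (64 : ℝ) * M ≤ ((n + 1 : ℕ) : ℝ) ^ 2 := by linarith
    exact_mod_cast this
  have := hwin.trans (lower_bound_aux rfl (by omega) hε0 hε1 hM' T L (not_le.1 hT))
  have h2 := ENNReal.toReal_mono (by simp) this
  norm_num [ENNReal.toReal_div] at h2

end main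

end Vale.Agent.P309
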